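import Crest.Agent.R115.Free

set_option autoImplicit false

open Crest.AnalysisR

namespace Crest.Agent.R115

noncomputable section

variable (P : PointedMetric)

/-- Coordinate cut-off: `δ x` on `F`, zero elsewhere. -/
def cutFun (F : Finset P.M) [DecidablePred (· ∈ F)] : P.M → P.FreeSpace :=
  fun x => if x ∈ F then delta P x else 0

open Classical in
/-- The coordinate projection operator. -/
def cut (F : Finset P.M) : P.FreeSpace →L[ℝ] P.FreeSpace := ext P (cutFun P F)

open Classical in
lemma cutFun_lip (F : Finset P.M) (D : ℝ) (hD : 1 ≤ D)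
    (hsep : ∀ x y : P.M, x ≠ y → 1 ≤ dist x y) (hF : ∀ x ∈ F, dist x P.base ≤ D) (x y : P.M) :
    ‖cutFun P F x - cutFun P F y‖ ≤ D * dist x y := by
  unfold cutFun
  have h1 : dist x y ≤ D * dist x y := by nlinarith [dist_nonneg (x := x) (y := y)]
  rcases eq_or_ne x y with rfl | hxy
  · simp
  · have hd := hsep x y hxy
    split_ifs with hx hy hy
    · exact (dist_delta_le P x y).trans h1
    · rw [sub_zero]
      refine (norm_delta_le P x).trans ((hF x hx).trans ?_)
      nlinarith
    · rw [zero_sub, norm_neg]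
      refine (norm_delta_le P y).trans ((hF y hy).trans ?_)
      nlinarith
    · simp only [sub_zero, norm_zero]
      positivity

open Classical in
lemma cutFun_base (F : Finset P.M) : cutFun P F P.base = 0 := by
  unfold cutFun
  split_ifs
  · exact delta_base P
  · rfl

open Classical in
lemma cut_finite (F : Finset P.M) (D : ℝ) (hD : 1 ≤ D)
    (hsep : ∀ x y : P.M, x ≠ y → 1 ≤ dist x y) (hF : ∀ x ∈ F, dist x P.base ≤ D) :
    FiniteDimensional ℝ (LinearMap.range (cut P F).toLinearMap) := by
  set V : Submodule ℝ P.FreeSpace := Submodule.span ℝ ((delta P) '' (F : Set P.M)) with hV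
  have hVf : FiniteDimensional ℝ V :=
    FiniteDimensional.span_of_finite ℝ (F.finite_toSet.image _)
  have hVc : IsClosed (V : Set P.FreeSpace) := V.closed_of_finiteDimensional
  have hle : LinearMap.range (cut P F).toLinearMap ≤ V := by
    rintro _ ⟨y, rfl⟩
    change (cut P F) y ∈ (V : Set P.FreeSpace)
    have hcl : IsClosed {y | (cut P F) y ∈ (V : Set P.FreeSpace)} :=
      hVc.preimage (cut P F).continuous
    refine (emb_dense P).induction_on (p := fun y => (cut P F) y ∈ (V : Set P.FreeSpace)) y hcl ?_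
    intro a
    rw [cut, ext_emb P (cutFun P F) D (by linarith) (cutFun_lip P F D hD hsep hF)
      (cutFun_base P F)]
    refine mol_induction P (p := fun a => lsum P (cutFun P F) a ∈ (V : Set P.FreeSpace))
      ?_ ?_ ?_ a
    · simp
    · intro a b ha hb
      rw [map_add]; exact V.add_mem ha hb
    · intro c x
      rw [map_smul, lsum_mdelta]
      refine V.smul_mem c ?_
      unfold cutFun
      split_ifs with hx
      · exact Submodule.subset_span ⟨x, hx, rfl⟩
      · exact V.zero_mem
  exact Submodule.finiteDimensional_of_le hle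

/-- elements supported on `F` are fixed by `cut F` -/
lemma cut_emb (F : Finset P.M) (D : ℝ) (hD : 1 ≤ D)
    (hsep : ∀ x y : P.M, x ≠ y → 1 ≤ dist x y) (hF : ∀ x ∈ F, dist x P.base ≤ D)
    (a : P.Mol) (ha : ∀ x, (P.coeffs a) x ≠ 0 → x ∈ F) : cut P F (emb P a) = emb P a := by
  classical
  rw [cut, ext_emb P (cutFun P F) D (by linarith) (cutFun_lip P F D hD hsep hF)
      (cutFun_base P F), ← lsum_delta]
  change Finsupp.linearCombination ℝ (cutFun P F) (P.coeffs a)
    = Finsupp.linearCombination ℝ (delta P) (P.coeffs a)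
  rw [Finsupp.linearCombination_apply, Finsupp.linearCombination_apply]
  refine Finsupp.sum_congr fun x hx => ?_
  have := ha x (Finsupp.mem_support_iff.mp hx)
  simp [cutFun, this]

/-- The approximation property for separated spaces which are exhausted by bounded sets with
uniformly Lipschitz collapse of the complement to the base point. -/
theorem hasAP_of_exhaustion (hsep : ∀ x y : P.M, x ≠ y → 1 ≤ dist x y)
    (A : ℕ → Set P.M) (hmono : Monotone A) (hcov : ∀ x, ∃ n, x ∈ A n)
    (D : ℕ → ℝ) (hD : ∀ n, ∀ x ∈ A n, dist x P.base ≤ D n)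
    (C : ℝ) (hC : 1 ≤ C) (hA : ∀ n, ∀ x ∈ A n, ∀ y, y ∉ A n → dist x P.base ≤ C * dist x y) :
    HasAP P.FreeSpace := by
  classical
  intro K hK ε hε
  -- collapse maps
  set r : ℕ → P.M → P.M := fun n x => if x ∈ A n then x else P.base with hr
  have hr0 : ∀ n, r n P.base = P.base := by intro n; simp [hr]
  have hrL : ∀ n x y, dist (r n x) (r n y) ≤ C * dist x y := by
    intro n x y
    have h1 : dist x y ≤ C * dist x y := by nlinarith [dist_nonneg (x := x) (y := y)]
    simp only [hr]
    split_ifs with hx hy hy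
    · exact h1
    · exact hA n x hx y hy
    · rw [dist_comm P.base y, dist_comm x y]; exact hA n y hy x hx
    · rw [dist_self]; positivity
  have hC0 : 0 ≤ C := by linarith
  -- step 1 : finite net of K made of molecules
  set η : ℝ := ε / (4 * (C + 1)) with hη
  have hηpos : 0 < η := by positivity
  have net : ∀ (K : Set P.FreeSpace), IsCompact K → ∀ η : ℝ, 0 < η →
      ∃ S : Finset P.Mol, ∀ x ∈ K, ∃ a ∈ S, ‖x - emb P a‖ < η := by
    intro K hK η hη
    obtain ⟨t, ht⟩ := hK.elim_finite_subcover
      (fun a : P.Mol => Metric.ball (emb P a) η) (fun a => Metric.isOpen_ball) (by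
        intro x _
        obtain ⟨a, ha⟩ := Metric.denseRange_iff.mp (emb_dense P) x η hη
        exact Set.mem_iUnion.mpr ⟨a, by simpa [Metric.mem_ball] using ha⟩)
    refine ⟨t, fun x hx => ?_⟩
    obtain ⟨a, ha, hxa⟩ := Set.mem_iUnion₂.mp (ht hx)
    refine ⟨a, ha, ?_⟩
    rwa [Metric.mem_ball, dist_eq_norm] at hxa
  obtain ⟨S, hS⟩ := net K hK η hηpos
  -- index containing all supports
  obtain ⟨N, hN⟩ : ∃ N, ∀ a ∈ S, ∀ x, (P.coeffs a) x ≠ 0 → x ∈ A N := by
    have h1 : ∀ G : Finset P.M, ∃ N, ∀ x ∈ G, x ∈ A N := by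
      intro G
      choose n hn using hcov
      refine ⟨G.sup n, fun x hx => hmono (Finset.le_sup hx) (hn x)⟩
    obtain ⟨N, hN⟩ := h1 (S.biUnion fun a => (P.coeffs a).support)
    refine ⟨N, fun a ha x hx => hN x ?_⟩
    exact Finset.mem_biUnion.mpr ⟨a, ha, Finsupp.mem_support_iff.mpr hx⟩
  -- the operator P_N
  set R : P.FreeSpace →L[ℝ] P.FreeSpace := lmap (r N) with hR
  have hRn : ‖R‖ ≤ C := norm_lmap_le (r N) C hC0 (hrL N) (hr0 N)
  have hRd : ∀ x, R (delta P x) = delta P (r N x) :=
    lmap_delta (r N) C hC0 (hrL N) (hr0 N)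
  have hRfix : ∀ a : P.Mol, (∀ x, (P.coeffs a) x ≠ 0 → x ∈ A N) → R (emb P a) = emb P a := by
    intro a ha
    have h1 : R (emb P a) = lsum P (fun x => delta P (r N x)) a := by
      rw [hR]
      exact ext_emb P _ C hC0
        (fun x y => (dist_delta_le P _ _).trans (hrL N x y)) (by simp [hr0, delta_base]) a
    rw [h1, ← lsum_delta]
    change Finsupp.linearCombination ℝ (fun x => delta P (r N x)) (P.coeffs a)
      = Finsupp.linearCombination ℝ (delta P) (P.coeffs a)
    rw [Finsupp.linearCombination_apply, Finsupp.linearCombination_apply]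
    refine Finsupp.sum_congr fun x hx => ?_
    have := ha x (Finsupp.mem_support_iff.mp hx)
    simp [hr, this]
  have hstep1 : ∀ x ∈ K, ‖R x - x‖ ≤ ε / 4 := by
    intro x hx
    obtain ⟨a, ha, hxa⟩ := hS x hx
    have h1 : R x - x = R (x - emb P a) - (x - emb P a) := by
      rw [map_sub, hRfix a (hN a ha)]; abel
    rw [h1]
    have h2 : ‖R (x - emb P a)‖ ≤ C * η :=
      (R.le_of_opNorm_le hRn _).trans (by gcongr)
    calc ‖R (x - emb P a) - (x - emb P a)‖ ≤ ‖R (x - emb P a)‖ + ‖x - emb P a‖ := norm_sub_le _ _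
      _ ≤ C * η + η := add_le_add h2 hxa.le
      _ = (C + 1) * η := by ring
      _ = ε / 4 := by rw [hη]; field_simp
  -- step 2
  set DN : ℝ := max 1 (D N) with hDN
  have hDN1 : 1 ≤ DN := le_max_left _ _
  set η' : ℝ := ε / (4 * (DN + 1) * C) with hη'
  have hη'pos : 0 < η' := by positivity
  obtain ⟨S', hS'⟩ := net K hK η' hη'pos
  -- push the approximants into A N
  set F : Finset P.M := (S'.biUnion fun a => (P.coeffs a).support).filter (fun x => x ∈ A N)
    with hF
  have hFD : ∀ x ∈ F, dist x P.base ≤ DN := by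
    intro x hx
    exact (hD N x (Finset.mem_filter.mp hx).2).trans (le_max_right _ _)
  refine ⟨cut P F, cut_finite P F DN hDN1 hsep hFD, fun x hx => ?_⟩
  have hcn : ‖cut P F‖ ≤ DN := norm_ext_le P _ DN (by linarith)
    (cutFun_lip P F DN hDN1 hsep hFD) (cutFun_base P F)
  have hcd : ∀ x, cut P F (delta P x) = cutFun P F x :=
    ext_delta P _ DN (by linarith) (cutFun_lip P F DN hDN1 hsep hFD) (cutFun_base P F)
  have hcR : ∀ y, cut P F (R y) = cut P F y := by
    have : (cut P F).comp R = cut P F := by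
      refine clm_ext P fun x => ?_
      rw [ContinuousLinearMap.comp_apply, hRd, hcd, hcd]
      by_cases hxA : x ∈ A N
      · simp [hr, hxA]
      · have hxF : x ∉ F := fun h => hxA (Finset.mem_filter.mp h).2
        have : r N x = P.base := by simp [hr, hxA]
        rw [this, cutFun_base]
        simp [cutFun, hxF]
    intro y
    exact congrArg (fun L => L y) this
  obtain ⟨a, ha, hxa⟩ := hS' x hx
  -- `R a` is fixed by `cut`
  have hfix : cut P F (R (emb P a)) = R (emb P a) := by
    have h1 : R (emb P a) = lsum P (fun x => delta P (r N x)) a := by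
      rw [hR]
      exact ext_emb P _ C hC0
        (fun x y => (dist_delta_le P _ _).trans (hrL N x y)) (by simp [hr0, delta_base]) a
    have h2 : cut P F (emb P a) = lsum P (cutFun P F) a :=
      ext_emb P _ DN (by linarith) (cutFun_lip P F DN hDN1 hsep hFD) (cutFun_base P F) a
    rw [hcR, h2, h1]
    change Finsupp.linearCombination ℝ (cutFun P F) (P.coeffs a)
      = Finsupp.linearCombination ℝ (fun x => delta P (r N x)) (P.coeffs a)
    rw [Finsupp.linearCombination_apply, Finsupp.linearCombination_apply]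
    refine Finsupp.sum_congr fun z hz => ?_
    congr 1
    by_cases hzA : z ∈ A N
    · have hzF : z ∈ F := Finset.mem_filter.mpr ⟨Finset.mem_biUnion.mpr ⟨a, ha, hz⟩, hzA⟩
      simp [cutFun, hr, hzF, hzA]
    · have hzF : z ∉ F := fun h => hzA (Finset.mem_filter.mp h).2
      simp [cutFun, hr, hzF, hzA, delta_base]
  have h3 : cut P F x - x = cut P F (R (x - emb P a)) - R (x - emb P a) + (R x - x) := by
    rw [map_sub R, map_sub (cut P F), hfix, hcR]; abel
  rw [h3]
  have h4 : ‖R (x - emb P a)‖ ≤ C * η' := (R.le_of_opNorm_le hRn _).trans (by gcongr)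
  have h5 : ‖cut P F (R (x - emb P a))‖ ≤ DN * (C * η') :=
    ((cut P F).le_of_opNorm_le hcn _).trans (by gcongr)
  have h6 : DN * (C * η') + C * η' = ε / 4 := by
    rw [hη']; field_simp
  calc ‖cut P F (R (x - emb P a)) - R (x - emb P a) + (R x - x)‖
      ≤ ‖cut P F (R (x - emb P a)) - R (x - emb P a)‖ + ‖R x - x‖ := norm_add_le _ _
    _ ≤ (‖cut P F (R (x - emb P a))‖ + ‖R (x - emb P a)‖) + ‖R x - x‖ := by
        gcongr; exact norm_sub_le _ _
    _ ≤ (DN * (C * η') + C * η') + ε / 4 := add_le_add (add_le_add h5 h4) (hstep1 x hx)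
    _ ≤ ε := by rw [h6]; linarith

end

end Crest.Agent.R115
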