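import Mathlib

/-!
Row 115, blueprint B: abstract levelled dynamics.  A `Sys` is a family of permutations `s i` of a
levelled set `V` moving levels by at most one, together with truncations `tr n i` to the finite sets
`{v | lev v ≤ n}`.  `G n` is the finite group of permutations of the truncation.  For `n` large
(`Faithful`), words of bounded length that are trivial in `G n` are trivial on `V`, so there is a
local homomorphism `psi : G n → Perm V`.
-/

set_option autoImplicit false
open Finset

namespace Crest.Agent.R115.Dyn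

/-- a levelled system of permutations with truncations -/
structure Sys (V ι : Type) where
  /-- the level -/
  lev : V → ℕ
  /-- the permutations -/
  s : ι → Equiv.Perm V
  lev_le : ∀ i v, lev (s i v) ≤ lev v + 1
  lev_le' : ∀ i v, lev v ≤ lev (s i v) + 1
  /-- the truncations -/
  tr : ∀ n : ℕ, ι → Equiv.Perm {v : V // lev v ≤ n}
  tr_eq : ∀ n i (u : {v // lev v ≤ n}), lev (s i u) ≤ n → (tr n i u : V) = s i u

namespace Sys

variable {V ι : Type} (S : Sys V ι)

/-- the finite group of types -/
abbrev G (n : ℕ) : Type := Equiv.Perm {v : V // S.lev v ≤ n}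

/-- the permutation of `V` of a letter -/
def letV (c : ι × Bool) : Equiv.Perm V := if c.2 then S.s c.1 else (S.s c.1)⁻¹

/-- the element of `G n` of a letter -/
def letG (n : ℕ) (c : ι × Bool) : S.G n := if c.2 then S.tr n c.1 else (S.tr n c.1)⁻¹

/-- the permutation of `V` of a word -/
def wordV (w : List (ι × Bool)) : Equiv.Perm V := (w.map S.letV).prod

/-- the element of `G n` of a word -/
def wordG (n : ℕ) (w : List (ι × Bool)) : S.G n := (w.map (S.letG n)).prod

@[simp] theorem wordV_nil : S.wordV [] = 1 := rfl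
@[simp] theorem wordG_nil (n : ℕ) : S.wordG n [] = 1 := rfl

@[simp] theorem wordV_cons (c : ι × Bool) (w : List (ι × Bool)) :
    S.wordV (c :: w) = S.letV c * S.wordV w := by simp [wordV]

@[simp] theorem wordG_cons (n : ℕ) (c : ι × Bool) (w : List (ι × Bool)) :
    S.wordG n (c :: w) = S.letG n c * S.wordG n w := by simp [wordG]

theorem wordV_append (w w' : List (ι × Bool)) : S.wordV (w ++ w') = S.wordV w * S.wordV w' := by
  simp [wordV]

theorem wordG_append (n : ℕ) (w w' : List (ι × Bool)) :
    S.wordG n (w ++ w') = S.wordG n w * S.wordG n w' := by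
  simp [wordG]

/-- the inverse letter -/
def flip (c : ι × Bool) : ι × Bool := (c.1, !c.2)

@[simp] theorem letV_flip (c : ι × Bool) : S.letV (flip c) = (S.letV c)⁻¹ := by
  unfold letV flip; rcases c with ⟨i, b⟩; cases b <;> simp

@[simp] theorem letG_flip (n : ℕ) (c : ι × Bool) : S.letG n (flip c) = (S.letG n c)⁻¹ := by
  unfold letG flip; rcases c with ⟨i, b⟩; cases b <;> simp

/-- the inverse word -/
def winv : List (ι × Bool) → List (ι × Bool)
  | [] => []
  | c :: w => winv w ++ [flip c]

@[simp] theorem length_winv (w : List (ι × Bool)) : (winv w).length = w.length := by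
  induction w with
  | nil => rfl
  | cons c w ih => simp [winv, ih]

theorem wordV_winv (w : List (ι × Bool)) : S.wordV (winv w) = (S.wordV w)⁻¹ := by
  induction w with
  | nil => simp [winv]
  | cons c w ih => simp [winv, wordV_append, ih]

theorem wordG_winv (n : ℕ) (w : List (ι × Bool)) : S.wordG n (winv w) = (S.wordG n w)⁻¹ := by
  induction w with
  | nil => simp [winv]
  | cons c w ih => simp [winv, wordG_append, ih]

theorem lev_letV (c : ι × Bool) (v : V) : S.lev (S.letV c v) ≤ S.lev v + 1 := by
  unfold letV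
  split_ifs with h
  · exact S.lev_le _ _
  · have := S.lev_le' c.1 ((S.s c.1)⁻¹ v)
    simpa using this

theorem lev_wordV (w : List (ι × Bool)) (v : V) : S.lev (S.wordV w v) ≤ S.lev v + w.length := by
  induction w with
  | nil => simp
  | cons c w ih =>
    rw [wordV_cons, Equiv.Perm.mul_apply, List.length_cons]
    have := S.lev_letV c (S.wordV w v)
    omega

theorem letG_apply (n : ℕ) (c : ι × Bool) (u : {v : V // S.lev v ≤ n})
    (h : S.lev (S.letV c u) ≤ n) : (S.letG n c u : V) = S.letV c u := by
  unfold letV at h ⊢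
  unfold letG
  split_ifs at h ⊢ with hc
  · exact S.tr_eq n c.1 u h
  · have h1 := S.tr_eq n c.1 ⟨(S.s c.1)⁻¹ u, h⟩ (by simpa using u.2)
    have h1' : ((S.tr n c.1) ⟨(S.s c.1)⁻¹ u, h⟩ : V) = u := by rw [h1]; simp
    have h2 : (S.tr n c.1) ⟨(S.s c.1)⁻¹ u, h⟩ = u := Subtype.ext h1'
    have h3 : (S.tr n c.1)⁻¹ u = ⟨(S.s c.1)⁻¹ u, h⟩ := by
      rw [Equiv.Perm.inv_eq_iff_eq]; exact h2.symm
    rw [h3]

theorem wordG_apply (n : ℕ) (w : List (ι × Bool)) (u : {v : V // S.lev v ≤ n})
    (h : S.lev u + w.length ≤ n) : (S.wordG n w u : V) = S.wordV w u := by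
  induction w with
  | nil => simp
  | cons c w ih =>
    rw [List.length_cons] at h
    rw [wordG_cons, wordV_cons, Equiv.Perm.mul_apply, Equiv.Perm.mul_apply]
    have ih' := ih (by omega)
    rw [S.letG_apply n c (S.wordG n w u), ih']
    rw [ih']
    have h1 := S.lev_letV c (S.wordV w u)
    have h2 := S.lev_wordV w u
    omega

/-- words of length at most `R` that are trivial in `G n` are trivial on `V` -/
def Faithful (n R : ℕ) : Prop :=
  ∀ w : List (ι × Bool), w.length ≤ R → S.wordG n w = 1 → S.wordV w = 1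

theorem exists_faithful [Finite ι] (R : ℕ) : ∃ n₀, ∀ n, n₀ ≤ n → S.Faithful n R := by
  classical
  have hfin : {w : List (ι × Bool) | w.length ≤ R}.Finite := List.finite_length_le (ι × Bool) R
  have hex : ∀ w : List (ι × Bool), ∃ v : Option V, S.wordV w ≠ 1 → ∃ v', v = some v' ∧
      S.wordV w v' ≠ v' := by
    intro w
    by_cases h : S.wordV w = 1
    · exact ⟨none, fun h' => absurd h h'⟩
    · have : ∃ v, S.wordV w v ≠ v := by
        by_contra hcon
        push Not at hcon
        exact h (Equiv.ext hcon)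
      obtain ⟨v, hv⟩ := this
      exact ⟨some v, fun _ => ⟨v, rfl, hv⟩⟩
  choose v hv using hex
  refine ⟨hfin.toFinset.sup (fun w => (v w).elim 0 S.lev + R), ?_⟩
  intro n hn w hw h1
  by_contra h
  obtain ⟨v', hv', hne⟩ := hv w h
  have hle : (v w).elim 0 S.lev + R ≤ n :=
    le_trans (Finset.le_sup (f := fun w => (v w).elim 0 S.lev + R)
      (hfin.mem_toFinset.mpr hw)) hn
  rw [hv'] at hle
  simp only [Option.elim_some] at hle
  have hvn : S.lev v' ≤ n := by omega
  have h2 := S.wordG_apply n w ⟨v', hvn⟩ (by simp only; omega)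
  rw [h1] at h2
  exact hne h2.symm

/-- the ball of radius `k` in `G n` -/
def ball (n k : ℕ) : Set (S.G n) := {h | ∃ w : List (ι × Bool), w.length ≤ k ∧ S.wordG n w = h}

theorem one_mem_ball (n k : ℕ) : (1 : S.G n) ∈ S.ball n k := ⟨[], by simp, rfl⟩

theorem ball_mono {n k l : ℕ} (h : k ≤ l) : S.ball n k ⊆ S.ball n l :=
  fun _ ⟨w, hw, hg⟩ => ⟨w, hw.trans h, hg⟩

theorem mul_mem_ball {n k : ℕ} (c : ι × Bool) {h : S.G n} (hh : h ∈ S.ball n k) :
    S.letG n c * h ∈ S.ball n (k + 1) := by
  obtain ⟨w, hw, rfl⟩ := hh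
  exact ⟨c :: w, by simpa using hw, by simp⟩

theorem mem_ball_mul {n k : ℕ} (c : ι × Bool) {h : S.G n} (hh : h ∈ S.ball n k) :
    h * S.letG n c ∈ S.ball n (k + 1) := by
  obtain ⟨w, hw, rfl⟩ := hh
  exact ⟨w ++ [c], by simpa using hw, by simp [wordG_append]⟩

theorem card_ball_le [Fintype ι] (n k : ℕ) :
    ∃ F : Finset (S.G n), (∀ h, h ∈ F ↔ h ∈ S.ball n k) ∧
      F.card ≤ (2 * Fintype.card ι + 1) ^ k := by
  classical
  induction k with
  | zero =>
    refine ⟨{1}, ?_, by simp⟩
    intro h
    rw [mem_singleton]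
    constructor
    · rintro rfl; exact S.one_mem_ball n 0
    · rintro ⟨w, hw, rfl⟩
      have : w = [] := by simpa using hw
      rw [this]; rfl
  | succ k ih =>
    obtain ⟨F, hF, hcard⟩ := ih
    refine ⟨(univ : Finset (Option (ι × Bool))).biUnion fun o =>
      o.elim F (fun c => F.image (fun h => S.letG n c * h)), ?_, ?_⟩
    · intro h
      rw [mem_biUnion]
      constructor
      · rintro ⟨o, _, ho⟩
        rcases o with _ | c
        · exact S.ball_mono (Nat.le_succ k) ((hF h).mp ho)
        · simp only [Option.elim_some, mem_image] at ho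
          obtain ⟨g, hg, rfl⟩ := ho
          exact S.mul_mem_ball c ((hF g).mp hg)
      · rintro ⟨w, hw, rfl⟩
        rcases w with _ | ⟨c, w⟩
        · exact ⟨none, mem_univ _, (hF _).mpr (S.one_mem_ball n k)⟩
        · refine ⟨some c, mem_univ _, ?_⟩
          simp only [Option.elim_some, mem_image]
          refine ⟨S.wordG n w, (hF _).mpr ⟨w, by simpa using hw, rfl⟩, by simp⟩
    · refine card_biUnion_le.trans ?_
      calc ∑ o : Option (ι × Bool), (o.elim F (fun c => F.image (fun h => S.letG n c * h))).card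
          ≤ ∑ _o : Option (ι × Bool), (2 * Fintype.card ι + 1) ^ k := by
            apply sum_le_sum
            intro o _
            rcases o with _ | c
            · exact hcard
            · exact card_image_le.trans hcard
        _ = (2 * Fintype.card ι + 1) ^ (k + 1) := by
            rw [sum_const, card_univ, Fintype.card_option, Fintype.card_prod, Fintype.card_bool,
              smul_eq_mul, pow_succ]
            ring

open Classical in
/-- the cut-off `(1 - |h|/r)^+` -/
noncomputable def chi (n r : ℕ) (h : S.G n) : ℝ :=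
  (∑ k ∈ range r, if h ∈ S.ball n k then (1 : ℝ) else 0) / r

open Classical in
theorem chi_one (n r : ℕ) (hr : 0 < r) : S.chi n r 1 = 1 := by
  unfold chi
  have : ∀ k ∈ range r, (if (1 : S.G n) ∈ S.ball n k then (1 : ℝ) else 0) = 1 :=
    fun k _ => if_pos (S.one_mem_ball n k)
  rw [sum_congr rfl this, sum_const, card_range, nsmul_eq_mul, mul_one, div_self]
  exact_mod_cast hr.ne'

theorem chi_nonneg (n r : ℕ) (h : S.G n) : 0 ≤ S.chi n r h := by
  unfold chi
  apply div_nonneg _ (Nat.cast_nonneg _)
  apply sum_nonneg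
  intro k _
  split_ifs <;> norm_num

open Classical in
theorem chi_le_one (n r : ℕ) (h : S.G n) : S.chi n r h ≤ 1 := by
  unfold chi
  apply div_le_one_of_le₀ _ (Nat.cast_nonneg _)
  calc ∑ k ∈ range r, (if h ∈ S.ball n k then (1 : ℝ) else 0) ≤ ∑ k ∈ range r, (1 : ℝ) := by
        apply sum_le_sum
        intro k _
        split_ifs <;> norm_num
    _ = r := by simp

theorem mem_ball_of_chi_ne_zero {n r : ℕ} {h : S.G n} (hh : S.chi n r h ≠ 0) :
    ∃ k < r, h ∈ S.ball n k := by
  by_contra hcon
  push Not at hcon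
  apply hh
  unfold chi
  rw [sum_eq_zero, zero_div]
  intro k hk
  exact if_neg (hcon k (mem_range.mp hk))

theorem mem_ball_of_chi_ne_zero' {n r : ℕ} {h : S.G n} (hh : S.chi n r h ≠ 0) :
    h ∈ S.ball n r := by
  obtain ⟨k, hk, h'⟩ := S.mem_ball_of_chi_ne_zero hh
  exact S.ball_mono hk.le h'

/-- one-sided comparison -/
theorem chi_le_of {n r : ℕ} {h h' : S.G n}
    (H : ∀ k, h ∈ S.ball n k → h' ∈ S.ball n (k + 1)) : S.chi n r h ≤ S.chi n r h' + 1 / r := by
  classical
  rcases Nat.eq_zero_or_pos r with rfl | hr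
  · simp [chi]
  unfold chi
  rw [← add_div]
  apply div_le_div_of_nonneg_right _ (Nat.cast_nonneg _)
  obtain ⟨m, rfl⟩ : ∃ m, r = m + 1 := ⟨r - 1, by omega⟩
  rw [sum_range_succ]
  calc ∑ k ∈ range m, (if h ∈ S.ball n k then (1 : ℝ) else 0) + (if h ∈ S.ball n m then 1 else 0)
      ≤ ∑ k ∈ range m, (if h' ∈ S.ball n (k + 1) then (1 : ℝ) else 0) + 1 := by
        apply add_le_add
        · apply sum_le_sum
          intro k _
          by_cases hk : h ∈ S.ball n k
          · rw [if_pos hk, if_pos (H k hk)]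
          · rw [if_neg hk]; split_ifs <;> norm_num
        · split_ifs <;> norm_num
    _ ≤ (∑ k ∈ range (m + 1), if h' ∈ S.ball n k then (1 : ℝ) else 0) + 1 := by
        rw [sum_range_succ']
        have : (0 : ℝ) ≤ if h' ∈ S.ball n 0 then 1 else 0 := by split_ifs <;> norm_num
        linarith

theorem abs_chi_mul_left (n r : ℕ) (c : ι × Bool) (h : S.G n) :
    |S.chi n r (S.letG n c * h) - S.chi n r h| ≤ 1 / r := by
  rw [abs_le]
  constructor
  · have := S.chi_le_of (n := n) (r := r) (h := h) (h' := S.letG n c * h)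
      (fun k hk => S.mul_mem_ball c hk)
    linarith
  · have := S.chi_le_of (n := n) (r := r) (h := S.letG n c * h) (h' := h) (fun k hk => by
      have := S.mul_mem_ball (flip c) hk
      rw [letG_flip, inv_mul_cancel_left] at this
      exact this)
    linarith

theorem abs_chi_mul_right (n r : ℕ) (c : ι × Bool) (h : S.G n) :
    |S.chi n r (h * S.letG n c) - S.chi n r h| ≤ 1 / r := by
  rw [abs_le]
  constructor
  · have := S.chi_le_of (n := n) (r := r) (h := h) (h' := h * S.letG n c)
      (fun k hk => S.mem_ball_mul c hk)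
    linarith
  · have := S.chi_le_of (n := n) (r := r) (h := h * S.letG n c) (h' := h) (fun k hk => by
      have := S.mem_ball_mul (flip c) hk
      rw [letG_flip, mul_inv_cancel_right] at this
      exact this)
    linarith

open Classical in
/-- the local homomorphism -/
noncomputable def psi (n R : ℕ) (h : S.G n) : Equiv.Perm V :=
  if H : ∃ w : List (ι × Bool), w.length ≤ R ∧ S.wordG n w = h then S.wordV H.choose else 1

theorem psi_word {n R : ℕ} (hf : S.Faithful n (2 * R)) {w : List (ι × Bool)} (hw : w.length ≤ R) :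
    S.psi n R (S.wordG n w) = S.wordV w := by
  have H : ∃ w' : List (ι × Bool), w'.length ≤ R ∧ S.wordG n w' = S.wordG n w := ⟨w, hw, rfl⟩
  unfold psi
  rw [dif_pos H]
  obtain ⟨h1, h2⟩ := H.choose_spec
  have h3 := hf (H.choose ++ winv w) (by rw [List.length_append, length_winv]; omega)
    (by rw [wordG_append, wordG_winv, h2, mul_inv_cancel])
  rw [wordV_append, wordV_winv] at h3
  exact mul_inv_eq_one.mp h3

theorem psi_one {n R : ℕ} (hf : S.Faithful n (2 * R)) : S.psi n R 1 = 1 := by
  have := S.psi_word hf (w := []) (by simp)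
  simpa using this

theorem psi_mul_left {n R : ℕ} (hf : S.Faithful n (2 * (R + 1))) (c : ι × Bool) {h : S.G n}
    (hh : h ∈ S.ball n R) : S.psi n (R + 1) (S.letG n c * h) = S.letV c * S.psi n (R + 1) h := by
  obtain ⟨w, hw, rfl⟩ := hh
  rw [← wordG_cons, S.psi_word hf (by simpa using hw), S.psi_word hf (by omega), wordV_cons]

theorem psi_mul_right {n R : ℕ} (hf : S.Faithful n (2 * (R + 1))) (c : ι × Bool) {h : S.G n}
    (hh : h ∈ S.ball n R) : S.psi n (R + 1) (h * S.letG n c) = S.psi n (R + 1) h * S.letV c := by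
  obtain ⟨w, hw, rfl⟩ := hh
  have : S.wordG n w * S.letG n c = S.wordG n (w ++ [c]) := by simp [wordG_append]
  rw [this, S.psi_word hf (by simpa using hw), S.psi_word hf (by omega), wordV_append]
  simp

theorem lev_psi_le {n R : ℕ} (hf : S.Faithful n (2 * R)) {h : S.G n}
    (hh : h ∈ S.ball n R) (v : V) : S.lev (S.psi n R h v) ≤ S.lev v + R ∧
      S.lev ((S.psi n R h)⁻¹ v) ≤ S.lev v + R := by
  obtain ⟨w, hw, rfl⟩ := hh
  rw [S.psi_word hf hw, ← wordV_winv]
  have h1 := S.lev_wordV w v
  have h2 := S.lev_wordV (winv w) v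
  rw [length_winv] at h2
  omega

end Sys

end Crest.Agent.R115.Dyn
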