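import Mathlib
import Crest.Agent.R115.Sys

/-!
Row 115, blueprint B: the concrete levelled system
`V p = Σ j, ZMod (p j) × ZMod (p j)` with shears `T1`, `T2`, translations `e1`, `e2` and the
level-changing involution `t`.
-/

set_option autoImplicit false
open Finset

namespace Crest.Agent.R115.Dyn

/-- one level -/
abbrev Lv (p : ℕ → ℕ) (j : ℕ) : Type := ZMod (p j) × ZMod (p j)

/-- the levelled set -/
abbrev V (p : ℕ → ℕ) : Type := Σ j, Lv p j

/-- the generators -/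
inductive Gen
  | T1 | T2 | e1 | e2 | t
  deriving DecidableEq

instance : Fintype Gen := ⟨{Gen.T1, Gen.T2, Gen.e1, Gen.e2, Gen.t}, by
  rintro (_ | _ | _ | _ | _) <;> simp⟩

variable (p : ℕ → ℕ)

/-! ### the levelwise permutations -/

/-- `(x, y) ↦ (x + y, y)` -/
def pT1 (j : ℕ) : Equiv.Perm (Lv p j) where
  toFun u := (u.1 + u.2, u.2)
  invFun u := (u.1 - u.2, u.2)
  left_inv u := by simp
  right_inv u := by simp

/-- `(x, y) ↦ (x, y + x)` -/
def pT2 (j : ℕ) : Equiv.Perm (Lv p j) where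
  toFun u := (u.1, u.2 + u.1)
  invFun u := (u.1, u.2 - u.1)
  left_inv u := by simp
  right_inv u := by simp

/-- `(x, y) ↦ (x + 1, y)` -/
def pe1 (j : ℕ) : Equiv.Perm (Lv p j) where
  toFun u := (u.1 + 1, u.2)
  invFun u := (u.1 - 1, u.2)
  left_inv u := by simp
  right_inv u := by simp

/-- `(x, y) ↦ (x, y + 1)` -/
def pe2 (j : ℕ) : Equiv.Perm (Lv p j) where
  toFun u := (u.1, u.2 + 1)
  invFun u := (u.1, u.2 - 1)
  left_inv u := by simp
  right_inv u := by simp

/-- levelwise permutation -/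
def lvl (f : ∀ j, Equiv.Perm (Lv p j)) : Equiv.Perm (V p) := Equiv.sigmaCongrRight f

@[simp] theorem lvl_apply (f : ∀ j, Equiv.Perm (Lv p j)) (v : V p) :
    lvl p f v = ⟨v.1, f v.1 v.2⟩ := rfl

theorem lvl_symm_fst (f : ∀ j, Equiv.Perm (Lv p j)) (v : V p) : ((lvl p f)⁻¹ v).1 = v.1 := by
  have := lvl_apply p f ((lvl p f)⁻¹ v)
  have h2 : lvl p f ((lvl p f)⁻¹ v) = v := by simp
  rw [h2] at this
  have := congrArg Sigma.fst this
  simpa using this.symm

/-! ### the level-changing involution -/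

/-- the point of level `j` with coordinates `a`, `b` -/
def mkV (j a b : ℕ) : V p := ⟨j, ((a : ZMod (p j)), (b : ZMod (p j)))⟩

/-- the map `theta` -/
def thetaFn (v : V p) : V p :=
  if p v.1 ≤ 2 * v.2.1.val then mkV p (v.1 + 1) v.2.1.val v.2.2.val
  else if 0 < v.1 ∧ v.2.1.val < p (v.1 - 1) ∧ v.2.2.val < p (v.1 - 1) ∧
    p (v.1 - 1) ≤ 2 * v.2.1.val then mkV p (v.1 - 1) v.2.1.val v.2.2.val
  else v

variable {p}

theorem mkV_self [∀ j, NeZero (p j)] (v : V p) : mkV p v.1 v.2.1.val v.2.2.val = v := by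
  rcases v with ⟨j, a, b⟩
  simp only [mkV]
  rw [ZMod.natCast_zmod_val, ZMod.natCast_zmod_val]

theorem thetaFn_thetaFn [∀ j, NeZero (p j)] (hp : ∀ j, 2 * p j ≤ p (j + 1)) (v : V p) :
    thetaFn p (thetaFn p v) = v := by
  have hpos : ∀ j, 0 < p j := fun j => Nat.pos_of_ne_zero (NeZero.ne _)
  have ha := ZMod.val_lt v.2.1
  have hb := ZMod.val_lt v.2.2
  by_cases h1 : p v.1 ≤ 2 * v.2.1.val
  · have e : thetaFn p v = mkV p (v.1 + 1) v.2.1.val v.2.2.val := by
      unfold thetaFn; rw [if_pos h1]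
    have hp1 := hp v.1
    have hva : ((v.2.1.val : ZMod (p (v.1 + 1)))).val = v.2.1.val :=
      ZMod.val_natCast_of_lt (by omega)
    have hvb : ((v.2.2.val : ZMod (p (v.1 + 1)))).val = v.2.2.val :=
      ZMod.val_natCast_of_lt (by omega)
    rw [e]
    unfold thetaFn
    simp only [mkV, hva, hvb]
    rw [if_neg (by omega), if_pos ⟨by omega, by simpa using ha, by simpa using hb, by simpa using h1⟩]
    exact mkV_self v
  · by_cases h2 : 0 < v.1 ∧ v.2.1.val < p (v.1 - 1) ∧ v.2.2.val < p (v.1 - 1) ∧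
      p (v.1 - 1) ≤ 2 * v.2.1.val
    · have e : thetaFn p v = mkV p (v.1 - 1) v.2.1.val v.2.2.val := by
        unfold thetaFn; rw [if_neg h1, if_pos h2]
      obtain ⟨h3, h4, h5, h6⟩ := h2
      have hva : ((v.2.1.val : ZMod (p (v.1 - 1)))).val = v.2.1.val :=
        ZMod.val_natCast_of_lt h4
      have hvb : ((v.2.2.val : ZMod (p (v.1 - 1)))).val = v.2.2.val :=
        ZMod.val_natCast_of_lt h5
      rw [e]
      unfold thetaFn
      simp only [mkV, hva, hvb]
      rw [if_pos h6]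
      have h7 : v.1 - 1 + 1 = v.1 := by omega
      change mkV p (v.1 - 1 + 1) v.2.1.val v.2.2.val = v
      rw [h7]
      exact mkV_self v
    · have e : thetaFn p v = v := by
        unfold thetaFn; rw [if_neg h1, if_neg h2]
      rw [e, e]

variable (p)

/-- the involution `theta` -/
def theta [∀ j, NeZero (p j)] (hp : ∀ j, 2 * p j ≤ p (j + 1)) : Equiv.Perm (V p) where
  toFun := thetaFn p
  invFun := thetaFn p
  left_inv := thetaFn_thetaFn hp
  right_inv := thetaFn_thetaFn hp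

/-- the generators as permutations of `V p` -/
def sV [∀ j, NeZero (p j)] (hp : ∀ j, 2 * p j ≤ p (j + 1)) : Gen → Equiv.Perm (V p)
  | Gen.T1 => lvl p (pT1 p)
  | Gen.T2 => lvl p (pT2 p)
  | Gen.e1 => lvl p (pe1 p)
  | Gen.e2 => lvl p (pe2 p)
  | Gen.t => theta p hp

variable {p}

theorem thetaFn_lev (v : V p) : (thetaFn p v).1 ≤ v.1 + 1 ∧ v.1 ≤ (thetaFn p v).1 + 1 := by
  unfold thetaFn
  split_ifs with h1 h2
  · simp only [mkV]; omega
  · simp only [mkV]; omega
  · omega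

/-- truncation of a permutation to levels `≤ n` -/
def trunc (σ : Equiv.Perm (V p)) (H : ∀ n (v : V p), v.1 ≤ n → ((σ v).1 ≤ n ↔ (σ⁻¹ v).1 ≤ n))
    (n : ℕ) : Equiv.Perm {v : V p // v.1 ≤ n} where
  toFun u := if h : (σ u).1 ≤ n then ⟨σ u, h⟩ else u
  invFun u := if h : (σ⁻¹ u).1 ≤ n then ⟨σ⁻¹ u, h⟩ else u
  left_inv u := by
    by_cases h : (σ u).1 ≤ n
    · have h2 : (σ⁻¹ (σ u)).1 ≤ n := by simpa using u.2
      simp only [dif_pos h, dif_pos h2]
      apply Subtype.ext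
      simp
    · have h2 : ¬ (σ⁻¹ u).1 ≤ n := fun h' => h ((H n u u.2).mpr h')
      simp only [dif_neg h, dif_neg h2]
  right_inv u := by
    by_cases h : (σ⁻¹ u).1 ≤ n
    · have h2 : (σ (σ⁻¹ u)).1 ≤ n := by simpa using u.2
      simp only [dif_pos h, dif_pos h2]
      apply Subtype.ext
      simp
    · have h2 : ¬ (σ u).1 ≤ n := fun h' => h ((H n u u.2).mp h')
      simp only [dif_neg h, dif_neg h2]

theorem trunc_apply (σ : Equiv.Perm (V p))
    (H : ∀ n (v : V p), v.1 ≤ n → ((σ v).1 ≤ n ↔ (σ⁻¹ v).1 ≤ n))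
    (n : ℕ) (u : {v : V p // v.1 ≤ n}) (h : (σ u).1 ≤ n) : (trunc σ H n u : V p) = σ u := by
  have e : trunc σ H n u = if h : (σ u).1 ≤ n then (⟨σ u, h⟩ : {v : V p // v.1 ≤ n}) else u := rfl
  rw [e, dif_pos h]

theorem lvl_H (f : ∀ j, Equiv.Perm (Lv p j)) (n : ℕ) (v : V p) (_ : v.1 ≤ n) :
    ((lvl p f v).1 ≤ n ↔ ((lvl p f)⁻¹ v).1 ≤ n) := by
  rw [lvl_symm_fst]; rfl

theorem sV_H [∀ j, NeZero (p j)] (hp : ∀ j, 2 * p j ≤ p (j + 1)) (g : Gen) (n : ℕ) (v : V p)
    (hv : v.1 ≤ n) : ((sV p hp g v).1 ≤ n ↔ ((sV p hp g)⁻¹ v).1 ≤ n) := by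
  rcases g with _ | _ | _ | _ | _
  · exact lvl_H _ n v hv
  · exact lvl_H _ n v hv
  · exact lvl_H _ n v hv
  · exact lvl_H _ n v hv
  · exact Iff.rfl

/-- the levelled system -/
def sys (p : ℕ → ℕ) [∀ j, NeZero (p j)] (hp : ∀ j, 2 * p j ≤ p (j + 1)) : Sys (V p) Gen where
  lev v := v.1
  s := sV p hp
  lev_le g v := by
    rcases g with _ | _ | _ | _ | _
    · exact Nat.le_succ _
    · exact Nat.le_succ _
    · exact Nat.le_succ _
    · exact Nat.le_succ _
    · exact (thetaFn_lev v).1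
  lev_le' g v := by
    rcases g with _ | _ | _ | _ | _
    · exact Nat.le_succ _
    · exact Nat.le_succ _
    · exact Nat.le_succ _
    · exact Nat.le_succ _
    · exact (thetaFn_lev v).2
  tr n g := trunc (sV p hp g) (sV_H hp g) n
  tr_eq n g u h := trunc_apply (sV p hp g) (sV_H hp g) n u h

section

variable [∀ j, NeZero (p j)] (hp : ∀ j, 2 * p j ≤ p (j + 1))

@[simp] theorem sys_lev (v : V p) : (sys p hp).lev v = v.1 := rfl
@[simp] theorem sys_s (g : Gen) : (sys p hp).s g = sV p hp g := rfl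

/-- a generator as an element of `G n` -/
def gG (n : ℕ) (g : Gen) : (sys p hp).G n := (sys p hp).tr n g

theorem letG_true (n : ℕ) (g : Gen) : (sys p hp).letG n (g, true) = gG hp n g := by
  simp [Sys.letG, gG]

theorem letV_true (g : Gen) : (sys p hp).letV (g, true) = sV p hp g := by
  simp [Sys.letV]

instance finite_trunc (n : ℕ) : Finite {v : V p // (sys p hp).lev v ≤ n} := by
  have : Finite (Σ j : Fin (n + 1), Lv p j) := inferInstance
  refine Finite.of_injective (β := Σ j : Fin (n + 1), Lv p j)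
    (fun v => ⟨⟨v.1.1, by have := v.2; simp at this; omega⟩, v.1.2⟩) ?_
  rintro ⟨⟨j, u⟩, hu⟩ ⟨⟨i, v⟩, hv⟩ h
  simp only [Sigma.mk.injEq, Fin.mk.injEq] at h
  obtain ⟨h1, h2⟩ := h
  subst h1
  rw [heq_eq_eq] at h2
  subst h2
  rfl

noncomputable instance fintype_trunc (n : ℕ) : Fintype {v : V p // (sys p hp).lev v ≤ n} :=
  Fintype.ofFinite _

noncomputable instance fintype_G (n : ℕ) : Fintype ((sys p hp).G n) :=
  Fintype.ofFinite _

/-- level preserving generators are truncated without loss -/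
theorem gG_apply (n : ℕ) (g : Gen) (hg : g ≠ Gen.t) (u : {v : V p // (sys p hp).lev v ≤ n}) :
    (gG hp n g u : V p) = sV p hp g u := by
  refine trunc_apply (sV p hp g) (sV_H hp g) n u ?_
  have hu : (u : V p).1 ≤ n := u.2
  rcases g with _ | _ | _ | _ | _
  · exact hu
  · exact hu
  · exact hu
  · exact hu
  · exact absurd rfl hg

theorem gG_T1 (n : ℕ) (u : {v : V p // (sys p hp).lev v ≤ n}) :
    (gG hp n Gen.T1 u : V p) = ⟨(u : V p).1, ((u : V p).2.1 + (u : V p).2.2, (u : V p).2.2)⟩ :=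
  gG_apply hp n Gen.T1 (by simp) u

theorem gG_T2 (n : ℕ) (u : {v : V p // (sys p hp).lev v ≤ n}) :
    (gG hp n Gen.T2 u : V p) = ⟨(u : V p).1, ((u : V p).2.1, (u : V p).2.2 + (u : V p).2.1)⟩ :=
  gG_apply hp n Gen.T2 (by simp) u

theorem gG_e1 (n : ℕ) (u : {v : V p // (sys p hp).lev v ≤ n}) :
    (gG hp n Gen.e1 u : V p) = ⟨(u : V p).1, ((u : V p).2.1 + 1, (u : V p).2.2)⟩ :=
  gG_apply hp n Gen.e1 (by simp) u

theorem gG_e2 (n : ℕ) (u : {v : V p // (sys p hp).lev v ≤ n}) :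
    (gG hp n Gen.e2 u : V p) = ⟨(u : V p).1, ((u : V p).2.1, (u : V p).2.2 + 1)⟩ :=
  gG_apply hp n Gen.e2 (by simp) u

/-! ### the relations in `G n` -/

theorem mul_apply_val (n : ℕ) (σ τ : (sys p hp).G n) (u : {v : V p // (sys p hp).lev v ≤ n}) :
    ((σ * τ) u : V p) = (σ (τ u) : V p) := rfl

theorem rel_e1e2 (n : ℕ) : gG hp n Gen.e1 * gG hp n Gen.e2 = gG hp n Gen.e2 * gG hp n Gen.e1 := by
  apply Equiv.ext
  intro u
  apply Subtype.ext
  rw [mul_apply_val, mul_apply_val, gG_apply _ _ _ (by simp), gG_apply _ _ _ (by simp),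
    gG_apply _ _ _ (by simp), gG_apply _ _ _ (by simp)]
  rfl

theorem rel_T1e1 (n : ℕ) : gG hp n Gen.T1 * gG hp n Gen.e1 = gG hp n Gen.e1 * gG hp n Gen.T1 := by
  apply Equiv.ext
  intro u
  apply Subtype.ext
  rw [mul_apply_val, mul_apply_val, gG_apply _ _ _ (by simp), gG_apply _ _ _ (by simp),
    gG_apply _ _ _ (by simp), gG_apply _ _ _ (by simp)]
  rcases u with ⟨⟨j, a, b⟩, hu⟩
  change (⟨j, (a + 1 + b, b)⟩ : V p) = ⟨j, (a + b + 1, b)⟩
  rw [add_right_comm]

theorem rel_T1e2 (n : ℕ) : gG hp n Gen.T1 * gG hp n Gen.e2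
    = gG hp n Gen.e1 * gG hp n Gen.e2 * gG hp n Gen.T1 := by
  apply Equiv.ext
  intro u
  apply Subtype.ext
  rw [mul_apply_val, mul_apply_val, mul_apply_val, gG_apply _ _ _ (by simp),
    gG_apply _ _ _ (by simp), gG_apply _ _ _ (by simp), gG_apply _ _ _ (by simp),
    gG_apply _ _ _ (by simp)]
  rcases u with ⟨⟨j, a, b⟩, hu⟩
  change (⟨j, (a + (b + 1), b + 1)⟩ : V p) = ⟨j, (a + b + 1, b + 1)⟩
  rw [add_assoc]

theorem rel_T2e2 (n : ℕ) : gG hp n Gen.T2 * gG hp n Gen.e2 = gG hp n Gen.e2 * gG hp n Gen.T2 := by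
  apply Equiv.ext
  intro u
  apply Subtype.ext
  rw [mul_apply_val, mul_apply_val, gG_apply _ _ _ (by simp), gG_apply _ _ _ (by simp),
    gG_apply _ _ _ (by simp), gG_apply _ _ _ (by simp)]
  rcases u with ⟨⟨j, a, b⟩, hu⟩
  change (⟨j, (a, b + 1 + a)⟩ : V p) = ⟨j, (a, b + a + 1)⟩
  rw [add_right_comm]

theorem rel_T2e1 (n : ℕ) : gG hp n Gen.T2 * gG hp n Gen.e1
    = gG hp n Gen.e1 * gG hp n Gen.e2 * gG hp n Gen.T2 := by
  apply Equiv.ext
  intro u
  apply Subtype.ext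
  rw [mul_apply_val, mul_apply_val, mul_apply_val, gG_apply _ _ _ (by simp),
    gG_apply _ _ _ (by simp), gG_apply _ _ _ (by simp), gG_apply _ _ _ (by simp),
    gG_apply _ _ _ (by simp)]
  rcases u with ⟨⟨j, a, b⟩, hu⟩
  change (⟨j, (a + 1, b + (a + 1))⟩ : V p) = ⟨j, (a + 1, b + a + 1)⟩
  rw [add_assoc]

theorem sV_e1_pow (k : ℕ) (v : V p) :
    ((sV p hp Gen.e1) ^ k) v = ⟨v.1, (v.2.1 + k, v.2.2)⟩ := by
  induction k with
  | zero => rcases v with ⟨j, a, b⟩; simp
  | succ k ih =>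
    rw [pow_succ', Equiv.Perm.mul_apply, ih]
    change (⟨v.1, (v.2.1 + k + 1, v.2.2)⟩ : V p) = _
    rw [Nat.cast_add, Nat.cast_one, add_assoc]

theorem sV_e2_pow (k : ℕ) (v : V p) :
    ((sV p hp Gen.e2) ^ k) v = ⟨v.1, (v.2.1, v.2.2 + k)⟩ := by
  induction k with
  | zero => rcases v with ⟨j, a, b⟩; simp
  | succ k ih =>
    rw [pow_succ', Equiv.Perm.mul_apply, ih]
    change (⟨v.1, (v.2.1, v.2.2 + k + 1)⟩ : V p) = _
    rw [Nat.cast_add, Nat.cast_one, add_assoc]

theorem gG_pow_apply (n : ℕ) (g : Gen) (hg : g ≠ Gen.t) (k : ℕ)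
    (u : {v : V p // (sys p hp).lev v ≤ n}) :
    ((gG hp n g ^ k) u : V p) = (sV p hp g ^ k) u := by
  induction k with
  | zero => rfl
  | succ k ih =>
    rw [pow_succ', pow_succ', mul_apply_val, gG_apply _ _ _ hg, ih]
    rfl

theorem e1_pow_eq_one (n N : ℕ) (hN : ∀ j ≤ n, p j ∣ N) : gG hp n Gen.e1 ^ N = 1 := by
  apply Equiv.ext
  intro u
  apply Subtype.ext
  rw [gG_pow_apply _ _ _ (by simp), sV_e1_pow]
  have : ((N : ℕ) : ZMod (p (u : V p).1)) = 0 :=
    (ZMod.natCast_eq_zero_iff _ _).mpr (hN _ u.2)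
  rw [this, add_zero]
  rfl

theorem e2_pow_eq_one (n N : ℕ) (hN : ∀ j ≤ n, p j ∣ N) : gG hp n Gen.e2 ^ N = 1 := by
  apply Equiv.ext
  intro u
  apply Subtype.ext
  rw [gG_pow_apply _ _ _ (by simp), sV_e2_pow]
  have : ((N : ℕ) : ZMod (p (u : V p).1)) = 0 :=
    (ZMod.natCast_eq_zero_iff _ _).mpr (hN _ u.2)
  rw [this, add_zero]
  rfl

theorem e12_apply (n i k : ℕ) :
    ((gG hp n Gen.e1 ^ i * gG hp n Gen.e2 ^ k) ⟨(⟨n, (0, 0)⟩ : V p), le_refl n⟩ : V p)
      = ⟨n, ((i : ZMod (p n)), (k : ZMod (p n)))⟩ := by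
  rw [mul_apply_val, gG_pow_apply _ _ _ (by simp), gG_pow_apply _ _ _ (by simp), sV_e2_pow,
    sV_e1_pow]
  simp

/-! ### small sets meet the translation orbits in a small proportion -/

open Classical in
theorem orbit_fiber (n N : ℕ) (hN : p n ∣ N) (g h : (sys p hp).G n) :
    ((range N ×ˢ range N).filter fun ik =>
      gG hp n Gen.e1 ^ ik.1 * gG hp n Gen.e2 ^ ik.2 * g = h).card ≤ (N / p n) ^ 2 := by
  have hpos : 0 < p n := Nat.pos_of_ne_zero (NeZero.ne _)
  rw [sq, ← card_range (N / p n), ← card_product]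
  refine card_le_card_of_injOn (fun ik => (ik.1 / p n, ik.2 / p n)) ?_ ?_
  · intro ik hik
    simp only [coe_filter, mem_product, mem_range, Set.mem_ofPred_eq] at hik
    simp only [coe_product, coe_range, Set.mem_prod, Set.mem_Iio]
    obtain ⟨c, rfl⟩ := hN
    rw [Nat.mul_div_cancel_left _ hpos]
    exact ⟨Nat.div_lt_of_lt_mul hik.1.1, Nat.div_lt_of_lt_mul hik.1.2⟩
  · intro a ha b hb hab
    simp only [coe_filter, mem_product, mem_range, Set.mem_ofPred_eq] at ha hb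
    have heq : gG hp n Gen.e1 ^ a.1 * gG hp n Gen.e2 ^ a.2
        = gG hp n Gen.e1 ^ b.1 * gG hp n Gen.e2 ^ b.2 := by
      have := ha.2.trans hb.2.symm
      exact mul_right_cancel this
    have h0 := congrArg (fun σ : (sys p hp).G n =>
      (σ ⟨(⟨n, (0, 0)⟩ : V p), le_refl n⟩ : V p)) heq
    simp only [e12_apply, Sigma.mk.injEq, heq_eq_eq, true_and, Prod.mk.injEq] at h0
    obtain ⟨h1, h2⟩ := h0
    rw [ZMod.natCast_eq_natCast_iff'] at h1 h2
    simp only [Prod.mk.injEq] at hab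
    have e1 := Nat.div_add_mod a.1 (p n)
    have e2 := Nat.div_add_mod b.1 (p n)
    have e3 := Nat.div_add_mod a.2 (p n)
    have e4 := Nat.div_add_mod b.2 (p n)
    ext
    · rw [← e1, ← e2, hab.1, h1]
    · rw [← e3, ← e4, hab.2, h2]

open Classical in
theorem orbit_bound (n N : ℕ) (hN : p n ∣ N) (g : (sys p hp).G n) (F : Finset ((sys p hp).G n))
    (hF : 2 * F.card ≤ p n ^ 2) :
    2 * ((range N ×ˢ range N).filter fun ik =>
      gG hp n Gen.e1 ^ ik.1 * gG hp n Gen.e2 ^ ik.2 * g ∈ F).card ≤ N ^ 2 := by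
  have hsub : ((range N ×ˢ range N).filter fun ik =>
      gG hp n Gen.e1 ^ ik.1 * gG hp n Gen.e2 ^ ik.2 * g ∈ F) ⊆
      F.biUnion fun h => (range N ×ˢ range N).filter fun ik =>
        gG hp n Gen.e1 ^ ik.1 * gG hp n Gen.e2 ^ ik.2 * g = h := by
    intro ik hik
    rw [mem_filter] at hik
    rw [mem_biUnion]
    exact ⟨_, hik.2, mem_filter.mpr ⟨hik.1, rfl⟩⟩
  have h1 := card_le_card hsub
  have h2 := h1.trans card_biUnion_le
  have h3 := h2.trans (sum_le_sum fun h _ => orbit_fiber hp n N hN g h)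
  rw [sum_const, smul_eq_mul] at h3
  obtain ⟨c, rfl⟩ := hN
  have hpos : 0 < p n := Nat.pos_of_ne_zero (NeZero.ne _)
  rw [Nat.mul_div_cancel_left _ hpos] at h3
  calc 2 * _ ≤ 2 * (F.card * c ^ 2) := Nat.mul_le_mul_left 2 h3
    _ = (2 * F.card) * c ^ 2 := by ring
    _ ≤ p n ^ 2 * c ^ 2 := Nat.mul_le_mul_right _ hF
    _ = (p n * c) ^ 2 := by ring

end

/-! ### go / low / stay -/

section

variable (p) [∀ j, NeZero (p j)]

/-- the points of level `j` moved up by `theta` -/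
def go (j : ℕ) : Finset (Lv p j) := univ.filter fun u => p j ≤ 2 * u.1.val

/-- the points of level `j` moved down by `theta` -/
def low (j : ℕ) : Finset (Lv p j) := univ.filter fun u =>
  0 < j ∧ u.1.val < p (j - 1) ∧ u.2.val < p (j - 1) ∧ p (j - 1) ≤ 2 * u.1.val

/-- the points of level `j` fixed by `theta` -/
def stay (j : ℕ) : Finset (Lv p j) := univ \ (go p j ∪ low p j)

/-- the upward map -/
def iota (j : ℕ) (u : Lv p j) : Lv p (j + 1) :=
  ((u.1.val : ZMod (p (j + 1))), (u.2.val : ZMod (p (j + 1))))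

variable {p}

theorem theta_go (hp : ∀ j, 2 * p j ≤ p (j + 1)) {j : ℕ} {u : Lv p j} (hu : u ∈ go p j) :
    sV p hp Gen.t ⟨j, u⟩ = ⟨j + 1, iota p j u⟩ := by
  unfold go at hu
  rw [mem_filter] at hu
  change thetaFn p ⟨j, u⟩ = _
  unfold thetaFn
  rw [if_pos hu.2]
  rfl

theorem theta_stay (hp : ∀ j, 2 * p j ≤ p (j + 1)) {j : ℕ} {u : Lv p j} (hu : u ∈ stay p j) :
    sV p hp Gen.t ⟨j, u⟩ = ⟨j, u⟩ := by
  unfold stay go low at hu
  simp only [mem_sdiff, mem_univ, true_and, mem_union, mem_filter, not_or] at hu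
  change thetaFn p ⟨j, u⟩ = _
  unfold thetaFn
  rw [if_neg hu.1, if_neg hu.2]

theorem iota_injOn (hp : ∀ j, 2 * p j ≤ p (j + 1)) (j : ℕ) : Function.Injective (iota p j) := by
  intro u v h
  have hp1 := hp j
  have h1 := ZMod.val_lt u.1
  have h2 := ZMod.val_lt u.2
  have h3 := ZMod.val_lt v.1
  have h4 := ZMod.val_lt v.2
  unfold iota at h
  rw [Prod.mk.injEq] at h
  have e1 := congrArg ZMod.val h.1
  have e2 := congrArg ZMod.val h.2
  rw [ZMod.val_natCast_of_lt (by omega), ZMod.val_natCast_of_lt (by omega)] at e1 e2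
  exact Prod.ext (ZMod.val_injective _ e1) (ZMod.val_injective _ e2)

theorem iota_mem_low (hp : ∀ j, 2 * p j ≤ p (j + 1)) {j : ℕ} {u : Lv p j} (hu : u ∈ go p j) :
    iota p j u ∈ low p (j + 1) := by
  unfold go at hu
  rw [mem_filter] at hu
  have hp1 := hp j
  have h1 := ZMod.val_lt u.1
  have h2 := ZMod.val_lt u.2
  unfold low iota
  rw [mem_filter]
  rw [ZMod.val_natCast_of_lt (by omega), ZMod.val_natCast_of_lt (by omega)]
  exact ⟨mem_univ _, by omega, h1, h2, hu.2⟩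

theorem card_filter_val (m : ℕ) [NeZero m] (P : ℕ → Prop) [DecidablePred P] :
    ((univ : Finset (ZMod m)).filter fun x => P x.val).card = ((range m).filter P).card := by
  apply card_bij (fun x _ => x.val)
  · intro x hx
    rw [mem_filter] at hx ⊢
    exact ⟨mem_range.mpr (ZMod.val_lt x), hx.2⟩
  · intro a _ b _ hab; exact ZMod.val_injective _ hab
  · intro k hk
    rw [mem_filter, mem_range] at hk
    refine ⟨(k : ZMod m), ?_, ZMod.val_natCast_of_lt hk.1⟩
    rw [mem_filter, ZMod.val_natCast_of_lt hk.1]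
    exact ⟨mem_univ _, hk.2⟩

theorem card_go (j : ℕ) : (go p j).card = (p j / 2) * p j := by
  have h1 : go p j = ((univ : Finset (ZMod (p j))).filter fun x => p j ≤ 2 * x.val) ×ˢ
      (univ : Finset (ZMod (p j))) := by
    ext u
    simp [go]
  rw [h1, card_product, card_filter_val (p j) (fun k => p j ≤ 2 * k), card_univ, ZMod.card]
  congr 1
  have h2 : (range (p j)).filter (fun k => p j ≤ 2 * k) = Ico ((p j + 1) / 2) (p j) := by
    ext k
    simp only [mem_filter, mem_range, mem_Ico]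
    omega
  rw [h2, Nat.card_Ico]
  omega

theorem card_low_le (j : ℕ) : (low p j).card ≤ p (j - 1) ^ 2 := by
  have h1 : low p j ⊆ ((univ : Finset (ZMod (p j))).filter fun x => x.val < p (j - 1)) ×ˢ
      ((univ : Finset (ZMod (p j))).filter fun x => x.val < p (j - 1)) := by
    intro u hu
    unfold low at hu
    simp only [mem_filter, mem_univ, true_and] at hu
    simp only [mem_product, mem_filter, mem_univ, true_and]
    exact ⟨hu.2.1, hu.2.2.1⟩
  refine (card_le_card h1).trans ?_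
  rw [card_product, card_filter_val (p j) (fun k => k < p (j - 1)), sq]
  have h2 : ((range (p j)).filter (fun k => k < p (j - 1))).card ≤ p (j - 1) := by
    calc ((range (p j)).filter (fun k => k < p (j - 1))).card ≤ (range (p (j - 1))).card := by
          apply card_le_card
          intro k hk
          rw [mem_filter] at hk
          exact mem_range.mpr hk.2
      _ = p (j - 1) := card_range _
  exact Nat.mul_le_mul h2 h2

theorem card_low_zero : (low p 0).card = 0 := by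
  rw [card_eq_zero]
  unfold low
  rw [filter_eq_empty_iff]
  intro u _ h
  exact absurd h.1 (lt_irrefl 0)

theorem card_low_le' {K : ℕ} (hK : ∀ j, K * p j ≤ p (j + 1)) (j : ℕ) :
    K ^ 2 * (low p j).card ≤ p j ^ 2 := by
  rcases Nat.eq_zero_or_pos j with rfl | hj
  · rw [card_low_zero]; simp
  · have h1 := card_low_le (p := p) j
    have h2 := hK (j - 1)
    rw [Nat.sub_add_cancel hj] at h2
    calc K ^ 2 * (low p j).card ≤ K ^ 2 * p (j - 1) ^ 2 := Nat.mul_le_mul_left _ h1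
      _ = (K * p (j - 1)) ^ 2 := by ring
      _ ≤ p j ^ 2 := Nat.pow_le_pow_left h2 2

theorem card_go_ge (h2 : ∀ j, 2 ≤ p j) (j : ℕ) : p j ^ 2 ≤ 4 * (go p j).card := by
  rw [card_go]
  have := h2 j
  have h3 : p j ≤ 4 * (p j / 2) := by omega
  calc p j ^ 2 = p j * p j := sq _
    _ ≤ (4 * (p j / 2)) * p j := Nat.mul_le_mul_right _ h3
    _ = 4 * (p j / 2 * p j) := by ring

theorem card_stay_ge (hp : ∀ j, 2 * p j ≤ p (j + 1)) (j : ℕ) :
    p j ^ 2 ≤ 4 * (stay p j).card := by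
  have h1 : (stay p j).card + ((go p j).card + (low p j).card) ≥ p j ^ 2 := by
    have h2 : (univ : Finset (Lv p j)).card ≤ (stay p j).card + (go p j ∪ low p j).card := by
      unfold stay
      have := card_le_card (s := (univ : Finset (Lv p j)))
        (t := (univ \ (go p j ∪ low p j)) ∪ (go p j ∪ low p j)) (by
          intro u _
          by_cases hu : u ∈ go p j ∪ low p j
          · exact mem_union_right _ hu
          · exact mem_union_left _ (mem_sdiff.mpr ⟨mem_univ _, hu⟩))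
      exact this.trans (card_union_le _ _)
    have h3 : (univ : Finset (Lv p j)).card = p j ^ 2 := by
      rw [card_univ, Fintype.card_prod, ZMod.card, sq]
    have h4 := card_union_le (go p j) (low p j)
    omega
  have h5 : 2 * (go p j).card ≤ p j ^ 2 := by
    rw [card_go, sq, ← mul_assoc]
    exact Nat.mul_le_mul_right _ (by omega)
  have h6 := card_low_le' hp j
  omega

end

end Crest.Agent.R115.Dyn
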