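import Crest.Agent.R137.Margulis
import Crest.Agent.R137.WeylCore

/-! # Relative property (T) inequality for finite permutation actions (row 115)

For permutations `T1 T2 e1 e2` of a finite set which satisfy the relations of the shears and the
translations of `(ℤ/N)²`, the distance of a function to its average over the translations is
controlled by its variation along the four permutations. -/

set_option autoImplicit false

namespace Crest.Agent.R115.RelT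

open Crest.Agent.R137 Crest.Agent.R137.Weyl
open scoped ComplexConjugate

section Fourier

variable {N : ℕ} [NeZero N]

/-- two dimensional discrete Fourier transform -/
noncomputable def F (u : ZMod N × ZMod N → ℂ) (ξ : ZMod N × ZMod N) : ℂ :=
  ∑ n : ZMod N × ZMod N, e (-(ξ.1 * n.1 + ξ.2 * n.2)) * u n

lemma F_add (u v : ZMod N × ZMod N → ℂ) (ξ : ZMod N × ZMod N) :
    F (fun n => u n + v n) ξ = F u ξ + F v ξ := by
  unfold F; rw [← Finset.sum_add_distrib]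
  refine Finset.sum_congr rfl fun n _ => by ring

lemma sum_e2 (d : ZMod N × ZMod N) :
    ∑ ξ : ZMod N × ZMod N, e (ξ.1 * d.1 + ξ.2 * d.2) = if d = 0 then ((N : ℂ) ^ 2) else 0 := by
  rw [Fintype.sum_prod_type]
  have h : ∀ a : ZMod N, ∑ b : ZMod N, e (a * d.1 + b * d.2) =
      e (a * d.1) * (if d.2 = 0 then (N : ℂ) else 0) := by
    intro a
    rw [← sum_e d.2, Finset.mul_sum]
    refine Finset.sum_congr rfl fun b _ => ?_
    rw [e_add]
  simp only [h]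
  rw [← Finset.sum_mul, sum_e]
  rcases d with ⟨d1, d2⟩
  by_cases h1 : d1 = 0 <;> by_cases h2 : d2 = 0 <;> simp [h1, h2, pow_two]

lemma parseval2 (u v : ZMod N × ZMod N → ℂ) :
    ∑ ξ, conj (F u ξ) * F v ξ = (N : ℂ) ^ 2 * ∑ n, conj (u n) * v n := by
  have h1 : ∀ ξ : ZMod N × ZMod N, conj (F u ξ) * F v ξ =
      ∑ n : ZMod N × ZMod N, ∑ m : ZMod N × ZMod N,
        (conj (u n) * v m) * e (ξ.1 * (n - m).1 + ξ.2 * (n - m).2) := by
    intro ξ
    unfold F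
    rw [map_sum, Finset.sum_mul_sum]
    refine Finset.sum_congr rfl fun n _ => Finset.sum_congr rfl fun m _ => ?_
    rw [map_mul, conj_e, neg_neg]
    have : e (ξ.1 * n.1 + ξ.2 * n.2) * e (-(ξ.1 * m.1 + ξ.2 * m.2)) =
        e (ξ.1 * (n - m).1 + ξ.2 * (n - m).2) := by
      rw [← e_add]; congr 1; simp only [Prod.fst_sub, Prod.snd_sub]; ring
    rw [← this]; ring
  rw [Finset.sum_congr rfl fun ξ _ => h1 ξ, Finset.sum_comm, Finset.mul_sum]
  refine Finset.sum_congr rfl fun n _ => ?_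
  rw [Finset.sum_comm]
  simp_rw [← Finset.mul_sum, sum_e2]
  rw [Finset.sum_eq_single n]
  · simp; ring
  · intro m _ hm
    rw [if_neg (sub_ne_zero.mpr hm.symm), mul_zero]
  · simp

/-- the shear of the index set -/
def shear (c : ZMod N) : ZMod N × ZMod N ≃ ZMod N × ZMod N where
  toFun n := (n.1 + 2 * n.2 + c, n.2)
  invFun n := (n.1 - 2 * n.2 - c, n.2)
  left_inv n := by
    ext
    · simp only; ring
    · rfl
  right_inv n := by
    ext
    · simp only; ring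
    · rfl

lemma F_shear (v : ZMod N × ZMod N → ℂ) (c : ZMod N) (ξ : ZMod N × ZMod N) :
    F (fun n => v (n.1 + 2 * n.2 + c, n.2)) ξ = e (ξ.1 * c) * F v (ξ.1, ξ.2 - 2 * ξ.1) := by
  unfold F
  rw [Finset.mul_sum, ← Equiv.sum_comp (shear c)
    (fun n => e (ξ.1 * c) * (e (-((ξ.1, ξ.2 - 2 * ξ.1).1 * n.1 + (ξ.1, ξ.2 - 2 * ξ.1).2 * n.2)) * v n))]
  refine Finset.sum_congr rfl fun n _ => ?_
  simp only [shear, Equiv.coe_fn_mk]
  rw [← mul_assoc, ← e_add]
  congr 2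
  ring

end Fourier

section half

variable {X : Type*} [Fintype X] {N : ℕ} [NeZero N]

/-- the square root of the spectral measure -/
noncomputable def G (f : X → ℝ) (a : ZMod N × ZMod N → Equiv.Perm X) (ξ : ZMod N × ZMod N) : ℝ :=
  Real.sqrt (∑ x, ‖F (fun n => ((f (a n x) : ℝ) : ℂ)) ξ‖ ^ 2)

lemma G_nonneg (f : X → ℝ) (a : ZMod N × ZMod N → Equiv.Perm X) (ξ : ZMod N × ZMod N) :
    0 ≤ G f a ξ := Real.sqrt_nonneg _

lemma G_sq (f : X → ℝ) (a : ZMod N × ZMod N → Equiv.Perm X) (ξ : ZMod N × ZMod N) :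
    G f a ξ ^ 2 = ∑ x, ‖F (fun n => ((f (a n x) : ℝ) : ℂ)) ξ‖ ^ 2 :=
  Real.sq_sqrt (Finset.sum_nonneg fun _ _ => by positivity)

lemma half (f : X → ℝ) (a : ZMod N × ZMod N → Equiv.Perm X) (φ ψ : Equiv.Perm X)
    (hφ : ∀ n x, φ (a n x) = a (n.1 + 2 * n.2, n.2) (φ x))
    (hψ : ∀ n x, ψ (a n x) = a (n.1 + 2 * n.2 + 1, n.2) (φ x)) :
    (N : ℝ) ^ 4 * ∑ x, f x * (f (φ x) + f (ψ x)) ≤
      ∑ ξ : ZMod N × ZMod N, G f a ξ * G f a (ξ.1, ξ.2 - 2 * ξ.1) *
        (2 * |Real.cos (Real.pi * (ξ.1.val : ℝ) / N)|) := by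
  set u : X → ZMod N × ZMod N → ℂ := fun x n => ((f (a n x) : ℝ) : ℂ) with hu
  -- the double sum
  have h1 : ∑ x, ∑ n : ZMod N × ZMod N, conj (u x n) *
      (u (φ x) (n.1 + 2 * n.2, n.2) + u (φ x) (n.1 + 2 * n.2 + 1, n.2)) =
      (N : ℂ) ^ 2 * ((∑ x, f x * (f (φ x) + f (ψ x)) : ℝ) : ℂ) := by
    rw [Finset.sum_comm]
    have : ∀ n : ZMod N × ZMod N, ∑ x, conj (u x n) *
      (u (φ x) (n.1 + 2 * n.2, n.2) + u (φ x) (n.1 + 2 * n.2 + 1, n.2)) =
       ((∑ x, f x * (f (φ x) + f (ψ x)) : ℝ) : ℂ) := by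
      intro n
      rw [← Equiv.sum_comp (a n) (fun x => f x * (f (φ x) + f (ψ x)))]
      rw [Complex.ofReal_sum]
      refine Finset.sum_congr rfl fun x _ => ?_
      rw [hφ, hψ, hu]
      simp only [Complex.conj_ofReal]
      push_cast
      ring
    rw [Finset.sum_congr rfl fun n _ => this n, Finset.sum_const, Finset.card_univ,
      Fintype.card_prod, ZMod.card, nsmul_eq_mul]
    push_cast; ring
  have h2 : ∀ x, (N : ℂ) ^ 2 * ∑ n : ZMod N × ZMod N, conj (u x n) *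
      (u (φ x) (n.1 + 2 * n.2, n.2) + u (φ x) (n.1 + 2 * n.2 + 1, n.2)) =
      ∑ ξ : ZMod N × ZMod N, conj (F (u x) ξ) *
        ((1 + e ξ.1) * F (u (φ x)) (ξ.1, ξ.2 - 2 * ξ.1)) := by
    intro x
    rw [← parseval2]
    refine Finset.sum_congr rfl fun ξ _ => ?_
    rw [F_add]
    have e1 := F_shear (u (φ x)) 0 ξ
    have e2 := F_shear (u (φ x)) 1 ξ
    simp only [add_zero, mul_zero, mul_one, e_zero] at e1 e2
    rw [e1, e2]; ring
  have h3 : (N : ℂ) ^ 4 * ((∑ x, f x * (f (φ x) + f (ψ x)) : ℝ) : ℂ) =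
      ∑ ξ : ZMod N × ZMod N, ∑ x, conj (F (u x) ξ) *
        ((1 + e ξ.1) * F (u (φ x)) (ξ.1, ξ.2 - 2 * ξ.1)) := by
    rw [Finset.sum_comm, ← Finset.sum_congr rfl fun x _ => h2 x, ← Finset.mul_sum, h1]
    ring
  have h4 : (N : ℝ) ^ 4 * ∑ x, f x * (f (φ x) + f (ψ x)) ≤
      ‖∑ ξ : ZMod N × ZMod N, ∑ x, conj (F (u x) ξ) *
        ((1 + e ξ.1) * F (u (φ x)) (ξ.1, ξ.2 - 2 * ξ.1))‖ := by
    rw [← h3]
    have : (N : ℂ) ^ 4 * ((∑ x, f x * (f (φ x) + f (ψ x)) : ℝ) : ℂ) =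
      (((N : ℝ) ^ 4 * ∑ x, f x * (f (φ x) + f (ψ x)) : ℝ) : ℂ) := by push_cast; ring
    rw [this, Complex.norm_real]
    exact Real.le_norm_self _
  refine h4.trans ((norm_sum_le _ _).trans (Finset.sum_le_sum fun ξ _ => ?_))
  refine (norm_sum_le _ _).trans ?_
  have h5 : ∀ x, ‖conj (F (u x) ξ) * ((1 + e ξ.1) * F (u (φ x)) (ξ.1, ξ.2 - 2 * ξ.1))‖ =
      (‖F (u x) ξ‖ * ‖F (u (φ x)) (ξ.1, ξ.2 - 2 * ξ.1)‖) *
        (2 * |Real.cos (Real.pi * (ξ.1.val : ℝ) / N)|) := by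
    intro x
    rw [norm_mul, norm_mul, norm_one_add_e, RCLike.norm_conj]; ring
  rw [Finset.sum_congr rfl fun x _ => h5 x, ← Finset.sum_mul]
  refine mul_le_mul_of_nonneg_right ?_ (by positivity)
  refine (Real.sum_mul_le_sqrt_mul_sqrt _ _ _).trans (le_of_eq ?_)
  unfold G
  congr 2
  exact Equiv.sum_comp φ (fun x => ‖F (u x) (ξ.1, ξ.2 - 2 * ξ.1)‖ ^ 2)

lemma sum_G_sq (f : X → ℝ) (a : ZMod N × ZMod N → Equiv.Perm X) :
    ∑ ξ : ZMod N × ZMod N, G f a ξ ^ 2 = (N : ℝ) ^ 4 * ∑ x, f x ^ 2 := by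
  simp_rw [G_sq]
  rw [Finset.sum_comm]
  have h : ∀ x, ∑ ξ : ZMod N × ZMod N, ‖F (fun n => ((f (a n x) : ℝ) : ℂ)) ξ‖ ^ 2 =
      (N : ℝ) ^ 2 * ∑ n, f (a n x) ^ 2 := by
    intro x
    have := parseval2 (N := N) (fun n => ((f (a n x) : ℝ) : ℂ)) (fun n => ((f (a n x) : ℝ) : ℂ))
    have h2 : ((∑ ξ : ZMod N × ZMod N, ‖F (fun n => ((f (a n x) : ℝ) : ℂ)) ξ‖ ^ 2 : ℝ) : ℂ) =
      (((N : ℝ) ^ 2 * ∑ n, f (a n x) ^ 2 : ℝ) : ℂ) := by
      push_cast
      rw [← Finset.sum_congr rfl fun ξ _ => Complex.conj_mul' _]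
      rw [this]
      congr 1
      refine Finset.sum_congr rfl fun n _ => ?_
      rw [Complex.conj_ofReal]; ring
    exact_mod_cast h2
  simp_rw [h]
  rw [← Finset.mul_sum, Finset.sum_comm]
  have h3 : ∀ n, ∑ x, f (a n x) ^ 2 = ∑ x, f x ^ 2 := fun n => Equiv.sum_comp (a n) (fun x => f x ^ 2)
  simp_rw [h3]
  rw [Finset.sum_const, Finset.card_univ, Fintype.card_prod, ZMod.card, nsmul_eq_mul]
  push_cast; ring

lemma G_zero_sq (f : X → ℝ) (a : ZMod N × ZMod N → Equiv.Perm X) :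
    G f a (0, 0) ^ 2 = ∑ x, (∑ n, f (a n x)) ^ 2 := by
  rw [G_sq]
  refine Finset.sum_congr rfl fun x _ => ?_
  unfold F
  simp only [zero_mul, add_zero, neg_zero, e_zero, one_mul]
  rw [← Complex.ofReal_sum, Complex.norm_real, Real.norm_eq_abs, sq_abs]

end half

section main

variable {X : Type*} [Fintype X] {N : ℕ} [NeZero N]

/-- the action of `(ℤ/N)²` by the two commuting permutations -/
def act (e1 e2 : Equiv.Perm X) (n : ZMod N × ZMod N) : Equiv.Perm X :=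
  e1 ^ n.1.val * e2 ^ n.2.val

lemma pow_val_add (e1 : Equiv.Perm X) (h : e1 ^ N = 1) (a b : ZMod N) :
    e1 ^ (a + b).val = e1 ^ a.val * e1 ^ b.val := by
  rw [ZMod.val_add, ← pow_add, ← pow_eq_pow_mod _ h]

lemma pow_val_one (e1 : Equiv.Perm X) (h : e1 ^ N = 1) :
    e1 ^ (1 : ZMod N).val = e1 := by
  rw [ZMod.val_one_eq_one_mod, ← pow_eq_pow_mod _ h, pow_one]

variable {T1 T2 e1 e2 : Equiv.Perm X}

lemma act_add (h12 : e1 * e2 = e2 * e1) (hN1 : e1 ^ N = 1) (hN2 : e2 ^ N = 1)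
    (n m : ZMod N × ZMod N) : act e1 e2 (n + m) = act e1 e2 n * act e1 e2 m := by
  have hc : Commute e1 e2 := h12
  unfold act
  rw [Prod.fst_add, Prod.snd_add, pow_val_add e1 hN1, pow_val_add e2 hN2]
  have : e1 ^ m.1.val * e2 ^ n.2.val = e2 ^ n.2.val * e1 ^ m.1.val := hc.pow_pow _ _
  calc e1 ^ n.1.val * e1 ^ m.1.val * (e2 ^ n.2.val * e2 ^ m.2.val)
      = e1 ^ n.1.val * (e1 ^ m.1.val * e2 ^ n.2.val) * e2 ^ m.2.val := by group
    _ = _ := by rw [this]; group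

lemma T1_act (h12 : e1 * e2 = e2 * e1) (h11 : T1 * e1 = e1 * T1) (h1 : T1 * e2 = e1 * e2 * T1)
    (hN1 : e1 ^ N = 1) (n : ZMod N × ZMod N) :
    T1 * act e1 e2 n = act e1 e2 (n.1 + n.2, n.2) * T1 := by
  have hc : Commute e1 e2 := h12
  have a1 : SemiconjBy T1 (e1 ^ n.1.val) (e1 ^ n.1.val) := (show SemiconjBy T1 e1 e1 from h11).pow_right _
  have a2 : SemiconjBy T1 (e2 ^ n.2.val) ((e1 * e2) ^ n.2.val) :=
    (show SemiconjBy T1 e2 (e1 * e2) from h1).pow_right _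
  have a3 := a1.mul_right a2
  unfold act
  rw [a3.eq, hc.mul_pow, pow_val_add e1 hN1]
  group

lemma T2_act (h12 : e1 * e2 = e2 * e1) (h22 : T2 * e2 = e2 * T2) (h2 : T2 * e1 = e1 * e2 * T2)
    (hN2 : e2 ^ N = 1) (n : ZMod N × ZMod N) :
    T2 * act e1 e2 n = act e1 e2 (n.1, n.2 + n.1) * T2 := by
  have hc : Commute e1 e2 := h12
  have a1 : SemiconjBy T2 (e2 ^ n.2.val) (e2 ^ n.2.val) := (show SemiconjBy T2 e2 e2 from h22).pow_right _
  have a2 : SemiconjBy T2 (e1 ^ n.1.val) ((e1 * e2) ^ n.1.val) :=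
    (show SemiconjBy T2 e1 (e1 * e2) from h2).pow_right _
  have a3 := a2.mul_right a1
  unfold act
  rw [a3.eq, hc.mul_pow, pow_val_add e2 hN2]
  have : e2 ^ n.1.val * e2 ^ n.2.val = e2 ^ n.2.val * e2 ^ n.1.val := by
    rw [← pow_add, ← pow_add, add_comm]
  rw [← this]
  group

/-- The correlation bound. -/
lemma corr_bound (h12 : e1 * e2 = e2 * e1) (h11 : T1 * e1 = e1 * T1) (h1 : T1 * e2 = e1 * e2 * T1)
    (h22 : T2 * e2 = e2 * T2) (h2 : T2 * e1 = e1 * e2 * T2)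
    (hN1 : e1 ^ N = 1) (hN2 : e2 ^ N = 1) (f : X → ℝ) :
    (N : ℝ) ^ 4 * (∑ x, f x * (f (T1 (T1 x)) + f (e1 (T1 (T1 x)))) +
      ∑ x, f x * (f (T2 (T2 x)) + f (e2 (T2 (T2 x))))) ≤
    3.65 * ((N : ℝ) ^ 4 * ∑ x, f x ^ 2) +
      0.35 * ∑ x, (∑ n : ZMod N × ZMod N, f (act e1 e2 n x)) ^ 2 := by
  set a : ZMod N × ZMod N → Equiv.Perm X := act e1 e2 with ha
  have hT1 : ∀ n x, T1 (a n x) = a (n.1 + n.2, n.2) (T1 x) := fun n x =>
    congrArg (fun g : Equiv.Perm X => g x) (T1_act h12 h11 h1 hN1 n)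
  have hT2 : ∀ n x, T2 (a n x) = a (n.1, n.2 + n.1) (T2 x) := fun n x =>
    congrArg (fun g : Equiv.Perm X => g x) (T2_act h12 h22 h2 hN2 n)
  have hadd : ∀ n m x, a (n + m) x = a n (a m x) := fun n m x =>
    congrArg (fun g : Equiv.Perm X => g x) (act_add h12 hN1 hN2 n m)
  have ha1 : ∀ x, a (1, 0) x = e1 x := by
    intro x
    rw [ha]; unfold act
    simp only [ZMod.val_zero, pow_zero, mul_one]
    rw [pow_val_one e1 hN1]
  have ha2 : ∀ x, a (0, 1) x = e2 x := by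
    intro x
    rw [ha]; unfold act
    simp only [ZMod.val_zero, pow_zero, one_mul]
    rw [pow_val_one e2 hN2]
  have H1 := half f a (T1 * T1) (e1 * (T1 * T1))
    (by
      intro n x
      simp only [Equiv.Perm.mul_apply, hT1]
      congr 2; ext
      · simp only; ring
      · rfl)
    (by
      intro n x
      simp only [Equiv.Perm.mul_apply, hT1]
      rw [← ha1, ← hadd]
      congr 2; ext
      · simp only [Prod.fst_add]; ring
      · simp)
  have H2 := half f (fun n => a (n.2, n.1)) (T2 * T2) (e2 * (T2 * T2))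
    (by
      intro n x
      simp only [Equiv.Perm.mul_apply, hT2]
      congr 2; ext
      · rfl
      · simp only; ring)
    (by
      intro n x
      simp only [Equiv.Perm.mul_apply, hT2]
      rw [← ha2, ← hadd]
      congr 2; ext
      · simp
      · simp only [Prod.snd_add]; ring)
  simp only [Equiv.Perm.mul_apply] at H1 H2
  have hG' : ∀ ξ : ZMod N × ZMod N, G f (fun n => a (n.2, n.1)) ξ = G f a (ξ.2, ξ.1) := by
    intro ξ
    unfold G
    congr 1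
    refine Finset.sum_congr rfl fun x _ => ?_
    congr 2
    unfold F
    rw [← Equiv.sum_comp (Equiv.prodComm (ZMod N) (ZMod N))]
    refine Finset.sum_congr rfl fun n _ => ?_
    simp only [Equiv.prodComm_apply, Prod.fst_swap, Prod.snd_swap]
    congr 2
    ring
  have R1 : ∑ ξ : ZMod N × ZMod N, G f a ξ * G f a (ξ.1, ξ.2 - 2 * ξ.1) *
        (2 * |Real.cos (Real.pi * (ξ.1.val : ℝ) / N)|) =
      ∑ z : ZMod N × ZMod N, G f a z * G f a (z.1, z.2 + 2 * z.1) *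
        (2 * |Real.cos (Real.pi * (z.1.val : ℝ) / N)|) := by
    let S : ZMod N × ZMod N ≃ ZMod N × ZMod N :=
      { toFun := fun z => (z.1, z.2 + 2 * z.1)
        invFun := fun z => (z.1, z.2 - 2 * z.1)
        left_inv := fun z => by ext <;> simp
        right_inv := fun z => by ext <;> simp }
    rw [← Equiv.sum_comp S]
    refine Finset.sum_congr rfl fun z _ => ?_
    simp only [S, Equiv.coe_fn_mk, add_sub_cancel_right]
    ring
  have R2 : ∑ ξ : ZMod N × ZMod N, G f (fun n => a (n.2, n.1)) ξ *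
        G f (fun n => a (n.2, n.1)) (ξ.1, ξ.2 - 2 * ξ.1) *
        (2 * |Real.cos (Real.pi * (ξ.1.val : ℝ) / N)|) =
      ∑ z : ZMod N × ZMod N, G f a z * G f a (z.1 + 2 * z.2, z.2) *
        (2 * |Real.cos (Real.pi * (z.2.val : ℝ) / N)|) := by
    let S : ZMod N × ZMod N ≃ ZMod N × ZMod N :=
      { toFun := fun z => (z.2, z.1 + 2 * z.2)
        invFun := fun z => (z.2 - 2 * z.1, z.1)
        left_inv := fun z => by ext <;> simp
        right_inv := fun z => by ext <;> simp }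
    rw [← Equiv.sum_comp S]
    refine Finset.sum_congr rfl fun z _ => ?_
    simp only [hG', S, Equiv.coe_fn_mk, add_sub_cancel_right]
    ring
  have GG := gabberGalil N (G f a) (G_nonneg f a)
  rw [sum_G_sq, G_zero_sq] at GG
  rw [R1] at H1
  rw [R2] at H2
  rw [mul_add]
  exact (add_le_add H1 H2).trans GG

/-- The average of `f` over the translations. -/
noncomputable def avg (N : ℕ) (e1 e2 : Equiv.Perm X) (f : X → ℝ) (x : X) : ℝ :=
  ((N : ℝ) ^ 2)⁻¹ * ∑ a ∈ Finset.range N, ∑ b ∈ Finset.range N, f ((e1 ^ a * e2 ^ b) x)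

lemma avg_eq (f : X → ℝ) (x : X) :
    avg N e1 e2 f x = ((N : ℝ) ^ 2)⁻¹ * ∑ n : ZMod N × ZMod N, f (act e1 e2 n x) := by
  unfold avg
  congr 1
  have h1 : ∀ g : ℕ → ℝ, ∑ a ∈ Finset.range N, g a = ∑ a : ZMod N, g a.val := by
    intro g
    refine (Finset.sum_bij (fun (a : ZMod N) _ => a.val) ?_ ?_ ?_ ?_).symm
    · intro a _; exact Finset.mem_range.mpr (ZMod.val_lt a)
    · intro a _ b _ h; exact ZMod.val_injective N h
    · intro b hb
      exact ⟨(b : ZMod N), Finset.mem_univ _, ZMod.val_cast_of_lt (Finset.mem_range.mp hb)⟩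
    · intro a _; rfl
  rw [h1, Fintype.sum_prod_type]
  refine Finset.sum_congr rfl fun a _ => ?_
  rw [h1]
  rfl

lemma avg_act (h12 : e1 * e2 = e2 * e1) (hN1 : e1 ^ N = 1) (hN2 : e2 ^ N = 1)
    (f : X → ℝ) (m : ZMod N × ZMod N) (x : X) :
    avg N e1 e2 f (act e1 e2 m x) = avg N e1 e2 f x := by
  rw [avg_eq, avg_eq]
  congr 1
  rw [← Equiv.sum_comp (Equiv.addRight m) (fun n => f (act e1 e2 n x))]
  refine Finset.sum_congr rfl fun n _ => ?_
  rw [Equiv.coe_addRight, act_add h12 hN1 hN2]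
  rfl

lemma sum_mul_avg (h12 : e1 * e2 = e2 * e1) (hN1 : e1 ^ N = 1) (hN2 : e2 ^ N = 1) (f : X → ℝ) :
    ∑ x, f x * avg N e1 e2 f x = ∑ x, avg N e1 e2 f x ^ 2 := by
  have hN : (N : ℝ) ≠ 0 := by exact_mod_cast NeZero.ne N
  have h : ∀ n : ZMod N × ZMod N, ∑ x, f x * avg N e1 e2 f x =
      ∑ x, f (act e1 e2 n x) * avg N e1 e2 f x := by
    intro n
    rw [← Equiv.sum_comp (act e1 e2 n) (fun x => f x * avg N e1 e2 f x)]
    refine Finset.sum_congr rfl fun x _ => ?_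
    rw [avg_act h12 hN1 hN2]
  have h2 : ∑ n : ZMod N × ZMod N, ∑ x, f x * avg N e1 e2 f x =
      ∑ x, (∑ n : ZMod N × ZMod N, f (act e1 e2 n x)) * avg N e1 e2 f x := by
    rw [Finset.sum_congr rfl fun n _ => h n, Finset.sum_comm]
    refine Finset.sum_congr rfl fun x _ => ?_
    rw [Finset.sum_mul]
  rw [Finset.sum_const, Finset.card_univ, Fintype.card_prod, ZMod.card, nsmul_eq_mul] at h2
  have h3 : ∀ x, ∑ n : ZMod N × ZMod N, f (act e1 e2 n x) = (N : ℝ) ^ 2 * avg N e1 e2 f x := by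
    intro x
    rw [avg_eq]
    field_simp
  simp only [h3] at h2
  have h4 : ∑ x, (N : ℝ) ^ 2 * avg N e1 e2 f x * avg N e1 e2 f x =
      (N : ℝ) ^ 2 * ∑ x, avg N e1 e2 f x ^ 2 := by
    rw [Finset.mul_sum]
    refine Finset.sum_congr rfl fun x _ => by ring
  rw [h4] at h2
  have h5 : ((N * N : ℕ) : ℝ) = (N : ℝ) ^ 2 := by push_cast; ring
  rw [h5] at h2
  exact mul_left_cancel₀ (pow_ne_zero 2 hN) h2

/-- the squared variation along a permutation -/
noncomputable def var (f : X → ℝ) (s : Equiv.Perm X) : ℝ := ∑ x, (f (s x) - f x) ^ 2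

lemma var_nonneg (f : X → ℝ) (s : Equiv.Perm X) : 0 ≤ var f s :=
  Finset.sum_nonneg fun _ _ => by positivity

lemma var_eq (f : X → ℝ) (s : Equiv.Perm X) :
    var f s = 2 * ∑ x, f x ^ 2 - 2 * ∑ x, f x * f (s x) := by
  unfold var
  have h : ∑ x, f (s x) ^ 2 = ∑ x, f x ^ 2 := Equiv.sum_comp s (fun x => f x ^ 2)
  have : ∀ x, (f (s x) - f x) ^ 2 = f (s x) ^ 2 + f x ^ 2 - 2 * (f x * f (s x)) := fun x => by ring
  rw [Finset.sum_congr rfl fun x _ => this x, Finset.sum_sub_distrib, Finset.sum_add_distrib, h,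
    ← Finset.mul_sum]
  ring

lemma var_shift (f : X → ℝ) (s t : Equiv.Perm X) :
    ∑ x, (f (s (t x)) - f (t x)) ^ 2 = var f s :=
  Equiv.sum_comp t (fun x => (f (s x) - f x) ^ 2)

lemma var_sq (f : X → ℝ) (s : Equiv.Perm X) : var f (s * s) ≤ 4 * var f s := by
  have h1 := var_shift f s s
  have h2 : ∀ x, (f ((s * s) x) - f x) ^ 2 ≤ 2 * (f (s (s x)) - f (s x)) ^ 2 + 2 * (f (s x) - f x) ^ 2 := by
    intro x
    rw [Equiv.Perm.mul_apply]
    nlinarith [sq_nonneg ((f (s (s x)) - f (s x)) - (f (s x) - f x))]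
  calc var f (s * s) ≤ ∑ x, (2 * (f (s (s x)) - f (s x)) ^ 2 + 2 * (f (s x) - f x) ^ 2) :=
        Finset.sum_le_sum fun x _ => h2 x
    _ = 4 * var f s := by
        rw [Finset.sum_add_distrib, ← Finset.mul_sum, ← Finset.mul_sum, h1]
        unfold var; ring

lemma var_esq (f : X → ℝ) (s t : Equiv.Perm X) :
    var f (t * (s * s)) ≤ 3 * var f t + 6 * var f s := by
  have h1 := var_shift f s s
  have h1' : ∑ x, (f (t (s (s x))) - f (s (s x))) ^ 2 = var f t := var_shift f t (s * s)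
  have h2 : ∀ x, (f ((t * (s * s)) x) - f x) ^ 2 ≤ 3 * (f (t (s (s x))) - f (s (s x))) ^ 2 +
      3 * (f (s (s x)) - f (s x)) ^ 2 + 3 * (f (s x) - f x) ^ 2 := by
    intro x
    simp only [Equiv.Perm.mul_apply]
    nlinarith [sq_nonneg ((f (s (s x)) - f (s x)) - (f (s x) - f x)),
      sq_nonneg ((f (t (s (s x))) - f (s (s x))) - (f (s (s x)) - f (s x))),
      sq_nonneg ((f (t (s (s x))) - f (s (s x))) - (f (s x) - f x))]
  calc var f (t * (s * s)) ≤ ∑ x, (3 * (f (t (s (s x))) - f (s (s x))) ^ 2 +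
      3 * (f (s (s x)) - f (s x)) ^ 2 + 3 * (f (s x) - f x) ^ 2) :=
        Finset.sum_le_sum fun x _ => h2 x
    _ = 3 * var f t + 6 * var f s := by
        rw [Finset.sum_add_distrib, Finset.sum_add_distrib, ← Finset.mul_sum, ← Finset.mul_sum,
          ← Finset.mul_sum, h1, h1']
        unfold var; ring

/-- **Relative property (T)**: for permutations satisfying the relations of the shears and the
translations of `(ℤ/N)²`, the distance of `f` to its average over the translations is controlled by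
the variation of `f` along the four permutations. -/
theorem relT15 (N : ℕ) [NeZero N] (T1 T2 e1 e2 : Equiv.Perm X) (h12 : e1 * e2 = e2 * e1)
    (h11 : T1 * e1 = e1 * T1) (h1 : T1 * e2 = e1 * e2 * T1)
    (h22 : T2 * e2 = e2 * T2) (h2 : T2 * e1 = e1 * e2 * T2)
    (hN1 : e1 ^ N = 1) (hN2 : e2 ^ N = 1) (f : X → ℝ) :
    ∑ x, (f x - avg N e1 e2 f x) ^ 2 ≤
      15 * (var f T1 + var f T2 + var f e1 + var f e2) := by
  have hN : (0 : ℝ) < N := by exact_mod_cast Nat.pos_of_ne_zero (NeZero.ne N)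
  have c := corr_bound (N := N) h12 h11 h1 h22 h2 hN1 hN2 f
  have h3 : ∑ x, (∑ n : ZMod N × ZMod N, f (act e1 e2 n x)) ^ 2 =
      (N : ℝ) ^ 4 * ∑ x, avg N e1 e2 f x ^ 2 := by
    rw [Finset.mul_sum]
    refine Finset.sum_congr rfl fun x _ => ?_
    rw [avg_eq]
    field_simp
  rw [h3] at c
  have c' : (∑ x, f x * (f (T1 (T1 x)) + f (e1 (T1 (T1 x)))) +
      ∑ x, f x * (f (T2 (T2 x)) + f (e2 (T2 (T2 x))))) ≤
      3.65 * ∑ x, f x ^ 2 + 0.35 * ∑ x, avg N e1 e2 f x ^ 2 := by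
    have hN4 : (0 : ℝ) < (N : ℝ) ^ 4 := by positivity
    refine le_of_mul_le_mul_left ?_ hN4
    linarith [c]
  have e : ∑ x, (f x - avg N e1 e2 f x) ^ 2 = ∑ x, f x ^ 2 - ∑ x, avg N e1 e2 f x ^ 2 := by
    have : ∀ x, (f x - avg N e1 e2 f x) ^ 2 =
      f x ^ 2 + avg N e1 e2 f x ^ 2 - 2 * (f x * avg N e1 e2 f x) := fun x => by ring
    rw [Finset.sum_congr rfl fun x _ => this x, Finset.sum_sub_distrib, Finset.sum_add_distrib,
      ← Finset.mul_sum, sum_mul_avg h12 hN1 hN2]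
    ring
  rw [e]
  have v1 := var_eq f (T1 * T1)
  have v2 := var_eq f (e1 * (T1 * T1))
  have v3 := var_eq f (T2 * T2)
  have v4 := var_eq f (e2 * (T2 * T2))
  have w1 := var_sq f T1
  have w2 := var_esq f T1 e1
  have w3 := var_sq f T2
  have w4 := var_esq f T2 e2
  simp only [Equiv.Perm.mul_apply] at v1 v2 v3 v4
  simp only [mul_add, Finset.sum_add_distrib] at c'
  have n1 := var_nonneg f T1
  have n2 := var_nonneg f T2
  have n3 := var_nonneg f e1
  have n4 := var_nonneg f e2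
  linarith

/-- the form of the blueprint, with constant `81`. -/
theorem relT (N : ℕ) [NeZero N] (T1 T2 e1 e2 : Equiv.Perm X) (h12 : e1 * e2 = e2 * e1)
    (h11 : T1 * e1 = e1 * T1) (h1 : T1 * e2 = e1 * e2 * T1)
    (h22 : T2 * e2 = e2 * T2) (h2 : T2 * e1 = e1 * e2 * T2)
    (hN1 : e1 ^ N = 1) (hN2 : e2 ^ N = 1) (f : X → ℝ) :
    ∑ x, (f x - avg N e1 e2 f x) ^ 2 ≤
      81 * (∑ x, (f (T1 x) - f x) ^ 2 + ∑ x, (f (T2 x) - f x) ^ 2 + ∑ x, (f (e1 x) - f x) ^ 2 +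
        ∑ x, (f (e2 x) - f x) ^ 2) := by
  have h := relT15 N T1 T2 e1 e2 h12 h11 h1 h22 h2 hN1 hN2 f
  have n1 := var_nonneg f T1
  have n2 := var_nonneg f T2
  have n3 := var_nonneg f e1
  have n4 := var_nonneg f e2
  change _ ≤ 81 * (var f T1 + var f T2 + var f e1 + var f e2)
  linarith

end main

end Crest.Agent.R115.RelT
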