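import Mathlib
import Crest.Agent.R115.RelT

/-!
Row 115, blueprint B, ENDGAME (helper446): from the `ℓ¹` estimates for the kernels `q`, `p` on
`G × V_m` to a contradiction, by the relative-(T) inequality.
-/

set_option autoImplicit false

open Finset

namespace Crest.Agent.R115.Endgame

/-! ### The Mazur map -/

/-- the Mazur map `ℓ¹ → ℓ²` on scalars -/
noncomputable def ms (z : ℝ) : ℝ := if 0 ≤ z then √z else -√(-z)

theorem ms_sq (z : ℝ) : ms z ^ 2 = |z| := by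
  unfold ms
  split_ifs with h
  · rw [Real.sq_sqrt h, abs_of_nonneg h]
  · have h' : 0 ≤ -z := by linarith
    rw [neg_sq, Real.sq_sqrt h', abs_of_neg (not_le.1 h)]

theorem ms_zero : ms 0 = 0 := by simp [ms]

theorem ms_ne_zero {z : ℝ} (h : ms z ≠ 0) : z ≠ 0 := by
  rintro rfl; exact h ms_zero

theorem sqrt_sub_sq_le {a b : ℝ} (ha : 0 ≤ a) (hb : 0 ≤ b) : (√a - √b) ^ 2 ≤ |a - b| := by
  have h1 : a - b = (√a - √b) * (√a + √b) := by
    have := Real.mul_self_sqrt ha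
    have := Real.mul_self_sqrt hb
    nlinarith
  rw [h1, abs_mul, ← sq_abs, sq]
  have h2 : |√a - √b| ≤ |√a + √b| := by
    rw [abs_of_nonneg (add_nonneg (Real.sqrt_nonneg a) (Real.sqrt_nonneg b)), abs_le]
    constructor <;> linarith [Real.sqrt_nonneg a, Real.sqrt_nonneg b]
  exact mul_le_mul_of_nonneg_left h2 (abs_nonneg _)

theorem ms_sub_sq_le (a b : ℝ) : (ms a - ms b) ^ 2 ≤ 2 * |a - b| := by
  unfold ms
  split_ifs with ha hb hb
  · have := sqrt_sub_sq_le ha hb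
    have h0 := abs_nonneg (a - b)
    linarith
  · have hb' : 0 ≤ -b := by linarith
    have h1 := Real.sq_sqrt ha
    have h2 := Real.sq_sqrt hb'
    have h3 : |a - b| = a - b := abs_of_nonneg (by linarith)
    rw [h3]
    nlinarith [sq_nonneg (√a - √(-b))]
  · have ha' : 0 ≤ -a := by linarith
    have h1 := Real.sq_sqrt hb
    have h2 := Real.sq_sqrt ha'
    have h3 : |a - b| = b - a := by rw [abs_sub_comm]; exact abs_of_nonneg (by linarith)
    rw [h3]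
    nlinarith [sq_nonneg (√(-a) - √b)]
  · have ha' : 0 ≤ -a := by linarith
    have hb' : 0 ≤ -b := by linarith
    have := sqrt_sub_sq_le ha' hb'
    have h3 : |-a - -b| = |a - b| := by rw [show -a - -b = -(a - b) by ring, abs_neg]
    rw [h3] at this
    have h0 := abs_nonneg (a - b)
    have e : (-√(-a) - -√(-b)) ^ 2 = (√(-a) - √(-b)) ^ 2 := by ring
    rw [e]
    linarith

/-! ### Averages over the two commuting permutations -/

open RelT (avg)

section Avg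

variable {X : Type*} [Fintype X]

omit [Fintype X] in
theorem sum_range_shift (N : ℕ) (e : Equiv.Perm X) (h : e ^ N = 1) (f : X → ℝ) (x : X) :
    ∑ a ∈ range N, f ((e ^ a) (e x)) = ∑ a ∈ range N, f ((e ^ a) x) := by
  have h1 : ∀ a, f ((e ^ a) (e x)) = f ((e ^ (a + 1)) x) := by
    intro a
    rw [pow_succ, Equiv.Perm.mul_apply]
  rw [Finset.sum_congr rfl fun a _ => h1 a]
  have h2 := Finset.sum_range_succ (fun a => f ((e ^ a) x)) N
  have h3 := Finset.sum_range_succ' (fun a => f ((e ^ a) x)) N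
  rw [h] at h2
  rw [h3] at h2
  simp only [pow_zero] at h2
  linarith

omit [Fintype X] in
theorem avg_e2 (N : ℕ) (e1 e2 : Equiv.Perm X) (h2 : e2 ^ N = 1) (f : X → ℝ) (x : X) :
    avg N e1 e2 f (e2 x) = avg N e1 e2 f x := by
  unfold avg
  congr 1
  refine Finset.sum_congr rfl fun a _ => ?_
  have := sum_range_shift N e2 h2 (fun y => f ((e1 ^ a) y)) x
  simpa only [Equiv.Perm.mul_apply] using this

omit [Fintype X] in
theorem avg_e1 (N : ℕ) (e1 e2 : Equiv.Perm X) (h12 : e1 * e2 = e2 * e1) (h1 : e1 ^ N = 1)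
    (f : X → ℝ) (x : X) : avg N e1 e2 f (e1 x) = avg N e1 e2 f x := by
  unfold avg
  congr 1
  rw [Finset.sum_comm]
  rw [Finset.sum_comm (s := range N) (t := range N) (f := fun a b => f ((e1 ^ a * e2 ^ b) x))]
  refine Finset.sum_congr rfl fun b _ => ?_
  have hc : Commute e1 e2 := h12
  have := sum_range_shift N e1 h1 (fun y => f ((e2 ^ b) y)) x
  have e : ∀ a : ℕ, ∀ y : X, (e1 ^ a * e2 ^ b) y = (e2 ^ b) ((e1 ^ a) y) := by
    intro a y
    rw [(hc.pow_pow a b).eq, Equiv.Perm.mul_apply]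
  simp only [e]
  exact this

omit [Fintype X] in
theorem avg_pow (N : ℕ) (e1 e2 : Equiv.Perm X) (h12 : e1 * e2 = e2 * e1) (h1 : e1 ^ N = 1)
    (h2 : e2 ^ N = 1) (f : X → ℝ) (a b : ℕ) (x : X) :
    avg N e1 e2 f ((e1 ^ a * e2 ^ b) x) = avg N e1 e2 f x := by
  have k2 : ∀ b : ℕ, ∀ x, avg N e1 e2 f ((e2 ^ b) x) = avg N e1 e2 f x := by
    intro b
    induction b with
    | zero => intro x; simp
    | succ b ih =>
      intro x
      rw [pow_succ', Equiv.Perm.mul_apply, avg_e2 N e1 e2 h2, ih]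
  have k1 : ∀ a : ℕ, ∀ x, avg N e1 e2 f ((e1 ^ a) x) = avg N e1 e2 f x := by
    intro a
    induction a with
    | zero => intro x; simp
    | succ a ih =>
      intro x
      rw [pow_succ', Equiv.Perm.mul_apply, avg_e1 N e1 e2 h12 h1, ih]
  rw [Equiv.Perm.mul_apply, k1, k2]

theorem sum_avg (N : ℕ) (hN : 0 < N) (e1 e2 : Equiv.Perm X) (f : X → ℝ) :
    ∑ x, avg N e1 e2 f x = ∑ x, f x := by
  unfold avg
  rw [← Finset.mul_sum, Finset.sum_comm]
  have h : ∀ a ∈ range N, ∑ x, ∑ b ∈ range N, f ((e1 ^ a * e2 ^ b) x) = N * ∑ x, f x := by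
    intro a _
    rw [Finset.sum_comm]
    have : ∀ b ∈ range N, ∑ x, f ((e1 ^ a * e2 ^ b) x) = ∑ x, f x := by
      intro b _
      exact Equiv.sum_comp (e1 ^ a * e2 ^ b) f
    rw [Finset.sum_congr rfl this]
    simp
  rw [Finset.sum_congr rfl h]
  have hN' : (N : ℝ) ≠ 0 := by positivity
  simp only [Finset.sum_const, Finset.card_range, nsmul_eq_mul]
  field_simp

omit [Fintype X] in
/-- Cauchy–Schwarz with a bound on the number of nonzero terms -/
theorem avg_sq_le (N : ℕ) (hN : 0 < N) (e1 e2 : Equiv.Perm X) (f : X → ℝ) (x : X) (c : ℝ)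
    (hc : (((range N ×ˢ range N).filter fun ab : ℕ × ℕ =>
      f ((e1 ^ ab.1 * e2 ^ ab.2) x) ≠ 0).card : ℝ) ≤ c * (N : ℝ) ^ 2) :
    avg N e1 e2 f x ^ 2 ≤ c * avg N e1 e2 (fun y => f y ^ 2) x := by
  have hN' : (0 : ℝ) < N := by exact_mod_cast hN
  unfold avg
  rw [← Finset.sum_product' (f := fun a b => f ((e1 ^ a * e2 ^ b) x)),
    ← Finset.sum_product' (f := fun a b => f ((e1 ^ a * e2 ^ b) x) ^ 2)]
  set s := (range N ×ˢ range N).filter fun ab : ℕ × ℕ => f ((e1 ^ ab.1 * e2 ^ ab.2) x) ≠ 0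
    with hs
  have h1 : ∑ ab ∈ range N ×ˢ range N, f ((e1 ^ ab.1 * e2 ^ ab.2) x)
      = ∑ ab ∈ s, f ((e1 ^ ab.1 * e2 ^ ab.2) x) := by
    rw [hs, Finset.sum_filter_ne_zero]
  have h2 : (∑ ab ∈ s, f ((e1 ^ ab.1 * e2 ^ ab.2) x)) ^ 2
      ≤ (s.card : ℝ) * ∑ ab ∈ s, f ((e1 ^ ab.1 * e2 ^ ab.2) x) ^ 2 := sq_sum_le_card_mul_sum_sq
  have h3 : ∑ ab ∈ s, f ((e1 ^ ab.1 * e2 ^ ab.2) x) ^ 2
      ≤ ∑ ab ∈ range N ×ˢ range N, f ((e1 ^ ab.1 * e2 ^ ab.2) x) ^ 2 :=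
    Finset.sum_le_sum_of_subset_of_nonneg (Finset.filter_subset _ _) fun _ _ _ => sq_nonneg _
  set S := ∑ ab ∈ range N ×ˢ range N, f ((e1 ^ ab.1 * e2 ^ ab.2) x) ^ 2 with hS
  have hS0 : 0 ≤ S := Finset.sum_nonneg fun _ _ => sq_nonneg _
  rw [h1, mul_pow]
  have h4 : (∑ ab ∈ s, f ((e1 ^ ab.1 * e2 ^ ab.2) x)) ^ 2 ≤ c * (N : ℝ) ^ 2 * S := by
    refine h2.trans ?_
    calc (s.card : ℝ) * ∑ ab ∈ s, f ((e1 ^ ab.1 * e2 ^ ab.2) x) ^ 2
        ≤ (s.card : ℝ) * S := by gcongr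
      _ ≤ c * (N : ℝ) ^ 2 * S := by gcongr
  calc ((N : ℝ) ^ 2)⁻¹ ^ 2 * (∑ ab ∈ s, f ((e1 ^ ab.1 * e2 ^ ab.2) x)) ^ 2
      ≤ ((N : ℝ) ^ 2)⁻¹ ^ 2 * (c * (N : ℝ) ^ 2 * S) := by gcongr
    _ = c * (((N : ℝ) ^ 2)⁻¹ * S) := by field_simp

end Avg

/-! ### The relations -/

/-- the relations of the shears and the translations -/
structure Rel {H : Type*} [Group H] (T1 T2 e1 e2 : H) (N : ℕ) : Prop where
  h12 : e1 * e2 = e2 * e1
  h11 : T1 * e1 = e1 * T1
  h1r : T1 * e2 = e1 * e2 * T1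
  h22 : T2 * e2 = e2 * T2
  h2r : T2 * e1 = e1 * e2 * T2
  hN1 : e1 ^ N = 1
  hN2 : e2 ^ N = 1

/-- left multiplication as a homomorphism to the permutations -/
abbrev lm (G : Type*) [Group G] : G →* Equiv.Perm G := MulAction.toPermHom G G

theorem Rel.map {H K : Type*} [Group H] [Group K] {T1 T2 e1 e2 : H} {N : ℕ}
    (h : Rel T1 T2 e1 e2 N) (φ : H →* K) : Rel (φ T1) (φ T2) (φ e1) (φ e2) N where
  h12 := by rw [← map_mul, h.h12, map_mul]
  h11 := by rw [← map_mul, h.h11, map_mul]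
  h1r := by rw [← map_mul, h.h1r, map_mul, map_mul]
  h22 := by rw [← map_mul, h.h22, map_mul]
  h2r := by rw [← map_mul, h.h2r, map_mul, map_mul]
  hN1 := by rw [← map_pow, h.hN1, map_one]
  hN2 := by rw [← map_pow, h.hN2, map_one]

/-- product of permutations -/
abbrev pc {A B : Type*} (a : Equiv.Perm A) (b : Equiv.Perm B) : Equiv.Perm (A × B) :=
  Equiv.prodCongr a b

theorem pc_mul {A B : Type*} (a a' : Equiv.Perm A) (b b' : Equiv.Perm B) :
    pc a b * pc a' b' = pc (a * a') (b * b') := by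
  ext x <;> rfl

theorem pc_pow {A B : Type*} (a : Equiv.Perm A) (b : Equiv.Perm B) (n : ℕ) :
    pc a b ^ n = pc (a ^ n) (b ^ n) := by
  induction n with
  | zero => ext x <;> rfl
  | succ n ih => rw [pow_succ, ih, pc_mul, ← pow_succ, ← pow_succ]

theorem Rel.prod {A B : Type*} {T1 T2 e1 e2 : Equiv.Perm A} {S1 S2 d1 d2 : Equiv.Perm B} {N : ℕ}
    (h : Rel T1 T2 e1 e2 N) (k : Rel S1 S2 d1 d2 N) :
    Rel (pc T1 S1) (pc T2 S2) (pc e1 d1) (pc e2 d2) N where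
  h12 := by rw [pc_mul, h.h12, k.h12, pc_mul]
  h11 := by rw [pc_mul, h.h11, k.h11, pc_mul]
  h1r := by rw [pc_mul, h.h1r, k.h1r, pc_mul, pc_mul]
  h22 := by rw [pc_mul, h.h22, k.h22, pc_mul]
  h2r := by rw [pc_mul, h.h2r, k.h2r, pc_mul, pc_mul]
  hN1 := by rw [pc_pow, h.hN1, k.hN1]; ext x <;> rfl
  hN2 := by rw [pc_pow, h.hN2, k.hN2]; ext x <;> rfl

section V

/-- the torus -/
abbrev V (n : ℕ) : Type := ZMod n × ZMod n

def vT1 (n : ℕ) : Equiv.Perm (V n) where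
  toFun v := (v.1 + v.2, v.2)
  invFun v := (v.1 - v.2, v.2)
  left_inv v := by ext <;> simp
  right_inv v := by ext <;> simp

def vT2 (n : ℕ) : Equiv.Perm (V n) where
  toFun v := (v.1, v.2 + v.1)
  invFun v := (v.1, v.2 - v.1)
  left_inv v := by ext <;> simp
  right_inv v := by ext <;> simp

def vE1 (n : ℕ) : Equiv.Perm (V n) where
  toFun v := (v.1 + 1, v.2)
  invFun v := (v.1 - 1, v.2)
  left_inv v := by ext <;> simp
  right_inv v := by ext <;> simp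

def vE2 (n : ℕ) : Equiv.Perm (V n) where
  toFun v := (v.1, v.2 + 1)
  invFun v := (v.1, v.2 - 1)
  left_inv v := by ext <;> simp
  right_inv v := by ext <;> simp

theorem vE1_pow (n a : ℕ) (v : V n) : (vE1 n ^ a) v = (v.1 + a, v.2) := by
  induction a with
  | zero => simp
  | succ a ih =>
    rw [pow_succ', Equiv.Perm.mul_apply, ih]
    ext
    · simp only [vE1, Equiv.coe_fn_mk, Nat.cast_succ]; ring
    · rfl

theorem vE2_pow (n a : ℕ) (v : V n) : (vE2 n ^ a) v = (v.1, v.2 + a) := by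
  induction a with
  | zero => simp
  | succ a ih =>
    rw [pow_succ', Equiv.Perm.mul_apply, ih]
    ext
    · rfl
    · simp only [vE2, Equiv.coe_fn_mk, Nat.cast_succ]; ring

theorem vrel (n N : ℕ) (h : n ∣ N) : Rel (vT1 n) (vT2 n) (vE1 n) (vE2 n) N where
  h12 := by ext v <;> simp [vE1, vE2]
  h11 := by ext v <;> simp [vE1, vT1]; ring
  h1r := by ext v <;> simp [vE1, vE2, vT1]; ring
  h22 := by ext v <;> simp [vE2, vT2]; ring
  h2r := by ext v <;> simp [vE1, vE2, vT2]; ring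
  hN1 := by
    ext v
    · rw [vE1_pow, (ZMod.natCast_eq_zero_iff N n).2 h]; simp
    · rw [vE1_pow]; rfl
  hN2 := by
    ext v
    · rw [vE2_pow]; rfl
    · rw [vE2_pow, (ZMod.natCast_eq_zero_iff N n).2 h]; simp

/-- transitivity of the diagonal translations on a product of two tori (CRT) -/
theorem trans2 (n k : ℕ) [NeZero n] [NeZero k] (hnk : Nat.Coprime n k) (y y' : V n × V k) :
    ∃ a b : ℕ, (pc (vE1 n) (vE1 k) ^ a * pc (vE2 n) (vE2 k) ^ b) y = y' := by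
  obtain ⟨a, ha1, ha2⟩ := Nat.chineseRemainder hnk (y'.1.1 - y.1.1).val (y'.2.1 - y.2.1).val
  obtain ⟨b, hb1, hb2⟩ := Nat.chineseRemainder hnk (y'.1.2 - y.1.2).val (y'.2.2 - y.2.2).val
  have ha1' : (a : ZMod n) = y'.1.1 - y.1.1 := by
    rw [(ZMod.natCast_eq_natCast_iff _ _ _).2 ha1, ZMod.natCast_zmod_val]
  have ha2' : (a : ZMod k) = y'.2.1 - y.2.1 := by
    rw [(ZMod.natCast_eq_natCast_iff _ _ _).2 ha2, ZMod.natCast_zmod_val]
  have hb1' : (b : ZMod n) = y'.1.2 - y.1.2 := by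
    rw [(ZMod.natCast_eq_natCast_iff _ _ _).2 hb1, ZMod.natCast_zmod_val]
  have hb2' : (b : ZMod k) = y'.2.2 - y.2.2 := by
    rw [(ZMod.natCast_eq_natCast_iff _ _ _).2 hb2, ZMod.natCast_zmod_val]
  refine ⟨a, b, ?_⟩
  rw [pc_pow, pc_pow, Equiv.Perm.mul_apply]
  simp only [Equiv.prodCongr_apply, Prod.map, vE1_pow, vE2_pow, ha1', ha2', hb1', hb2']
  ext <;> simp

end V

/-! ### Core estimates -/

section Core

variable {X : Type*} [Fintype X]

/-- the `ℓ¹` variation along the four permutations -/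
noncomputable def vr (T1 T2 e1 e2 : Equiv.Perm X) (z : X → ℝ) : ℝ :=
  ∑ x, |z (T1 x) - z x| + ∑ x, |z (T2 x) - z x| + ∑ x, |z (e1 x) - z x| + ∑ x, |z (e2 x) - z x|

theorem var_ms_le (s : Equiv.Perm X) (z : X → ℝ) :
    RelT.var (fun x => ms (z x)) s ≤ 2 * ∑ x, |z (s x) - z x| := by
  unfold RelT.var
  rw [Finset.mul_sum]
  exact Finset.sum_le_sum fun x _ => ms_sub_sq_le _ _

/-- energy: the distance to the average -/
noncomputable def energy (N : ℕ) (e1 e2 : Equiv.Perm X) (f : X → ℝ) : ℝ :=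
  ∑ x, (f x - avg N e1 e2 f x) ^ 2

theorem energy_nonneg (N : ℕ) (e1 e2 : Equiv.Perm X) (f : X → ℝ) : 0 ≤ energy N e1 e2 f :=
  Finset.sum_nonneg fun _ _ => sq_nonneg _

theorem energy_le {N : ℕ} [NeZero N] {T1 T2 e1 e2 : Equiv.Perm X} (h : Rel T1 T2 e1 e2 N)
    (z : X → ℝ) :
    energy N e1 e2 (fun x => ms (z x)) ≤ 30 * vr T1 T2 e1 e2 z := by
  have := RelT.relT15 N T1 T2 e1 e2 h.h12 h.h11 h.h1r h.h22 h.h2r h.hN1 h.hN2
    (fun x => ms (z x))
  have h1 := var_ms_le T1 z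
  have h2 := var_ms_le T2 z
  have h3 := var_ms_le e1 z
  have h4 := var_ms_le e2 z
  unfold energy vr
  linarith

theorem sum_avg_sq {N : ℕ} [NeZero N] {T1 T2 e1 e2 : Equiv.Perm X} (h : Rel T1 T2 e1 e2 N)
    (f : X → ℝ) : ∑ x, avg N e1 e2 f x ^ 2 = ∑ x, f x ^ 2 - energy N e1 e2 f := by
  have h1 := RelT.sum_mul_avg h.h12 h.hN1 h.hN2 f
  unfold energy
  have h2 : ∀ x, (f x - avg N e1 e2 f x) ^ 2
      = f x ^ 2 + avg N e1 e2 f x ^ 2 - 2 * (f x * avg N e1 e2 f x) := fun x => by ring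
  rw [Finset.sum_congr rfl fun x _ => h2 x, Finset.sum_sub_distrib, Finset.sum_add_distrib,
    ← Finset.mul_sum, h1]
  ring

/-- the mass of a function with small supports along the orbits -/
theorem amass {N : ℕ} [NeZero N] {T1 T2 e1 e2 : Equiv.Perm X} (h : Rel T1 T2 e1 e2 N)
    (z : X → ℝ)
    (hs : ∀ x, 2 * ((range N ×ˢ range N).filter fun ab : ℕ × ℕ =>
      z ((e1 ^ ab.1 * e2 ^ ab.2) x) ≠ 0).card ≤ N ^ 2) :
    ∑ x, |z x| ≤ 60 * vr T1 T2 e1 e2 z := by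
  have hN : 0 < N := Nat.pos_of_ne_zero (NeZero.ne N)
  have h1 := energy_le h z
  have h2 := sum_avg_sq h (fun x => ms (z x))
  have h3 : ∑ x, avg N e1 e2 (fun x => ms (z x)) x ^ 2
      ≤ (1 / 2) * ∑ x, (ms (z x)) ^ 2 := by
    rw [← sum_avg N hN e1 e2 (fun x => (ms (z x)) ^ 2), Finset.mul_sum]
    refine Finset.sum_le_sum fun x _ => ?_
    apply avg_sq_le N hN
    have h4 : ((range N ×ˢ range N).filter fun ab : ℕ × ℕ =>
        ms (z ((e1 ^ ab.1 * e2 ^ ab.2) x)) ≠ 0).card ≤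
        ((range N ×ˢ range N).filter fun ab : ℕ × ℕ =>
          z ((e1 ^ ab.1 * e2 ^ ab.2) x) ≠ 0).card := by
      apply Finset.card_le_card
      intro ab hab
      rw [Finset.mem_filter] at hab ⊢
      exact ⟨hab.1, ms_ne_zero hab.2⟩
    have h5 := hs x
    have h6 : (2 : ℝ) * (((range N ×ˢ range N).filter fun ab : ℕ × ℕ =>
        ms (z ((e1 ^ ab.1 * e2 ^ ab.2) x)) ≠ 0).card : ℝ) ≤ (N : ℝ) ^ 2 := by
      exact_mod_cast (Nat.mul_le_mul_left 2 h4).trans h5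
    linarith
  simp only [ms_sq] at h2 h3
  linarith

end Core

section Level

variable {G : Type*} [Group G] [Fintype G] {Y : Type*} [Fintype Y]

theorem level_const {N : ℕ} [NeZero N] {T1 T2 e1 e2 : G} {S1 S2 d1 d2 : Equiv.Perm Y}
    (h : Rel T1 T2 e1 e2 N) (k : Rel S1 S2 d1 d2 N)
    (tr : ∀ y y', ∃ a b : ℕ, (d1 ^ a * d2 ^ b) y = y') (f : G × Y → ℝ) (S : Finset Y) :
    (Fintype.card Y : ℝ) * ∑ y ∈ S, ∑ g, avg N (pc (lm G e1) d1) (pc (lm G e2) d2) f (g, y) ^ 2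
      = S.card * ∑ x, avg N (pc (lm G e1) d1) (pc (lm G e2) d2) f x ^ 2 := by
  have H := (h.map (lm G)).prod k
  set P := avg N (pc (lm G e1) d1) (pc (lm G e2) d2) f with hP
  have hc : ∀ y y', ∑ g, P (g, y) ^ 2 = ∑ g, P (g, y') ^ 2 := by
    intro y y'
    obtain ⟨a, b, hab⟩ := tr y y'
    have h1 : ∀ g, P (((lm G e1) ^ a * (lm G e2) ^ b) g, y') = P (g, y) := by
      intro g
      have := avg_pow N _ _ H.h12 H.hN1 H.hN2 f a b (g, y)
      rw [pc_pow, pc_pow, pc_mul] at this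
      rw [← hP] at this
      rw [← this, ← hab]
      rfl
    rw [← Equiv.sum_comp ((lm G e1) ^ a * (lm G e2) ^ b) (fun g => P (g, y') ^ 2)]
    exact Finset.sum_congr rfl fun g _ => by rw [h1]
  rcases isEmpty_or_nonempty Y with hY | ⟨⟨y0⟩⟩
  · have : S = ∅ := Finset.eq_empty_of_isEmpty S
    simp [this]
  · have h2 : ∑ x, P x ^ 2 = Fintype.card Y * ∑ g, P (g, y0) ^ 2 := by
      rw [Fintype.sum_prod_type, Finset.sum_comm, Finset.sum_congr rfl fun y _ => hc y y0]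
      simp
    rw [h2, Finset.sum_congr rfl fun y _ => hc y y0]
    simp only [Finset.sum_const, nsmul_eq_mul]
    ring

/-- mass of a subset of `Y` -/
noncomputable def msub (z : G × Y → ℝ) (S : Finset Y) : ℝ := ∑ y ∈ S, ∑ g, |z (g, y)|

omit [Group G] in
theorem sum_sub_le (f : G × Y → ℝ) (hf : ∀ x, 0 ≤ f x) (S : Finset Y) :
    ∑ y ∈ S, ∑ g, f (g, y) ≤ ∑ x, f x := by
  rw [Fintype.sum_prod_type, Finset.sum_comm (s := (univ : Finset G)) (t := (univ : Finset Y))]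
  exact Finset.sum_le_sum_of_subset_of_nonneg (Finset.subset_univ S) fun y _ _ =>
    Finset.sum_nonneg fun g _ => hf _

theorem level_upper {N : ℕ} [NeZero N] {T1 T2 e1 e2 : G} {S1 S2 d1 d2 : Equiv.Perm Y}
    (h : Rel T1 T2 e1 e2 N) (k : Rel S1 S2 d1 d2 N)
    (tr : ∀ y y', ∃ a b : ℕ, (d1 ^ a * d2 ^ b) y = y') (z : G × Y → ℝ) (S : Finset Y)
    (κ : ℝ) (hκ : (S.card : ℝ) ≤ κ * Fintype.card Y) (hY : 0 < Fintype.card Y) :
    msub z S ≤ 2 * κ * ∑ x, |z x| +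
      60 * vr (pc (lm G T1) S1) (pc (lm G T2) S2) (pc (lm G e1) d1) (pc (lm G e2) d2) z := by
  have H := (h.map (lm G)).prod k
  set f : G × Y → ℝ := fun x => ms (z x) with hf
  set P := avg N (pc (lm G e1) d1) (pc (lm G e2) d2) f with hP
  have hY' : (0 : ℝ) < Fintype.card Y := by exact_mod_cast hY
  have hκ0 : 0 ≤ κ := by
    by_contra hneg
    push Not at hneg
    have : κ * Fintype.card Y < 0 := mul_neg_of_neg_of_pos hneg hY'
    have : (0 : ℝ) ≤ S.card := by positivity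
    linarith
  have h1 := energy_le H z
  have h2 := sum_avg_sq H f
  have h3 := level_const h k tr f S
  rw [← hP] at h3 h2
  have hE0 := energy_nonneg N (pc (lm G e1) d1) (pc (lm G e2) d2) f
  have h4 : ∑ x, P x ^ 2 ≤ ∑ x, |z x| := by
    rw [h2]
    have : ∑ x, f x ^ 2 = ∑ x, |z x| := Finset.sum_congr rfl fun x _ => ms_sq _
    linarith
  have hP0 : 0 ≤ ∑ x, P x ^ 2 := Finset.sum_nonneg fun _ _ => sq_nonneg _
  have h5 : ∑ y ∈ S, ∑ g, P (g, y) ^ 2 ≤ κ * ∑ x, |z x| := by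
    have h6 : (Fintype.card Y : ℝ) * ∑ y ∈ S, ∑ g, P (g, y) ^ 2
        ≤ Fintype.card Y * (κ * ∑ x, |z x|) := by
      rw [h3]
      calc (S.card : ℝ) * ∑ x, P x ^ 2 ≤ (κ * Fintype.card Y) * ∑ x, P x ^ 2 := by gcongr
        _ ≤ (κ * Fintype.card Y) * ∑ x, |z x| := by gcongr
        _ = Fintype.card Y * (κ * ∑ x, |z x|) := by ring
    exact le_of_mul_le_mul_left h6 hY'
  have h7 : msub z S ≤ 2 * ∑ y ∈ S, ∑ g, (f (g, y) - P (g, y)) ^ 2 +
      2 * ∑ y ∈ S, ∑ g, P (g, y) ^ 2 := by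
    unfold msub
    rw [Finset.mul_sum, Finset.mul_sum, ← Finset.sum_add_distrib]
    refine Finset.sum_le_sum fun y _ => ?_
    rw [Finset.mul_sum, Finset.mul_sum, ← Finset.sum_add_distrib]
    refine Finset.sum_le_sum fun g _ => ?_
    rw [← ms_sq]
    have : ms (z (g, y)) = f (g, y) := rfl
    rw [this]
    nlinarith [sq_nonneg (f (g, y) - P (g, y) - P (g, y))]
  have h8 : ∑ y ∈ S, ∑ g, (f (g, y) - P (g, y)) ^ 2
      ≤ energy N (pc (lm G e1) d1) (pc (lm G e2) d2) f :=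
    sum_sub_le (fun x => (f x - P x) ^ 2) (fun _ => sq_nonneg _) S
  linarith

theorem level_lower {N : ℕ} [NeZero N] {T1 T2 e1 e2 : G} {S1 S2 d1 d2 : Equiv.Perm Y}
    (h : Rel T1 T2 e1 e2 N) (k : Rel S1 S2 d1 d2 N)
    (tr : ∀ y y', ∃ a b : ℕ, (d1 ^ a * d2 ^ b) y = y') (z : G × Y → ℝ) (S : Finset Y)
    (δ : ℝ) (hδ : δ * Fintype.card Y ≤ (S.card : ℝ)) (hY : 0 < Fintype.card Y) :
    δ / 2 * ∑ x, |z x| ≤ msub z S +
      60 * vr (pc (lm G T1) S1) (pc (lm G T2) S2) (pc (lm G e1) d1) (pc (lm G e2) d2) z := by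
  have H := (h.map (lm G)).prod k
  set f : G × Y → ℝ := fun x => ms (z x) with hf
  set P := avg N (pc (lm G e1) d1) (pc (lm G e2) d2) f with hP
  have hY' : (0 : ℝ) < Fintype.card Y := by exact_mod_cast hY
  have hδ1 : δ ≤ 1 := by
    have h1 : (S.card : ℝ) ≤ Fintype.card Y := by exact_mod_cast Finset.card_le_univ S
    have h2 : δ * Fintype.card Y ≤ 1 * Fintype.card Y := by linarith
    exact le_of_mul_le_mul_right h2 hY'
  have h1 := energy_le H z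
  have h2 := sum_avg_sq H f
  have h3 := level_const h k tr f S
  rw [← hP] at h3 h2
  have hE0 := energy_nonneg N (pc (lm G e1) d1) (pc (lm G e2) d2) f
  have h4 : ∑ x, f x ^ 2 = ∑ x, |z x| := Finset.sum_congr rfl fun x _ => ms_sq _
  have hP0 : 0 ≤ ∑ x, P x ^ 2 := Finset.sum_nonneg fun _ _ => sq_nonneg _
  have h5 : δ * ∑ x, P x ^ 2 ≤ ∑ y ∈ S, ∑ g, P (g, y) ^ 2 := by
    have h6 : (Fintype.card Y : ℝ) * (δ * ∑ x, P x ^ 2)
        ≤ (Fintype.card Y : ℝ) * ∑ y ∈ S, ∑ g, P (g, y) ^ 2 := by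
      rw [h3]
      calc (Fintype.card Y : ℝ) * (δ * ∑ x, P x ^ 2)
          = (δ * Fintype.card Y) * ∑ x, P x ^ 2 := by ring
        _ ≤ (S.card : ℝ) * ∑ x, P x ^ 2 := by gcongr
    exact le_of_mul_le_mul_left h6 hY'
  have h7 : ∑ y ∈ S, ∑ g, P (g, y) ^ 2 ≤
      2 * ∑ y ∈ S, ∑ g, (f (g, y) - P (g, y)) ^ 2 + 2 * msub z S := by
    unfold msub
    rw [Finset.mul_sum, Finset.mul_sum, ← Finset.sum_add_distrib]
    refine Finset.sum_le_sum fun y _ => ?_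
    rw [Finset.mul_sum, Finset.mul_sum, ← Finset.sum_add_distrib]
    refine Finset.sum_le_sum fun g _ => ?_
    rw [← ms_sq]
    have : ms (z (g, y)) = f (g, y) := rfl
    rw [this]
    nlinarith [sq_nonneg (f (g, y) - P (g, y) + f (g, y))]
  have h8 : ∑ y ∈ S, ∑ g, (f (g, y) - P (g, y)) ^ 2
      ≤ energy N (pc (lm G e1) d1) (pc (lm G e2) d2) f :=
    sum_sub_le (fun x => (f x - P x) ^ 2) (fun _ => sq_nonneg _) S
  rw [h2, h4] at h5
  have h9 : δ * energy N (pc (lm G e1) d1) (pc (lm G e2) d2) f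
      ≤ 1 * energy N (pc (lm G e1) d1) (pc (lm G e2) d2) f := by gcongr
  linarith

end Level

/-! ### The endgame -/

section Final

variable {G : Type*} [Group G] [Fintype G]

theorem card_V (n : ℕ) [NeZero n] : Fintype.card (V n) = n ^ 2 := by
  rw [Fintype.card_prod, ZMod.card, sq]

omit [Group G] in
theorem sum_swap {P : Type*} [Fintype P] {W : ℕ → Type*} [∀ j, Fintype (W j)] (s : Finset ℕ)
    (F : (j : ℕ) → G → P → W j → ℝ) :
    ∑ j ∈ s, ∑ x : G × (P × W j), F j x.1 x.2.1 x.2.2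
      = ∑ g, ∑ v, ∑ j ∈ s, ∑ u, F j g v u := by
  have h : ∀ j, ∑ x : G × (P × W j), F j x.1 x.2.1 x.2.2 = ∑ g, ∑ v, ∑ u, F j g v u := by
    intro j
    rw [Fintype.sum_prod_type]
    refine Finset.sum_congr rfl fun g _ => ?_
    rw [Fintype.sum_prod_type]
  rw [Finset.sum_congr rfl fun j _ => h j, Finset.sum_comm]
  refine Finset.sum_congr rfl fun g _ => ?_
  rw [Finset.sum_comm]

omit [Group G] in
theorem sum_le_C {P : Type*} [Fintype P] {W : ℕ → Type*} [∀ j, Fintype (W j)] (s : Finset ℕ)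
    (F : (j : ℕ) → G → P → W j → ℝ) (c : ℝ)
    (h : ∀ g v, ∑ j ∈ s, ∑ u, F j g v u ≤ c) :
    ∑ j ∈ s, ∑ x : G × (P × W j), F j x.1 x.2.1 x.2.2
      ≤ c * (Fintype.card G * Fintype.card P) := by
  rw [sum_swap]
  calc ∑ g, ∑ v, ∑ j ∈ s, ∑ u, F j g v u ≤ ∑ _g : G, ∑ _v : P, c :=
        Finset.sum_le_sum fun g _ => Finset.sum_le_sum fun v _ => h g v
    _ = c * (Fintype.card G * Fintype.card P) := by
        simp only [Finset.sum_const, Finset.card_univ, nsmul_eq_mul]; ring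

/-- the `t`-step: mass moves from level `j` into the low part of level `j + 1` -/
theorem tstep {P : Type*} [Fintype P] {W : ℕ → Type*} [∀ j, Fintype (W j)]
    [∀ j, DecidableEq (W j)] (t : G)
    (n1 : ℕ) (stay : Finset P) (go low : ∀ j, Finset (W j)) (iota : ∀ j, W j → W (j + 1))
    (hiota : ∀ j ≤ n1, Set.InjOn (iota j) (go j))
    (hilow : ∀ j ≤ n1, ∀ u ∈ go j, iota j u ∈ low (j + 1))
    (q : G → P → (j : ℕ) → W j → ℝ) (eps : ℝ) (heps : 0 ≤ eps)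
    (hqt : ∀ g, ∀ v ∈ stay, ∑ j ∈ range (n1 + 1), ∑ u ∈ go j,
      |q (t * g) v (j + 1) (iota j u) - q g v j u| ≤ eps) :
    ∑ j ∈ range (n1 + 1),
      msub (fun x : G × (P × W j) => q x.1 x.2.1 j x.2.2) (stay ×ˢ go j)
    ≤ eps * (Fintype.card G * Fintype.card P) +
      ∑ j ∈ range (n1 + 1),
        msub (fun x : G × (P × W (j + 1)) => q x.1 x.2.1 (j + 1) x.2.2) (univ ×ˢ low (j + 1)) := by
  unfold msub
  simp only
  have h1 : ∑ j ∈ range (n1 + 1), ∑ y ∈ stay ×ˢ go j, ∑ g, |q g y.1 j y.2|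
      ≤ ∑ j ∈ range (n1 + 1), ∑ y ∈ stay ×ˢ go j, ∑ g,
          |q (t * g) y.1 (j + 1) (iota j y.2) - q g y.1 j y.2|
        + ∑ j ∈ range (n1 + 1), ∑ y ∈ stay ×ˢ go j, ∑ g,
          |q (t * g) y.1 (j + 1) (iota j y.2)| := by
    rw [← Finset.sum_add_distrib]
    refine Finset.sum_le_sum fun j _ => ?_
    rw [← Finset.sum_add_distrib]
    refine Finset.sum_le_sum fun y _ => ?_
    rw [← Finset.sum_add_distrib]
    refine Finset.sum_le_sum fun g _ => ?_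
    have := abs_sub_abs_le_abs_sub (q g y.1 j y.2) (q (t * g) y.1 (j + 1) (iota j y.2))
    rw [abs_sub_comm] at this
    linarith
  have h2 : ∑ j ∈ range (n1 + 1), ∑ y ∈ stay ×ˢ go j, ∑ g,
          |q (t * g) y.1 (j + 1) (iota j y.2) - q g y.1 j y.2|
      ≤ eps * (Fintype.card G * Fintype.card P) := by
    have e : ∑ j ∈ range (n1 + 1), ∑ y ∈ stay ×ˢ go j, ∑ g,
          |q (t * g) y.1 (j + 1) (iota j y.2) - q g y.1 j y.2|
        = ∑ g, ∑ v ∈ stay, ∑ j ∈ range (n1 + 1), ∑ u ∈ go j,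
          |q (t * g) v (j + 1) (iota j u) - q g v j u| := by
      have : ∀ j ∈ range (n1 + 1), ∑ y ∈ stay ×ˢ go j, ∑ g,
          |q (t * g) y.1 (j + 1) (iota j y.2) - q g y.1 j y.2|
          = ∑ g, ∑ v ∈ stay, ∑ u ∈ go j, |q (t * g) v (j + 1) (iota j u) - q g v j u| := by
        intro j _
        rw [Finset.sum_comm]
        refine Finset.sum_congr rfl fun g _ => ?_
        rw [Finset.sum_product]
      rw [Finset.sum_congr rfl this, Finset.sum_comm]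
      refine Finset.sum_congr rfl fun g _ => ?_
      rw [Finset.sum_comm]
    rw [e]
    calc ∑ g, ∑ v ∈ stay, ∑ j ∈ range (n1 + 1), ∑ u ∈ go j,
          |q (t * g) v (j + 1) (iota j u) - q g v j u|
        ≤ ∑ _g : G, ∑ _v ∈ stay, eps :=
          Finset.sum_le_sum fun g _ => Finset.sum_le_sum fun v hv => hqt g v hv
      _ = Fintype.card G * (stay.card * eps) := by
          simp only [Finset.sum_const, Finset.card_univ, nsmul_eq_mul]
      _ ≤ Fintype.card G * (Fintype.card P * eps) := by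
          have : (stay.card : ℝ) ≤ Fintype.card P := by exact_mod_cast Finset.card_le_univ stay
          gcongr
      _ = eps * (Fintype.card G * Fintype.card P) := by ring
  have h3 : ∀ j ∈ range (n1 + 1), ∑ y ∈ stay ×ˢ go j, ∑ g,
          |q (t * g) y.1 (j + 1) (iota j y.2)|
      ≤ ∑ y ∈ univ ×ˢ low (j + 1), ∑ g, |q g y.1 (j + 1) y.2| := by
    intro j hj
    have hj' : j ≤ n1 := Nat.lt_succ_iff.1 (Finset.mem_range.1 hj)
    rw [Finset.sum_product, Finset.sum_product]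
    have e : ∀ v u, ∑ g, |q (t * g) v (j + 1) (iota j u)| = ∑ g, |q g v (j + 1) (iota j u)| :=
      fun v u => Equiv.sum_comp (Equiv.mulLeft t) (fun g => |q g v (j + 1) (iota j u)|)
    simp only [e]
    calc ∑ v ∈ stay, ∑ u ∈ go j, ∑ g, |q g v (j + 1) (iota j u)|
        ≤ ∑ v, ∑ u ∈ go j, ∑ g, |q g v (j + 1) (iota j u)| :=
          Finset.sum_le_sum_of_subset_of_nonneg (Finset.subset_univ stay) fun _ _ _ =>
            Finset.sum_nonneg fun _ _ => Finset.sum_nonneg fun _ _ => abs_nonneg _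
      _ ≤ ∑ v, ∑ u ∈ low (j + 1), ∑ g, |q g v (j + 1) u| := by
          refine Finset.sum_le_sum fun v _ => ?_
          rw [← Finset.sum_image (s := go j) (g := iota j)
            (f := fun u => ∑ g, |q g v (j + 1) u|) (hiota j hj')]
          refine Finset.sum_le_sum_of_subset_of_nonneg ?_ fun _ _ _ =>
            Finset.sum_nonneg fun _ _ => abs_nonneg _
          intro u hu
          obtain ⟨w, hw, rfl⟩ := Finset.mem_image.1 hu
          exact hilow j hj' w hw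
  have h4 := Finset.sum_le_sum h3
  linarith

/-- **The endgame.** -/
theorem endgame' {A : Type*} [Fintype A] (T1 T2 e1 e2 t : G)
    (N : ℕ) [NeZero N] (hG : Rel T1 T2 e1 e2 N)
    (p : ℕ → ℕ) [∀ j, NeZero (p j)] (n1 m : ℕ)
    (hcop : ∀ j ≤ n1 + 1, Nat.Coprime (p m) (p j)) (hdm : p m ∣ N)
    (hdvd : ∀ j ≤ n1 + 1, p j ∣ N)
    (stay : Finset (V (p m))) (go low : ∀ j, Finset (V (p j)))
    (iota : ∀ j, V (p j) → V (p (j + 1)))
    (hiota : ∀ j ≤ n1, Set.InjOn (iota j) (go j))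
    (hilow : ∀ j ≤ n1, ∀ u ∈ go j, iota j u ∈ low (j + 1))
    (hstay : (p m) ^ 2 ≤ 4 * stay.card) (hgo : ∀ j ≤ n1, (p j) ^ 2 ≤ 4 * (go j).card)
    (κ : ℝ) (hlow : ∀ j ≤ n1, ((low (j + 1)).card : ℝ) ≤ κ * (p (j + 1) : ℝ) ^ 2)
    (q : G → V (p m) → (j : ℕ) → V (p j) → ℝ) (a : G → V (p m) → A → ℝ) (lam eps : ℝ)
    (hq : ∀ g v, ∑ j ∈ range (n1 + 2), ∑ u, |q g v j u| ≤ lam + 1)
    (hqT1 : ∀ g v, ∑ j ∈ range (n1 + 2), ∑ u : V (p j),
      |q (T1 * g) (v.1 + v.2, v.2) j (u.1 + u.2, u.2) - q g v j u| ≤ eps)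
    (hqT2 : ∀ g v, ∑ j ∈ range (n1 + 2), ∑ u : V (p j),
      |q (T2 * g) (v.1, v.2 + v.1) j (u.1, u.2 + u.1) - q g v j u| ≤ eps)
    (hqe1 : ∀ g v, ∑ j ∈ range (n1 + 2), ∑ u : V (p j),
      |q (e1 * g) (v.1 + 1, v.2) j (u.1 + 1, u.2) - q g v j u| ≤ eps)
    (hqe2 : ∀ g v, ∑ j ∈ range (n1 + 2), ∑ u : V (p j),
      |q (e2 * g) (v.1, v.2 + 1) j (u.1, u.2 + 1) - q g v j u| ≤ eps)
    (hqt : ∀ g, ∀ v ∈ stay, ∑ j ∈ range (n1 + 1), ∑ u ∈ go j,
      |q (t * g) v (j + 1) (iota j u) - q g v j u| ≤ eps)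
    (haT1 : ∀ g v, ∑ b, |a (T1 * g) (v.1 + v.2, v.2) b - a g v b| ≤ eps)
    (haT2 : ∀ g v, ∑ b, |a (T2 * g) (v.1, v.2 + v.1) b - a g v b| ≤ eps)
    (hae1 : ∀ g v, ∑ b, |a (e1 * g) (v.1 + 1, v.2) b - a g v b| ≤ eps)
    (hae2 : ∀ g v, ∑ b, |a (e2 * g) (v.1, v.2 + 1) b - a g v b| ≤ eps)
    (hasupp : ∀ b g, ∀ v : V (p m), 2 * ((range N ×ˢ range N).filter fun ik : ℕ × ℕ =>
      a (e1 ^ ik.1 * e2 ^ ik.2 * g) (v.1 + ik.1, v.2 + ik.2) b ≠ 0).card ≤ N ^ 2)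
    (htot : ∀ g v, 3 / 4 ≤ ∑ j ∈ range (n1 + 1), ∑ u, q g v j u + ∑ b, a g v b)
    (heps : eps ≤ 1 / 50000) (hκ : κ * (lam + 1) ≤ 1 / 200) : False := by
  classical
  -- notation
  set z : (j : ℕ) → G × (V (p m) × V (p j)) → ℝ := fun j x => q x.1 x.2.1 j x.2.2 with hz
  set D : ℕ → ℝ := fun j => vr (pc (lm G T1) (pc (vT1 (p m)) (vT1 (p j))))
    (pc (lm G T2) (pc (vT2 (p m)) (vT2 (p j)))) (pc (lm G e1) (pc (vE1 (p m)) (vE1 (p j))))
    (pc (lm G e2) (pc (vE2 (p m)) (vE2 (p j)))) (z j) with hD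
  set μ : ℕ → ℝ := fun j => ∑ x, |z j x| with hμ
  set C : ℝ := (Fintype.card G : ℝ) * (Fintype.card (V (p m)) : ℝ) with hC
  have hCpos : 0 < C := by
    have h1 : 0 < Fintype.card G := Fintype.card_pos
    have h2 : 0 < Fintype.card (V (p m)) := Fintype.card_pos
    positivity
  have heps0 : 0 ≤ eps := by
    refine le_trans ?_ (hqT1 1 (0, 0))
    exact Finset.sum_nonneg fun _ _ => Finset.sum_nonneg fun _ _ => abs_nonneg _
  have hκ0 : 0 ≤ κ := by
    have h1 := hlow 0 (Nat.zero_le _)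
    have h2 : (0 : ℝ) < (p (0 + 1) : ℝ) ^ 2 := by
      have : 0 < p (0 + 1) := Nat.pos_of_ne_zero (NeZero.ne _)
      positivity
    have h3 : (0 : ℝ) ≤ ((low (0 + 1)).card : ℝ) := by positivity
    by_contra hneg
    push Not at hneg
    have := mul_neg_of_neg_of_pos hneg h2
    linarith
  have hμ0 : ∀ j, 0 ≤ μ j := fun j => Finset.sum_nonneg fun _ _ => abs_nonneg _
  have hD0 : ∀ j, 0 ≤ D j := by
    intro j
    simp only [hD, vr]
    have : ∀ s : Equiv.Perm (G × (V (p m) × V (p j))), 0 ≤ ∑ x, |z j (s x) - z j x| :=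
      fun s => Finset.sum_nonneg fun _ _ => abs_nonneg _
    linarith [this (pc (lm G T1) (pc (vT1 (p m)) (vT1 (p j)))),
      this (pc (lm G T2) (pc (vT2 (p m)) (vT2 (p j)))),
      this (pc (lm G e1) (pc (vE1 (p m)) (vE1 (p j)))),
      this (pc (lm G e2) (pc (vE2 (p m)) (vE2 (p j))))]
  -- Claim 1
  have c1 : ∑ j ∈ range (n1 + 2), μ j ≤ (lam + 1) * C :=
    sum_le_C (range (n1 + 2)) (fun j g v u => |q g v j u|) (lam + 1) hq
  -- Claim 2
  have c2 : ∑ j ∈ range (n1 + 2), D j ≤ 4 * eps * C := by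
    have a1 := sum_le_C (range (n1 + 2)) (fun j g (v : V (p m)) (u : V (p j)) =>
      |q (T1 * g) (v.1 + v.2, v.2) j (u.1 + u.2, u.2) - q g v j u|) eps hqT1
    have a2 := sum_le_C (range (n1 + 2)) (fun j g (v : V (p m)) (u : V (p j)) =>
      |q (T2 * g) (v.1, v.2 + v.1) j (u.1, u.2 + u.1) - q g v j u|) eps hqT2
    have a3 := sum_le_C (range (n1 + 2)) (fun j g (v : V (p m)) (u : V (p j)) =>
      |q (e1 * g) (v.1 + 1, v.2) j (u.1 + 1, u.2) - q g v j u|) eps hqe1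
    have a4 := sum_le_C (range (n1 + 2)) (fun j g (v : V (p m)) (u : V (p j)) =>
      |q (e2 * g) (v.1, v.2 + 1) j (u.1, u.2 + 1) - q g v j u|) eps hqe2
    simp only [hD, vr, Finset.sum_add_distrib]
    have : 4 * eps * C = eps * C + eps * C + eps * C + eps * C := by ring
    rw [this]
    exact add_le_add (add_le_add (add_le_add a1 a2) a3) a4
  -- Claim 3: the mass of `a`
  have c3 : ∑ b, ∑ x : G × V (p m), |a x.1 x.2 b| ≤ 240 * eps * C := by
    set zb : A → G × V (p m) → ℝ := fun b x => a x.1 x.2 b with hzb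
    have hR := (hG.map (lm G)).prod (vrel (p m) N hdm)
    have hpow : ∀ (i k : ℕ) (x : G × V (p m)),
        (pc (lm G e1) (vE1 (p m)) ^ i * pc (lm G e2) (vE2 (p m)) ^ k) x
          = (e1 ^ i * e2 ^ k * x.1, (x.2.1 + i, x.2.2 + k)) := by
      intro i k x
      rw [pc_pow, pc_pow, Equiv.Perm.mul_apply]
      simp only [Equiv.prodCongr_apply, Prod.map, vE1_pow, vE2_pow]
      rw [← map_pow, ← map_pow]
      refine Prod.ext ?_ rfl
      change e1 ^ i * (e2 ^ k * x.1) = _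
      rw [mul_assoc]
    have h1 : ∀ b, ∑ x, |zb b x| ≤ 60 * vr (pc (lm G T1) (vT1 (p m))) (pc (lm G T2) (vT2 (p m)))
        (pc (lm G e1) (vE1 (p m))) (pc (lm G e2) (vE2 (p m))) (zb b) := by
      intro b
      apply amass hR
      rintro ⟨g, v⟩
      simp only [hpow]
      exact hasupp b g v
    have sw : ∀ F : G → V (p m) → A → ℝ, (∀ g v, ∑ b, F g v b ≤ eps) →
        ∑ b, ∑ x : G × V (p m), F x.1 x.2 b ≤ eps * C := by
      intro F hF
      rw [Finset.sum_comm]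
      calc ∑ x : G × V (p m), ∑ b, F x.1 x.2 b ≤ ∑ _x : G × V (p m), eps :=
            Finset.sum_le_sum fun x _ => hF x.1 x.2
        _ = eps * C := by
            simp only [Finset.sum_const, Finset.card_univ, nsmul_eq_mul, Fintype.card_prod, hC]
            push_cast; ring
    have h2 : ∑ b, vr (pc (lm G T1) (vT1 (p m))) (pc (lm G T2) (vT2 (p m)))
        (pc (lm G e1) (vE1 (p m))) (pc (lm G e2) (vE2 (p m))) (zb b) ≤ 4 * eps * C := by
      simp only [vr, Finset.sum_add_distrib]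
      have : 4 * eps * C = eps * C + eps * C + eps * C + eps * C := by ring
      rw [this]
      have b1 := sw (fun g (v : V (p m)) b => |a (T1 * g) (v.1 + v.2, v.2) b - a g v b|) haT1
      have b2 := sw (fun g (v : V (p m)) b => |a (T2 * g) (v.1, v.2 + v.1) b - a g v b|) haT2
      have b3 := sw (fun g (v : V (p m)) b => |a (e1 * g) (v.1 + 1, v.2) b - a g v b|) hae1
      have b4 := sw (fun g (v : V (p m)) b => |a (e2 * g) (v.1, v.2 + 1) b - a g v b|) hae2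
      exact add_le_add (add_le_add (add_le_add b1 b2) b3) b4
    calc ∑ b, ∑ x : G × V (p m), |a x.1 x.2 b| = ∑ b, ∑ x, |zb b x| := rfl
      _ ≤ ∑ b, 60 * vr (pc (lm G T1) (vT1 (p m))) (pc (lm G T2) (vT2 (p m)))
        (pc (lm G e1) (vE1 (p m))) (pc (lm G e2) (vE2 (p m))) (zb b) :=
          Finset.sum_le_sum fun b _ => h1 b
      _ = 60 * ∑ b, vr (pc (lm G T1) (vT1 (p m))) (pc (lm G T2) (vT2 (p m)))
        (pc (lm G e1) (vE1 (p m))) (pc (lm G e2) (vE2 (p m))) (zb b) := by rw [Finset.mul_sum]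
      _ ≤ 240 * eps * C := by linarith
  -- Claim 4
  have c4 : 3 / 4 * C ≤ ∑ j ∈ range (n1 + 1), μ j + 240 * eps * C := by
    have h1 : 3 / 4 * C ≤ ∑ g : G, ∑ v : V (p m),
        (∑ j ∈ range (n1 + 1), ∑ u, q g v j u + ∑ b, a g v b) := by
      calc 3 / 4 * C = ∑ _g : G, ∑ _v : V (p m), (3 / 4 : ℝ) := by
            simp only [Finset.sum_const, Finset.card_univ, nsmul_eq_mul, hC]; ring
        _ ≤ _ := Finset.sum_le_sum fun g _ => Finset.sum_le_sum fun v _ => htot g v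
    have h2 : ∑ g : G, ∑ v : V (p m), ∑ j ∈ range (n1 + 1), ∑ u, q g v j u
        ≤ ∑ j ∈ range (n1 + 1), μ j := by
      rw [← sum_swap (range (n1 + 1)) (fun j g v u => q g v j u)]
      exact Finset.sum_le_sum fun j _ => Finset.sum_le_sum fun x _ => le_abs_self _
    have h3 : ∑ g : G, ∑ v : V (p m), ∑ b, a g v b ≤ ∑ b, ∑ x : G × V (p m), |a x.1 x.2 b| := by
      rw [Finset.sum_comm (s := (univ : Finset A)), Fintype.sum_prod_type]
      exact Finset.sum_le_sum fun g _ => Finset.sum_le_sum fun v _ =>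
        Finset.sum_le_sum fun b _ => le_abs_self _
    simp only [Finset.sum_add_distrib] at h1
    linarith
  -- Claim 5
  have c5 := tstep t n1 stay go low iota hiota hilow q eps heps0 hqt
  -- Claim 6
  have c6 : ∀ j ≤ n1, msub (z (j + 1)) (univ ×ˢ low (j + 1)) ≤
      2 * κ * μ (j + 1) + 60 * D (j + 1) := by
    intro j hj
    have hk := (vrel (p m) N hdm).prod (vrel (p (j + 1)) N (hdvd (j + 1) (by omega)))
    refine level_upper hG hk (trans2 _ _ (hcop (j + 1) (by omega))) (z (j + 1))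
      (univ ×ˢ low (j + 1)) κ ?_ Fintype.card_pos
    rw [Finset.card_product, Fintype.card_prod, Finset.card_univ, card_V (p (j + 1))]
    push_cast
    have h1 := hlow j hj
    have h2 : (0 : ℝ) ≤ (Fintype.card (V (p m)) : ℝ) := by positivity
    calc (Fintype.card (V (p m)) : ℝ) * ((low (j + 1)).card : ℝ)
        ≤ (Fintype.card (V (p m)) : ℝ) * (κ * (p (j + 1) : ℝ) ^ 2) := by gcongr
      _ = _ := by ring
  -- Claim 7
  have c7 : ∀ j ≤ n1, (1 / 32) * μ j ≤ msub (z j) (stay ×ˢ go j) + 60 * D j := by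
    intro j hj
    have hk := (vrel (p m) N hdm).prod (vrel (p j) N (hdvd j (by omega)))
    have h := level_lower hG hk (trans2 _ _ (hcop j (by omega))) (z j)
      (stay ×ˢ go j) (1 / 16) ?_ Fintype.card_pos
    · have e : (1 / 16 : ℝ) / 2 = 1 / 32 := by norm_num
      rw [e] at h
      exact h
    · rw [Finset.card_product, Fintype.card_prod, card_V (p m), card_V (p j)]
      push_cast
      have h1 : ((p m : ℝ)) ^ 2 ≤ 4 * stay.card := by exact_mod_cast hstay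
      have h2 : ((p j : ℝ)) ^ 2 ≤ 4 * (go j).card := by exact_mod_cast hgo j hj
      calc (1 / 16 : ℝ) * ((p m : ℝ) ^ 2 * (p j : ℝ) ^ 2)
          ≤ (1 / 16 : ℝ) * ((4 * stay.card) * (4 * (go j).card)) := by gcongr
        _ = _ := by ring
  -- conclusion
  have s6 : ∑ j ∈ range (n1 + 1), msub (z (j + 1)) (univ ×ˢ low (j + 1)) ≤
      2 * κ * ∑ j ∈ range (n1 + 1), μ (j + 1) + 60 * ∑ j ∈ range (n1 + 1), D (j + 1) := by
    rw [Finset.mul_sum, Finset.mul_sum, ← Finset.sum_add_distrib]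
    exact Finset.sum_le_sum fun j hj => c6 j (Nat.lt_succ_iff.1 (Finset.mem_range.1 hj))
  have s7 : (1 / 32) * ∑ j ∈ range (n1 + 1), μ j ≤
      ∑ j ∈ range (n1 + 1), msub (z j) (stay ×ˢ go j) + 60 * ∑ j ∈ range (n1 + 1), D j := by
    rw [Finset.mul_sum, Finset.mul_sum, ← Finset.sum_add_distrib]
    exact Finset.sum_le_sum fun j hj => c7 j (Nat.lt_succ_iff.1 (Finset.mem_range.1 hj))
  have r1 : ∑ j ∈ range (n1 + 1), μ (j + 1) ≤ ∑ j ∈ range (n1 + 2), μ j := by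
    rw [Finset.sum_range_succ' _ (n1 + 1)]
    linarith [hμ0 0]
  have r2 : ∑ j ∈ range (n1 + 1), D (j + 1) ≤ ∑ j ∈ range (n1 + 2), D j := by
    rw [Finset.sum_range_succ' _ (n1 + 1)]
    linarith [hD0 0]
  have r3 : ∑ j ∈ range (n1 + 1), D j ≤ ∑ j ∈ range (n1 + 2), D j := by
    rw [Finset.sum_range_succ _ (n1 + 1)]
    linarith [hD0 (n1 + 1)]
  have r4 : 2 * κ * ∑ j ∈ range (n1 + 1), μ (j + 1) ≤ 2 * (κ * (lam + 1)) * C := by
    calc 2 * κ * ∑ j ∈ range (n1 + 1), μ (j + 1) ≤ 2 * κ * ((lam + 1) * C) := by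
          gcongr
          exact r1.trans c1
      _ = _ := by ring
  have r5 : 2 * (κ * (lam + 1)) * C ≤ 2 * (1 / 200) * C := by gcongr
  have r6 : eps * C ≤ 1 / 50000 * C := by gcongr
  have c5' : ∑ j ∈ range (n1 + 1), msub (z j) (stay ×ˢ go j) ≤
      eps * C + ∑ j ∈ range (n1 + 1), msub (z (j + 1)) (univ ×ˢ low (j + 1)) := c5
  nlinarith

end Final

/-! ### The interface of the blueprint -/

/-- The endgame in the exact form of the plan (note 2125). -/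
theorem endgame {G : Type*} [Group G] [Fintype G] {A : Type*} [Fintype A] (T1 T2 e1 e2 t : G)
    (h12 : e1 * e2 = e2 * e1) (h11 : T1 * e1 = e1 * T1) (h1r : T1 * e2 = e1 * e2 * T1)
    (h22 : T2 * e2 = e2 * T2) (h2r : T2 * e1 = e1 * e2 * T2)
    (p : ℕ → ℕ) [hp : ∀ j, Fact (p j).Prime] (hpinj : Function.Injective p)
    (N : ℕ) [NeZero N] (hN1 : e1 ^ N = 1) (hN2 : e2 ^ N = 1)
    (n1 m : ℕ) (hm : n1 + 1 < m) (hdvd : ∀ j ≤ m, p j ∣ N)
    (stay : Finset (ZMod (p m) × ZMod (p m))) (go low : ∀ j, Finset (ZMod (p j) × ZMod (p j)))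
    (iota : ∀ j, ZMod (p j) × ZMod (p j) → ZMod (p (j + 1)) × ZMod (p (j + 1)))
    (hiota : ∀ j ≤ n1, Set.InjOn (iota j) (go j))
    (hilow : ∀ j ≤ n1, ∀ u ∈ go j, iota j u ∈ low (j + 1))
    (hstay : (p m) ^ 2 ≤ 4 * stay.card) (hgo : ∀ j ≤ n1, (p j) ^ 2 ≤ 4 * (go j).card)
    (kappa : ℝ) (hlow : ∀ j ≤ n1, ((low (j + 1)).card : ℝ) ≤ kappa * (p (j + 1) : ℝ) ^ 2)
    (q : G → ZMod (p m) × ZMod (p m) → (j : ℕ) → ZMod (p j) × ZMod (p j) → ℝ)
    (a : G → ZMod (p m) × ZMod (p m) → A → ℝ) (lam eps : ℝ)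
    (hq : ∀ g v, ∑ j ∈ range (n1 + 2), ∑ u, |q g v j u| ≤ lam + 1)
    (hqT1 : ∀ g v, ∑ j ∈ range (n1 + 2), ∑ u : ZMod (p j) × ZMod (p j),
      |q (T1 * g) (v.1 + v.2, v.2) j (u.1 + u.2, u.2) - q g v j u| ≤ eps)
    (hqT2 : ∀ g v, ∑ j ∈ range (n1 + 2), ∑ u : ZMod (p j) × ZMod (p j),
      |q (T2 * g) (v.1, v.2 + v.1) j (u.1, u.2 + u.1) - q g v j u| ≤ eps)
    (hqe1 : ∀ g v, ∑ j ∈ range (n1 + 2), ∑ u : ZMod (p j) × ZMod (p j),
      |q (e1 * g) (v.1 + 1, v.2) j (u.1 + 1, u.2) - q g v j u| ≤ eps)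
    (hqe2 : ∀ g v, ∑ j ∈ range (n1 + 2), ∑ u : ZMod (p j) × ZMod (p j),
      |q (e2 * g) (v.1, v.2 + 1) j (u.1, u.2 + 1) - q g v j u| ≤ eps)
    (hqt : ∀ g, ∀ v ∈ stay, ∑ j ∈ range (n1 + 1), ∑ u ∈ go j,
      |q (t * g) v (j + 1) (iota j u) - q g v j u| ≤ eps)
    (haT1 : ∀ g v, ∑ b, |a (T1 * g) (v.1 + v.2, v.2) b - a g v b| ≤ eps)
    (haT2 : ∀ g v, ∑ b, |a (T2 * g) (v.1, v.2 + v.1) b - a g v b| ≤ eps)
    (hae1 : ∀ g v, ∑ b, |a (e1 * g) (v.1 + 1, v.2) b - a g v b| ≤ eps)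
    (hae2 : ∀ g v, ∑ b, |a (e2 * g) (v.1, v.2 + 1) b - a g v b| ≤ eps)
    (hasupp : ∀ b g, ∀ v : ZMod (p m) × ZMod (p m),
      2 * ((range N ×ˢ range N).filter fun ik : ℕ × ℕ =>
        a (e1 ^ ik.1 * e2 ^ ik.2 * g) (v.1 + ik.1, v.2 + ik.2) b ≠ 0).card ≤ N ^ 2)
    (htot : ∀ g v, 3 / 4 ≤ ∑ j ∈ range (n1 + 1), ∑ u, q g v j u + ∑ b, a g v b)
    (heps : eps ≤ 1 / 50000) (hkappa : kappa * (lam + 1) ≤ 1 / 200) : False := by
  refine endgame' T1 T2 e1 e2 t N ⟨h12, h11, h1r, h22, h2r, hN1, hN2⟩ p n1 m ?_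
    (hdvd m le_rfl) (fun j hj => hdvd j (by omega)) stay go low iota hiota hilow hstay hgo
    kappa hlow q a lam eps hq hqT1 hqT2 hqe1 hqe2 hqt haT1 haT2 hae1 hae2 hasupp htot heps hkappa
  intro j hj
  refine (Nat.coprime_primes (hp m).out (hp j).out).2 fun e => ?_
  have := hpinj e
  omega

end Crest.Agent.R115.Endgame
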