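import Mathlib

/-!
Row 115, blueprint B: the primes.
-/

set_option autoImplicit false
open Finset

namespace Crest.Agent.R115.Dyn

/-- a sequence of primes growing by a factor at least `K` -/
noncomputable def primeSeq (K : ℕ) : ℕ → {q : ℕ // q.Prime}
  | 0 => ⟨5, by norm_num⟩
  | j + 1 => ⟨(Nat.exists_infinite_primes (K * (primeSeq K j).1 + (primeSeq K j).1 + 1)).choose,
      (Nat.exists_infinite_primes (K * (primeSeq K j).1 + (primeSeq K j).1 + 1)).choose_spec.2⟩

theorem primeSeq_succ (K j : ℕ) :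
    K * (primeSeq K j).1 + (primeSeq K j).1 + 1 ≤ (primeSeq K (j + 1)).1 :=
  (Nat.exists_infinite_primes (K * (primeSeq K j).1 + (primeSeq K j).1 + 1)).choose_spec.1

/-- primes growing fast -/
theorem exists_primes (K : ℕ) : ∃ p : ℕ → ℕ, (∀ j, (p j).Prime) ∧ (∀ j, K * p j ≤ p (j + 1)) ∧
    StrictMono p ∧ (∀ j, j + 5 ≤ p j) := by
  refine ⟨fun j => (primeSeq K j).1, fun j => (primeSeq K j).2, ?_, ?_, ?_⟩
  · intro j
    have := primeSeq_succ K j
    simp only at this ⊢
    omega
  · apply strictMono_nat_of_lt_succ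
    intro j
    have := primeSeq_succ K j
    have h2 : 0 ≤ K * (primeSeq K j).1 := Nat.zero_le _
    omega
  · intro j
    induction j with
    | zero => simp [primeSeq]
    | succ j ih =>
      have := primeSeq_succ K j
      have h2 : 0 ≤ K * (primeSeq K j).1 := Nat.zero_le _
      simp only at ih ⊢
      omega

/-- the common period -/
def period (p : ℕ → ℕ) (m : ℕ) : ℕ := ∏ j ∈ range (m + 1), p j

theorem dvd_period (p : ℕ → ℕ) {m j : ℕ} (hj : j ≤ m) : p j ∣ period p m :=
  Finset.dvd_prod_of_mem p (mem_range.mpr (by omega))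

theorem period_ne_zero (p : ℕ → ℕ) (hp : ∀ j, p j ≠ 0) (m : ℕ) : period p m ≠ 0 :=
  Finset.prod_ne_zero_iff.mpr fun j _ => hp j

end Crest.Agent.R115.Dyn
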