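import Crest.Agent.R115.Defs

/-!
Task T3: "ladder" lemma: comparison along the subdivided arms, for an arbitrary vertex set `S`.
`E` bounds the step energy.
-/

set_option autoImplicit false

namespace Crest.Agent.R115

open Finset

variable {S : Type} [Fintype S]

/-- Minkowski inequality for finite sums of squares -/
lemma ladder_mink (u v : S → ℝ) :
    Real.sqrt (∑ x, (u x + v x) ^ 2) ≤ Real.sqrt (∑ x, u x ^ 2) + Real.sqrt (∑ x, v x ^ 2) := by
  have key := norm_add_le (WithLp.toLp 2 u : EuclideanSpace ℝ S) (WithLp.toLp 2 v)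
  simpa [EuclideanSpace.norm_eq, Real.norm_eq_abs, sq_abs] using key

/-- a single fibre of a step is bounded by the whole step energy -/
lemma ladder_fibre {h : ℕ} (α : Arm → Equiv.Perm S) (g : Z S h → ℝ) (E : ℝ)
    (hE : ∀ w : Step h, ∑ z, (g (stepFun α w z) - g z) ^ 2 ≤ E)
    (w : Step h) (p : Option Arm × Fin (h + 1)) :
    ∑ x : S, (g (stepFun α w (x, p)) - g (x, p)) ^ 2 ≤ E := by
  refine le_trans ?_ (hE w)
  rw [Fintype.sum_prod_type]
  refine Finset.sum_le_sum fun x _ => ?_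
  exact Finset.single_le_sum (f := fun p => (g (stepFun α w (x, p)) - g (x, p)) ^ 2)
    (fun p _ => sq_nonneg _) (Finset.mem_univ p)

lemma ladder_pos_aux {h : ℕ} (α : Arm → Equiv.Perm S) (g : Z S h → ℝ) (E : ℝ)
    (hE : ∀ w : Step h, ∑ z, (g (stepFun α w z) - g z) ^ 2 ≤ E)
    (a : Option Arm) (j : ℕ) (hj : j < h + 1) :
    Real.sqrt (∑ x : S, (g (x, a, ⟨j, hj⟩) - g (x, none, 0)) ^ 2) ≤ ((j : ℝ) + 1) * Real.sqrt E := by
  induction j with
  | zero =>
    have h1 := ladder_fibre α g E hE (Sum.inr (Sum.inl a)) (none, 0)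
    have h2 : ∑ x : S, (g (x, a, ⟨0, hj⟩) - g (x, none, 0)) ^ 2 ≤ E := by
      refine le_trans (le_of_eq ?_) h1
      refine Finset.sum_congr rfl fun x _ => ?_
      simp [stepFun, cenFun]
    simpa using Real.sqrt_le_sqrt h2
  | succ j ih =>
    have ih' := ih (by omega)
    have h1 := ladder_fibre α g E hE (Sum.inl ⟨j, by omega⟩) (a, ⟨j, by omega⟩)
    have h2 : ∑ x : S, (g (x, a, ⟨j + 1, hj⟩) - g (x, a, ⟨j, by omega⟩)) ^ 2 ≤ E := by
      refine le_trans (le_of_eq ?_) h1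
      refine Finset.sum_congr rfl fun x _ => ?_
      have : Equiv.swap (Fin.castSucc (⟨j, by omega⟩ : Fin h)) (Fin.succ (⟨j, by omega⟩ : Fin h))
          (⟨j, by omega⟩ : Fin (h + 1)) = ⟨j + 1, hj⟩ := by
        have : (⟨j, by omega⟩ : Fin (h + 1)) = Fin.castSucc (⟨j, by omega⟩ : Fin h) := rfl
        rw [this, Equiv.swap_apply_left]
        rfl
      simp only [stepFun, posFun, this]
    have h3 := ladder_mink (fun x : S => g (x, a, ⟨j + 1, hj⟩) - g (x, a, ⟨j, by omega⟩))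
      (fun x : S => g (x, a, ⟨j, by omega⟩) - g (x, none, 0))
    simp only [sub_add_sub_cancel] at h3
    refine h3.trans ?_
    have h4 := Real.sqrt_le_sqrt h2
    push_cast
    linarith

theorem ladder_pos' {h : ℕ} (α : Arm → Equiv.Perm S) (g : Z S h → ℝ) (E : ℝ)
    (hE : ∀ w : Step h, ∑ z, (g (stepFun α w z) - g z) ^ 2 ≤ E)
    (a : Option Arm) (i : Fin (h + 1)) :
    Real.sqrt (∑ x : S, (g (x, a, i) - g (x, none, 0)) ^ 2) ≤ ((h : ℝ) + 1) * Real.sqrt E := by
  refine (ladder_pos_aux α g E hE a i.1 i.2).trans ?_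
  have : ((i : ℕ) : ℝ) ≤ h := by exact_mod_cast Nat.lt_succ_iff.mp i.2
  have h0 := Real.sqrt_nonneg E
  nlinarith

lemma ladder_E_nonneg {h : ℕ} (α : Arm → Equiv.Perm S) (g : Z S h → ℝ) (E : ℝ)
    (hE : ∀ w : Step h, ∑ z, (g (stepFun α w z) - g z) ^ 2 ≤ E) : 0 ≤ E :=
  le_trans (Finset.sum_nonneg fun _ _ => sq_nonneg _) (hE (Sum.inr (Sum.inr ())))

theorem ladder_pos {h : ℕ} (α : Arm → Equiv.Perm S) (g : Z S h → ℝ) (E : ℝ)
    (hE : ∀ w : Step h, ∑ z, (g (stepFun α w z) - g z) ^ 2 ≤ E)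
    (a : Option Arm) (i : Fin (h + 1)) :
    ∑ x : S, (g (x, a, i) - g (x, none, 0)) ^ 2 ≤ 4 * ((h : ℝ) + 1) ^ 2 * E := by
  have h0 : 0 ≤ E := ladder_E_nonneg α g E hE
  have h1 := ladder_pos' α g E hE a i
  have h2 : 0 ≤ ∑ x : S, (g (x, a, i) - g (x, none, 0)) ^ 2 :=
    Finset.sum_nonneg fun x _ => sq_nonneg _
  have h3 := mul_self_le_mul_self (Real.sqrt_nonneg _) h1
  rw [Real.mul_self_sqrt h2] at h3
  have h4 : ((h : ℝ) + 1) * Real.sqrt E * (((h : ℝ) + 1) * Real.sqrt E) =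
      ((h : ℝ) + 1) ^ 2 * E := by
    calc _ = ((h : ℝ) + 1) ^ 2 * (Real.sqrt E * Real.sqrt E) := by ring
      _ = _ := by rw [Real.mul_self_sqrt h0]
  have h5 : 0 ≤ ((h : ℝ) + 1) ^ 2 * E := mul_nonneg (sq_nonneg _) h0
  linarith

theorem ladder_act {h : ℕ} (α : Arm → Equiv.Perm S) (g : Z S h → ℝ) (E : ℝ)
    (hE : ∀ w : Step h, ∑ z, (g (stepFun α w z) - g z) ^ 2 ≤ E)
    (a : Arm) :
    ∑ x : S, (g (α a x, none, 0) - g (x, none, 0)) ^ 2 ≤ 100 * ((h : ℝ) + 1) ^ 2 * E := by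
  have h0 : 0 ≤ E := ladder_E_nonneg α g E hE
  -- first leg
  have h1 : Real.sqrt (∑ x : S, (g (α a x, some (bar a), Fin.last h) - g (α a x, none, 0)) ^ 2)
      ≤ ((h : ℝ) + 1) * Real.sqrt E := by
    have := ladder_pos' α g E hE (some (bar a)) (Fin.last h)
    rwa [← Equiv.sum_comp (α a)
      (fun x => (g (x, some (bar a), Fin.last h) - g (x, none, 0)) ^ 2)] at this
  have h1' : Real.sqrt (∑ x : S, (g (α a x, none, 0) - g (α a x, some (bar a), Fin.last h)) ^ 2)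
      ≤ ((h : ℝ) + 1) * Real.sqrt E := by
    refine le_trans (le_of_eq ?_) h1
    congr 1
    refine Finset.sum_congr rfl fun x _ => ?_
    ring
  have h2 : Real.sqrt (∑ x : S, (g (α a x, some (bar a), Fin.last h)
      - g (x, some a, Fin.last h)) ^ 2) ≤ Real.sqrt E := by
    have := ladder_fibre α g E hE (Sum.inr (Sum.inr ())) (some a, Fin.last h)
    refine Real.sqrt_le_sqrt (le_trans (le_of_eq ?_) this)
    refine Finset.sum_congr rfl fun x _ => ?_
    simp [stepFun, glueFun]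
  have h3 := ladder_pos' α g E hE (some a) (Fin.last h)
  have m1 := ladder_mink (fun x : S => g (α a x, none, 0) - g (α a x, some (bar a), Fin.last h))
    (fun x : S => (g (α a x, some (bar a), Fin.last h) - g (x, some a, Fin.last h))
      + (g (x, some a, Fin.last h) - g (x, none, 0)))
  have m2 := ladder_mink
    (fun x : S => g (α a x, some (bar a), Fin.last h) - g (x, some a, Fin.last h))
    (fun x : S => g (x, some a, Fin.last h) - g (x, none, 0))
  have e1 : ∀ x : S, (g (α a x, none, 0) - g (α a x, some (bar a), Fin.last h)) +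
      ((g (α a x, some (bar a), Fin.last h) - g (x, some a, Fin.last h))
      + (g (x, some a, Fin.last h) - g (x, none, 0))) = g (α a x, none, 0) - g (x, none, 0) := by
    intro x; ring
  simp only [e1] at m1
  have h4 : Real.sqrt (∑ x : S, (g (α a x, none, 0) - g (x, none, 0)) ^ 2)
      ≤ (2 * (h : ℝ) + 3) * Real.sqrt E := by
    linarith
  have h5 : 0 ≤ ∑ x : S, (g (α a x, none, 0) - g (x, none, 0)) ^ 2 :=
    Finset.sum_nonneg fun x _ => sq_nonneg _
  have h6 := mul_self_le_mul_self (Real.sqrt_nonneg _) h4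
  rw [Real.mul_self_sqrt h5] at h6
  have h7 : (2 * (h : ℝ) + 3) * Real.sqrt E * ((2 * (h : ℝ) + 3) * Real.sqrt E) =
      (2 * (h : ℝ) + 3) ^ 2 * E := by
    calc _ = (2 * (h : ℝ) + 3) ^ 2 * (Real.sqrt E * Real.sqrt E) := by ring
      _ = _ := by rw [Real.mul_self_sqrt h0]
  have h8 : (2 * (h : ℝ) + 3) ^ 2 ≤ 100 * ((h : ℝ) + 1) ^ 2 := by
    have : (0 : ℝ) ≤ h := Nat.cast_nonneg h
    nlinarith
  have h9 := mul_le_mul_of_nonneg_right h8 h0
  linarith

end Crest.Agent.R115
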