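import Crest.Agent.R115.PairGap
import Crest.Agent.R115.Ladder

/-!
Task T4: one-coordinate Dirichlet gaps (from `pair_gap`, `ladder_pos`, `ladder_act`).
`c` depends on `h` only.
-/

set_option autoImplicit false

namespace Crest.Agent.R115

open Finset

/-- From a bound at the centres to a bound everywhere. -/
theorem gap_of_centre {S : Type} [Fintype S] {h : ℕ} (α : Arm → Equiv.Perm S) (g : Z S h → ℝ)
    (E C : ℝ) (hE : ∀ w : Step h, ∑ z, (g (stepFun α w z) - g z) ^ 2 ≤ E)
    (hC : ∑ x : S, g (x, none, 0) ^ 2 ≤ C * E) :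
    ∑ z, g z ^ 2 ≤ (9 * ((h : ℝ) + 1)) * (8 * ((h : ℝ) + 1) ^ 2 + 2 * C) * E := by
  have h1 : ∑ z : Z S h, g z ^ 2 = ∑ p : Option Arm × Fin (h + 1), ∑ x : S, g (x, p) ^ 2 := by
    rw [Fintype.sum_prod_type, Finset.sum_comm]
  rw [h1]
  have h2 : ∀ p : Option Arm × Fin (h + 1), ∑ x : S, g (x, p) ^ 2 ≤
      (8 * ((h : ℝ) + 1) ^ 2 + 2 * C) * E := by
    rintro ⟨a, i⟩
    have h3 := ladder_pos α g E hE a i
    calc ∑ x : S, g (x, a, i) ^ 2
        ≤ ∑ x : S, (2 * (g (x, a, i) - g (x, none, 0)) ^ 2 + 2 * g (x, none, 0) ^ 2) := by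
          apply Finset.sum_le_sum
          intro x _
          nlinarith [sq_nonneg (g (x, a, i) - 2 * g (x, none, 0))]
      _ = 2 * ∑ x : S, (g (x, a, i) - g (x, none, 0)) ^ 2 + 2 * ∑ x : S, g (x, none, 0) ^ 2 := by
          rw [Finset.sum_add_distrib, Finset.mul_sum, Finset.mul_sum]
      _ ≤ 2 * (4 * ((h : ℝ) + 1) ^ 2 * E) + 2 * (C * E) := by gcongr
      _ = (8 * ((h : ℝ) + 1) ^ 2 + 2 * C) * E := by ring
  calc ∑ p : Option Arm × Fin (h + 1), ∑ x : S, g (x, p) ^ 2
      ≤ ∑ _p : Option Arm × Fin (h + 1), (8 * ((h : ℝ) + 1) ^ 2 + 2 * C) * E :=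
        Finset.sum_le_sum fun p _ => h2 p
    _ = (9 * ((h : ℝ) + 1)) * (8 * ((h : ℝ) + 1) ^ 2 + 2 * C) * E := by
        rw [Finset.sum_const, Finset.card_univ]
        simp only [Fintype.card_prod, Fintype.card_option, Fintype.card_fin, Fintype.card_bool,
          nsmul_eq_mul]
        push_cast
        ring

theorem energy_le {S : Type} [Fintype S] {h : ℕ} (α : Arm → Equiv.Perm S) (g : Z S h → ℝ)
    (w : Step h) :
    ∑ z, (g (stepFun α w z) - g z) ^ 2 ≤ ∑ w : Step h, ∑ z, (g z - g (stepFun α w z)) ^ 2 := by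
  have h1 : ∑ z, (g (stepFun α w z) - g z) ^ 2 = ∑ z, (g z - g (stepFun α w z)) ^ 2 :=
    Finset.sum_congr rfl fun z _ => by ring
  rw [h1]
  exact Finset.single_le_sum (f := fun w => ∑ z, (g z - g (stepFun α w z)) ^ 2)
    (fun w _ => Finset.sum_nonneg fun z _ => sq_nonneg _) (Finset.mem_univ w)

/-- sheets: `S = G m × G m'`, killed where the leg ends at mismatched marks -/
theorem gap_sheets (h : ℕ) : ∃ c : ℝ, 0 < c ∧ ∀ m m' : ℕ, m ≠ m' →
    ∀ g : Z (G m × G m') h → ℝ,
    (∀ x : G m × G m', mark (q m) x.1 ≠ mark (q m') x.2 → g (x, none, Fin.last h) = 0) →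
    c * ∑ z, g z ^ 2 ≤
      ∑ w : Step h, ∑ z, (g z - g (stepFun (prodAct (act (q m)) (act (q m'))) w z)) ^ 2 := by
  obtain ⟨C, hC, hpair⟩ := pair_gap
  have hpos : (0 : ℝ) < (9 * ((h : ℝ) + 1)) *
      (8 * ((h : ℝ) + 1) ^ 2 + 2 * (C * (100 * ((h : ℝ) + 1) ^ 2))) := by positivity
  refine ⟨((9 * ((h : ℝ) + 1)) *
      (8 * ((h : ℝ) + 1) ^ 2 + 2 * (C * (100 * ((h : ℝ) + 1) ^ 2))))⁻¹, inv_pos.mpr hpos, ?_⟩
  intro m m' hmm g hg
  set α := prodAct (act (q m)) (act (q m')) with hα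
  set E := ∑ w : Step h, ∑ z, (g z - g (stepFun α w z)) ^ 2 with hE
  have hEw : ∀ w : Step h, ∑ z, (g (stepFun α w z) - g z) ^ 2 ≤ E := fun w => energy_le α g w
  have hE0 : 0 ≤ E := le_trans (Finset.sum_nonneg fun z _ => sq_nonneg _) (hEw (Sum.inr (Sum.inr ())))
  have hF : ∑ x : G m × G m', g (x, none, 0) ^ 2 ≤ C * (100 * ((h : ℝ) + 1) ^ 2 * E) := by
    apply hpair m m' hmm (fun x => g (x, none, 0))
    · intro s
      have := ladder_act α g E hEw (s, true)
      simpa [hα, act] using this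
    · have h1 := ladder_pos α g E hEw none (Fin.last h)
      calc ∑ z : G m × G m' with mark (q m) z.1 ≠ mark (q m') z.2, g (z, none, 0) ^ 2
          = ∑ z : G m × G m' with mark (q m) z.1 ≠ mark (q m') z.2,
              (g (z, none, Fin.last h) - g (z, none, 0)) ^ 2 := by
            apply Finset.sum_congr rfl
            intro z hz
            rw [Finset.mem_filter] at hz
            rw [hg z hz.2]
            ring
        _ ≤ ∑ z : G m × G m', (g (z, none, Fin.last h) - g (z, none, 0)) ^ 2 :=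
            Finset.sum_le_sum_of_subset_of_nonneg (Finset.filter_subset _ _)
              fun z _ _ => sq_nonneg _
        _ ≤ 4 * ((h : ℝ) + 1) ^ 2 * E := h1
        _ ≤ 100 * ((h : ℝ) + 1) ^ 2 * E := by
            have : 0 ≤ ((h : ℝ) + 1) ^ 2 * E := by positivity
            nlinarith
  have hfin := gap_of_centre α g E (C * (100 * ((h : ℝ) + 1) ^ 2)) hEw (by rw [mul_assoc]; exact hF)
  rw [inv_mul_le_iff₀ hpos]
  exact hfin

/-- An arm far from a given point of the type graph. -/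
theorem exists_far_arm {h : ℕ} (b : K h) : ∃ a : Arm, h ≤ del ((Sum.inl a, Fin.last h) : K h) b := by
  obtain ⟨t, j⟩ := b
  have key : ∃ a : Arm, (Sum.inl a : Arm ⊕ Bool) ≠ t ∧ ¬ partner (Sum.inl a) t := by
    rcases t with a' | c
    · obtain ⟨s, e⟩ := a'
      by_cases hs : s = 0
      · refine ⟨(1, true), ?_, ?_⟩
        · subst hs
          simp
        · subst hs
          simp [partner, bar]
      · refine ⟨(0, true), ?_, ?_⟩
        · simp only [ne_eq, Sum.inl.injEq, Prod.mk.injEq, not_and]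
          intro h0
          exact absurd h0.symm hs
        · simp only [partner, bar, Prod.mk.injEq, not_and]
          intro h0
          exact absurd h0 hs
    · exact ⟨(0, true), by simp, by simp [partner]⟩
  obtain ⟨a, h1, h2⟩ := key
  refine ⟨a, ?_⟩
  unfold del
  rw [if_neg h1, if_neg h2]
  simp

/-- terminals: `S = G m × K h` with trivial action on `K h`; killed far from the centre. -/
theorem gap_terminals (h r : ℕ) (hr : 1 ≤ r) (hh : 2 * r ≤ h) : ∃ c : ℝ, 0 < c ∧ ∀ m : ℕ,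
    ∀ g : Z (G m × K h) h → ℝ,
    (∀ z : Z (G m × K h) h,
      r ≤ del (kap (fun x : G m × K h => mark (q m) x.1) z) z.1.2 → g z = 0) →
    c * ∑ z, g z ^ 2 ≤
      ∑ w : Step h, ∑ z, (g z - g (stepFun (prodAct (act (q m)) (fun _ => 1)) w z)) ^ 2 := by
  have hpos : (0 : ℝ) < (9 * ((h : ℝ) + 1)) *
      (8 * ((h : ℝ) + 1) ^ 2 + 2 * (32 * ((h : ℝ) + 1) ^ 2)) := by positivity
  refine ⟨((9 * ((h : ℝ) + 1)) *
      (8 * ((h : ℝ) + 1) ^ 2 + 2 * (32 * ((h : ℝ) + 1) ^ 2)))⁻¹, inv_pos.mpr hpos, ?_⟩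
  intro m g hg
  set α : Arm → Equiv.Perm (G m × K h) := prodAct (act (q m)) (fun _ => 1) with hα
  set E := ∑ w : Step h, ∑ z, (g z - g (stepFun α w z)) ^ 2 with hE
  have hEw : ∀ w : Step h, ∑ z, (g (stepFun α w z) - g z) ^ 2 ≤ E := fun w => energy_le α g w
  have hF : ∑ x : G m × K h, g (x, none, 0) ^ 2 ≤ (32 * ((h : ℝ) + 1) ^ 2) * E := by
    calc ∑ x : G m × K h, g (x, none, 0) ^ 2
        ≤ ∑ x : G m × K h, ∑ a : Arm, (g (x, some a, Fin.last h) - g (x, none, 0)) ^ 2 := by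
          apply Finset.sum_le_sum
          intro x _
          obtain ⟨a, ha⟩ := exists_far_arm x.2
          have h0 : g (x, some a, Fin.last h) = 0 := by
            apply hg
            have : kap (fun x : G m × K h => mark (q m) x.1) (x, some a, Fin.last h) =
              ((Sum.inl a, Fin.last h) : K h) := rfl
            rw [this]
            exact le_trans (by omega) ha
          calc g (x, none, 0) ^ 2 = (g (x, some a, Fin.last h) - g (x, none, 0)) ^ 2 := by
                rw [h0]; ring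
            _ ≤ ∑ a : Arm, (g (x, some a, Fin.last h) - g (x, none, 0)) ^ 2 :=
                Finset.single_le_sum
                  (f := fun a : Arm => (g (x, some a, Fin.last h) - g (x, none, 0)) ^ 2)
                  (fun a _ => sq_nonneg _) (Finset.mem_univ a)
      _ = ∑ a : Arm, ∑ x : G m × K h, (g (x, some a, Fin.last h) - g (x, none, 0)) ^ 2 :=
          Finset.sum_comm
      _ ≤ ∑ _a : Arm, 4 * ((h : ℝ) + 1) ^ 2 * E :=
          Finset.sum_le_sum fun a _ => ladder_pos α g E hEw (some a) (Fin.last h)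
      _ = (32 * ((h : ℝ) + 1) ^ 2) * E := by
          rw [Finset.sum_const, Finset.card_univ]
          simp only [Fintype.card_prod, Fintype.card_fin, Fintype.card_bool, nsmul_eq_mul]
          push_cast
          ring
  have hfin := gap_of_centre α g E (32 * ((h : ℝ) + 1) ^ 2) hEw hF
  rw [inv_mul_le_iff₀ hpos]
  exact hfin

end Crest.Agent.R115
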