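import Crest.Agent.R115.CoreD
import Crest.Agent.R115.CoordGap

/-!
Task T10: the core estimate. `h` arm length, `r` cut-off radius, `ρ` terminal distance,
`n` number of coordinates, `L` the Lipschitz constant.
-/

set_option autoImplicit false

namespace Crest.Agent.R115

open Finset

lemma sum4_comm {α β γ δ : Type} [Fintype α] [Fintype β] [Fintype γ] [Fintype δ]
    (f : α → β → γ → δ → ℝ) :
    ∑ a, ∑ b, ∑ c, ∑ d, f a b c d = ∑ d, ∑ a, ∑ b, ∑ c, f a b c d := by
  have h1 : ∀ a b, ∑ c, ∑ d, f a b c d = ∑ d, ∑ c, f a b c d := fun a b => Finset.sum_comm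
  have h2 : ∀ a, ∑ b, ∑ d, ∑ c, f a b c d = ∑ d, ∑ b, ∑ c, f a b c d := fun a => Finset.sum_comm
  simp only [h1, h2]
  exact Finset.sum_comm

theorem core (L : ℕ) (hL : 1 ≤ L) (ρ r h : ℕ) (hρ : ρ = 64 * L) (hr : r = 64 * L * ρ)
    (hh : h = 2 * r + 2) (c : ℝ) (hc : 0 < c) (hc1 : c ≤ 1)
    (hgS : ∀ m m' : ℕ, m ≠ m' → ∀ g : Z (G m × G m') h → ℝ,
      (∀ x : G m × G m', mark (q m) x.1 ≠ mark (q m') x.2 → g (x, none, Fin.last h) = 0) →
      c * ∑ z, g z ^ 2 ≤
        ∑ w : Step h, ∑ z, (g z - g (stepFun (prodAct (act (q m)) (act (q m'))) w z)) ^ 2)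
    (hgT : ∀ m : ℕ, ∀ g : Z (G m × K h) h → ℝ,
      (∀ z : Z (G m × K h) h,
        r ≤ del (kap (fun x : G m × K h => mark (q m) x.1) z) z.1.2 → g z = 0) →
      c * ∑ z, g z ^ 2 ≤
        ∑ w : Step h, ∑ z, (g z - g (stepFun (prodAct (act (q m)) (fun _ => 1)) w z)) ^ 2)
    (n : ℕ) (hn : (1 - c / (4 * Fintype.card (Step h))) ^ n ≤ 1 / 4)
    (N : Finset (Pts h n)) (C : Pts h n → Pts h n → ℝ)
    (hN : ∀ u p, p ∉ N → C u p = 0)
    (hLip : ∀ g ∈ TestS h n r ρ, ∀ u u' : Pts h n, ∀ M : ℝ, 0 ≤ M →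
      (∀ g' ∈ TestS h n r ρ, |g' u - g' u'| ≤ M) →
      |∑ p ∈ N, (C u p - C u' p) * g p| ≤ L * M + 1 / 4)
    (hT : ∀ b : Fin n → K h, ∀ g ∈ TestS h n r ρ,
      |∑ p ∈ N, C (Sum.inl b) p * g p - g (Sum.inl b)| ≤ 1 / 4) : False := by
  classical
  -- numerical facts
  have hL' : (1 : ℝ) ≤ L := by exact_mod_cast hL
  have hρ' : (ρ : ℝ) = 64 * L := by rw [hρ]; push_cast; ring
  have hr' : (r : ℝ) = 64 * (L * ρ) := by rw [hr]; push_cast; ring
  have hρ1 : 1 ≤ ρ := by omega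
  have hρR : (64 : ℝ) ≤ ρ := by rw [hρ']; linarith
  have hLρ : (64 : ℝ) ≤ L * ρ := by nlinarith
  have hρr : ρ ≤ r := by
    rw [hr]; nlinarith
  have hr1 : 1 ≤ r := hρ1.trans hρr
  have hh' : 2 * r + 2 ≤ h := hh.ge
  -- the level
  obtain ⟨m, hm⟩ : ∃ m : ℕ, ∀ m' v, (Sum.inr ⟨m', v⟩ : Pts h n) ∈ N → m' < m := by
    let lev : Pts h n → ℕ := fun p => match p with
      | Sum.inl _ => 0
      | Sum.inr ⟨m', _⟩ => m'
    refine ⟨N.sup lev + 1, fun m' v hv => ?_⟩
    have h1 : lev (Sum.inr ⟨m', v⟩) ≤ N.sup lev := Finset.le_sup hv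
    exact Nat.lt_succ_of_le h1
  have hcard : (0 : ℝ) < Fintype.card (Step h) := by exact_mod_cast Fintype.card_pos
  set A : ℝ := (2 * (Fintype.card (Step h) : ℝ)) ^ n with hA
  have hApos : 0 < A := by positivity
  -- terminal inequality
  have HT : A * ∑ u : Fin n → Z (G m) h, ∑ b : Fin n → K h, |fT C r u b| ≤
      ∑ w : Fin n → Step h, ∑ e : Fin n → Bool, ∑ u : Fin n → Z (G m) h, ∑ b : Fin n → K h,
        |fT C r u b - fT C r (stepn w e u) b| := by
    have H := tensor_pairs (h := h) (n := n) (m := m) (Y := K h) (fun _ => 1) (by simp)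
      {z | r ≤ del (kap (fun x : G m × K h => mark (q m) x.1) z) z.1.2} c hc hc1
      (fun g hg => hgT m g (fun z hz => hg z hz)) hn (fT C r)
      (by
        rintro u b ⟨i, hi⟩
        apply fT_eq_zero
        refine ⟨i, ?_⟩
        simp only [Set.mem_ofPred_eq, packZ] at hi
        simp only [kapn]
        rcases hu : u i with ⟨x, _ | a, j⟩ <;> simpa [hu, kap] using hi)
    simpa only [tranY_one] using H
  -- sheet inequality
  have HS : ∀ m' : Fin m, A * ∑ u : Fin n → Z (G m) h, ∑ y : Fin n → G m', |fS C r m' u y| ≤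
      ∑ w : Fin n → Step h, ∑ e : Fin n → Bool, ∑ u : Fin n → Z (G m) h, ∑ y : Fin n → G m',
        |fS C r m' u y - fS C r m' (stepn w e u) (tran m' w e u y)| := by
    intro m'
    have H := tensor_pairs (h := h) (n := n) (m := m) (Y := G m') (act (q m')) (act_bar (q m'))
      {z | z.2.1 = none ∧ z.2.2 = Fin.last h ∧ mark (q m) z.1.1 ≠ mark (q m') z.1.2} c hc hc1
      (fun g hg => hgS m m' (ne_of_gt m'.2) g (fun x hx => hg _ ⟨rfl, rfl, hx⟩)) hn (fS C r m')
      (by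
        rintro u y ⟨i, hi1, hi2, hi3⟩
        apply fS_eq_zero C hh'
        refine ⟨i, (u i).1, ?_, hi3⟩
        simp only [packZ] at hi1 hi2
        exact Prod.ext rfl (Prod.ext hi1 hi2))
    simpa only [tranY_act] using H
  -- mass
  have hmass : ∀ u : Fin n → Z (G m) h,
      31 / 32 ≤ ∑ b, |fT C r u b| + ∑ m' : Fin m, ∑ y, |fS C r m' u y| := fun u =>
    mass_le hLip hT hN hm hr1 (by rw [hr']; linarith) u
  have hvar : ∀ (u : Fin n → Z (G m) h) (w : Fin n → Step h) (e : Fin n → Bool),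
      ∑ b, |fT C r u b - fT C r (stepn w e u) b| +
        ∑ m' : Fin m, ∑ y, |fS C r m' u y - fS C r m' (stepn w e u) (tran m' w e u y)| ≤
        5 / 64 := fun u w e =>
    var_le hLip hT hN hm hρ1 hρr hh' (by rw [hr']; linarith) (by rw [hρ']; linarith) u w e
  -- total
  have hU : (0 : ℝ) < Fintype.card (Fin n → Z (G m) h) := by
    have : Nonempty (Fin n → Z (G m) h) := ⟨fun _ => (0, none, 0)⟩
    exact_mod_cast Fintype.card_pos
  have T1 : A * (Fintype.card (Fin n → Z (G m) h) * (31 / 32)) ≤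
      A * ∑ u : Fin n → Z (G m) h, (∑ b, |fT C r u b| + ∑ m' : Fin m, ∑ y, |fS C r m' u y|) := by
    refine mul_le_mul_of_nonneg_left ?_ hApos.le
    rw [← nsmul_eq_mul, ← Finset.card_univ]
    exact Finset.card_nsmul_le_sum _ _ _ fun u _ => hmass u
  have T2 : A * ∑ u : Fin n → Z (G m) h, (∑ b, |fT C r u b| + ∑ m' : Fin m, ∑ y, |fS C r m' u y|) ≤
      ∑ w : Fin n → Step h, ∑ e : Fin n → Bool, ∑ u : Fin n → Z (G m) h,
        (∑ b, |fT C r u b - fT C r (stepn w e u) b| +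
        ∑ m' : Fin m, ∑ y, |fS C r m' u y - fS C r m' (stepn w e u) (tran m' w e u y)|) := by
    simp only [Finset.sum_add_distrib, mul_add]
    refine add_le_add HT ?_
    have e1 : A * ∑ u : Fin n → Z (G m) h, ∑ m' : Fin m, ∑ y, |fS C r m' u y| =
        ∑ m' : Fin m, A * ∑ u : Fin n → Z (G m) h, ∑ y, |fS C r m' u y| := by
      rw [Finset.sum_comm, Finset.mul_sum]
    have e2 : ∑ w : Fin n → Step h, ∑ e : Fin n → Bool, ∑ u : Fin n → Z (G m) h,
        ∑ m' : Fin m, ∑ y, |fS C r m' u y - fS C r m' (stepn w e u) (tran m' w e u y)| =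
        ∑ m' : Fin m, ∑ w : Fin n → Step h, ∑ e : Fin n → Bool, ∑ u : Fin n → Z (G m) h,
          ∑ y, |fS C r m' u y - fS C r m' (stepn w e u) (tran m' w e u y)| := by
      exact sum4_comm fun (w : Fin n → Step h) (e : Fin n → Bool) (u : Fin n → Z (G m) h)
        (m' : Fin m) => ∑ y, |fS C r m' u y - fS C r m' (stepn w e u) (tran m' w e u y)|
    rw [e1, e2]
    exact Finset.sum_le_sum fun m' _ => HS m'
  have T3 : ∑ w : Fin n → Step h, ∑ e : Fin n → Bool, ∑ u : Fin n → Z (G m) h,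
        (∑ b, |fT C r u b - fT C r (stepn w e u) b| +
        ∑ m' : Fin m, ∑ y, |fS C r m' u y - fS C r m' (stepn w e u) (tran m' w e u y)|) ≤
      A * (Fintype.card (Fin n → Z (G m) h) * (5 / 64)) := by
    calc _ ≤ ∑ w : Fin n → Step h, ∑ e : Fin n → Bool, ∑ u : Fin n → Z (G m) h, (5 / 64 : ℝ) :=
          Finset.sum_le_sum fun w _ => Finset.sum_le_sum fun e _ => Finset.sum_le_sum fun u _ =>
            hvar u w e
      _ = A * (Fintype.card (Fin n → Z (G m) h) * (5 / 64)) := by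
        have h1 : ((Fintype.card (Fin n → Step h) : ℕ) : ℝ) = (Fintype.card (Step h) : ℝ) ^ n := by
          rw [Fintype.card_fun, Fintype.card_fin]; push_cast; rfl
        have h2 : ((Fintype.card (Fin n → Bool) : ℕ) : ℝ) = 2 ^ n := by
          rw [Fintype.card_fun, Fintype.card_fin, Fintype.card_bool]; push_cast; rfl
        rw [Finset.sum_const, Finset.sum_const, Finset.sum_const, Finset.card_univ,
          Finset.card_univ, Finset.card_univ]
        simp only [nsmul_eq_mul]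
        rw [h1, h2, hA, mul_pow]
        ring
  have T4 := T1.trans (T2.trans T3)
  have T5 := le_of_mul_le_mul_left T4 hApos
  have T6 := le_of_mul_le_mul_left T5 hU
  norm_num at T6

end Crest.Agent.R115
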