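import Crest.Agent.R115.Sheets

/-!
Core estimate, part A: points, test functions, cut-off functions.
-/

set_option autoImplicit false

namespace Crest.Agent.R115

open Finset

/-- points: terminals (`Sum.inl`) and deep points (`Sum.inr`) -/
abbrev Pts (h n : ℕ) : Type := (Fin n → K h) ⊕ (Σ m : ℕ, (Fin n → Z (G m) h))

/-- coordinatewise type map -/
noncomputable def kapn {h n m : ℕ} (u : Fin n → Z (G m) h) : Fin n → K h :=
  fun i => kap (mark (q m)) (u i)

/-- coordinatewise step -/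
noncomputable def stepn {h n m : ℕ} (w : Fin n → Step h) (e : Fin n → Bool)
    (u : Fin n → Z (G m) h) : Fin n → Z (G m) h :=
  fun i => if e i then stepFun (act (q m)) (w i) (u i) else u i

/-- test functions -/
def TestS (h n r ρ : ℕ) : Set (Pts h n → ℝ) :=
  {g | (∀ p, |g p| ≤ r) ∧
    (∀ (m : ℕ) (u : Fin n → Z (G m) h) (w : Fin n → Step h) (e : Fin n → Bool),
      |g (Sum.inr ⟨m, u⟩) - g (Sum.inr ⟨m, stepn w e u⟩)| ≤ 1) ∧
    (∀ (m : ℕ) (u : Fin n → Z (G m) h),
      |g (Sum.inr ⟨m, u⟩) - g (Sum.inl (kapn u))| ≤ ρ)}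

/-- sup distance on `Fin n → K h` -/
def Del {h n : ℕ} (κ b : Fin n → K h) : ℕ := Finset.univ.sup fun i => del (κ i) (b i)

lemma le_Del {h n : ℕ} (κ b : Fin n → K h) (i : Fin n) : del (κ i) (b i) ≤ Del κ b :=
  Finset.le_sup (f := fun i => del (κ i) (b i)) (Finset.mem_univ i)

lemma Del_le {h n : ℕ} {κ b : Fin n → K h} {d : ℕ} (H : ∀ i, del (κ i) (b i) ≤ d) :
    Del κ b ≤ d := Finset.sup_le fun i _ => H i

lemma Del_self {h n : ℕ} (κ : Fin n → K h) : Del κ κ = 0 :=
  Nat.le_zero.mp (Del_le fun i => (del_self (κ i)).le)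

/-- cut-off function -/
noncomputable def chi (r : ℕ) {h n : ℕ} (κ b : Fin n → K h) : ℝ := ((r - Del κ b : ℕ) : ℝ) / r

lemma chi_nonneg (r : ℕ) {h n : ℕ} (κ b : Fin n → K h) : 0 ≤ chi r κ b := by
  unfold chi; positivity

lemma chi_le_one (r : ℕ) {h n : ℕ} (κ b : Fin n → K h) : chi r κ b ≤ 1 := by
  unfold chi
  apply div_le_one_of_le₀ _ (Nat.cast_nonneg r)
  exact_mod_cast Nat.sub_le _ _

lemma chi_self {r : ℕ} (hr : 1 ≤ r) {h n : ℕ} (κ : Fin n → K h) : chi r κ κ = 1 := by
  unfold chi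
  rw [Del_self]
  have : (r : ℝ) ≠ 0 := by positivity
  simp [this]

lemma chi_eq_zero {r : ℕ} {h n : ℕ} {κ b : Fin n → K h} (i : Fin n)
    (hi : r ≤ del (κ i) (b i)) : chi r κ b = 0 := by
  unfold chi
  have : r - Del κ b = 0 := Nat.sub_eq_zero_of_le (hi.trans (le_Del κ b i))
  simp [this]

lemma del_lt_of_chi_ne {r : ℕ} {h n : ℕ} {κ b : Fin n → K h} (H : chi r κ b ≠ 0) (i : Fin n) :
    del (κ i) (b i) < r := by
  by_contra hc
  exact H (chi_eq_zero i (not_lt.mp hc))

lemma abs_chi_sub_le {r : ℕ} {h n : ℕ} {κ b κ' b' : Fin n → K h}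
    (h1 : Del κ b ≤ Del κ' b' + 1) (h2 : Del κ' b' ≤ Del κ b + 1) :
    |chi r κ b - chi r κ' b'| ≤ 1 / r := by
  unfold chi
  rw [← sub_div, abs_div, Nat.abs_cast]
  gcongr
  rw [abs_le]
  constructor
  · have : (r - Del κ' b' : ℕ) ≤ (r - Del κ b : ℕ) + 1 := by omega
    have : ((r - Del κ' b' : ℕ) : ℝ) ≤ ((r - Del κ b : ℕ) : ℝ) + 1 := by exact_mod_cast this
    linarith
  · have : (r - Del κ b : ℕ) ≤ (r - Del κ' b' : ℕ) + 1 := by omega
    have : ((r - Del κ b : ℕ) : ℝ) ≤ ((r - Del κ' b' : ℕ) : ℝ) + 1 := by exact_mod_cast this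
    linarith

section steps

variable {h n m : ℕ}

lemma stepn_invol (w : Fin n → Step h) (e : Fin n → Bool) (u : Fin n → Z (G m) h) :
    stepn w e (stepn w e u) = u := by
  funext i
  by_cases hi : e i
  · simp [stepn, hi, stepFun_invol _ (act_bar (q m))]
  · simp [stepn, hi]

lemma Del_stepn_right (κ : Fin n → K h) (w : Fin n → Step h) (e : Fin n → Bool)
    (u : Fin n → Z (G m) h) : Del κ (kapn (stepn w e u)) ≤ Del κ (kapn u) + 1 := by
  apply Del_le
  intro i
  have h1 := le_Del κ (kapn u) i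
  by_cases hi : e i
  · have h2 := del_step_right (act (q m)) (mark (q m)) (w i) (u i) (κ i)
    simp only [kapn, stepn, hi, if_true] at *
    omega
  · simp only [kapn, stepn, hi] at *
    simp at *
    omega

lemma Del_stepn_left (w : Fin n → Step h) (e : Fin n → Bool)
    (u : Fin n → Z (G m) h) (b : Fin n → K h) :
    Del (kapn (stepn w e u)) b ≤ Del (kapn u) b + 1 := by
  apply Del_le
  intro i
  have h1 := le_Del (kapn u) b i
  by_cases hi : e i
  · have h2 := del_step_left (act (q m)) (mark (q m)) (w i) (u i) (b i)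
    simp only [kapn, stepn, hi, if_true] at *
    omega
  · simp only [kapn, stepn, hi] at *
    simp at *
    omega

lemma abs_chi_stepn_right (r : ℕ) (κ : Fin n → K h) (w : Fin n → Step h) (e : Fin n → Bool)
    (u : Fin n → Z (G m) h) :
    |chi r κ (kapn u) - chi r κ (kapn (stepn w e u))| ≤ 1 / r := by
  apply abs_chi_sub_le
  · have := Del_stepn_right κ w e (stepn w e u)
    rwa [stepn_invol] at this
  · exact Del_stepn_right κ w e u

lemma abs_chi_stepn_left (r : ℕ) (w : Fin n → Step h) (e : Fin n → Bool)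
    (u : Fin n → Z (G m) h) (b : Fin n → K h) :
    |chi r (kapn u) b - chi r (kapn (stepn w e u)) b| ≤ 1 / r := by
  apply abs_chi_sub_le
  · have := Del_stepn_left w e (stepn w e u) b
    rwa [stepn_invol] at this
  · exact Del_stepn_left w e u b

end steps

/-- coordinatewise names -/
noncomputable def namn {h n m : ℕ} (κ : Fin n → K h) (v : Fin n → Z (G m) h) : Fin n → G m :=
  fun i => nam (act (q m)) (κ i) (v i)

/-- coordinatewise transition of names -/
noncomputable def tran {h n m : ℕ} (m' : ℕ) (w : Fin n → Step h) (e : Fin n → Bool)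
    (u : Fin n → Z (G m) h) : Equiv.Perm (Fin n → G m') :=
  Equiv.piCongrRight fun i => if e i then tra (act (q m')) (w i) (u i) else 1

lemma namn_stepn {h n m : ℕ} {r : ℕ} (hr : 2 * r + 2 ≤ h) (κ : Fin n → K h)
    (w : Fin n → Step h) (e : Fin n → Bool) (v : Fin n → Z (G m) h)
    (hv : chi r κ (kapn v) ≠ 0) : namn κ (stepn w e v) = namn κ v := by
  funext i
  have h1 := del_lt_of_chi_ne hv i
  by_cases hi : e i
  · simp only [namn, stepn, hi, if_true]
    exact nam_step r hr _ (act_bar (q m)) (mark (q m)) (κ i) (w i) (v i) h1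
  · simp [namn, stepn, hi]

lemma namn_stepn' {h n m : ℕ} {r : ℕ} (hr : 2 * r + 2 ≤ h) (κ : Fin n → K h)
    (w : Fin n → Step h) (e : Fin n → Bool) (v : Fin n → Z (G m) h)
    (hv : chi r κ (kapn v) ≠ 0 ∨ chi r κ (kapn (stepn w e v)) ≠ 0) :
    namn κ (stepn w e v) = namn κ v := by
  rcases hv with hv | hv
  · exact namn_stepn hr κ w e v hv
  · have := namn_stepn hr κ w e (stepn w e v) hv
    rw [stepn_invol] at this
    exact this.symm

lemma namn_track {h n m m' : ℕ} {r : ℕ} (hr : 2 * r + 2 ≤ h)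
    (w : Fin n → Step h) (e : Fin n → Bool) (u : Fin n → Z (G m) h) (v : Fin n → Z (G m') h)
    (hv : chi r (kapn u) (kapn v) ≠ 0 ∨ chi r (kapn (stepn w e u)) (kapn v) ≠ 0) :
    namn (kapn (stepn w e u)) v = tran m' w e u (namn (kapn u) v) := by
  funext i
  by_cases hi : e i
  · simp only [namn, tran, stepn, kapn, hi, if_true, Equiv.piCongrRight_apply, Pi.map_apply]
    apply nam_track r hr _ _ _ (act_bar (q m')) (mark (q m'))
    rcases hv with hv | hv
    · left; exact del_lt_of_chi_ne hv i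
    · right
      have := del_lt_of_chi_ne hv i
      simpa only [kapn, stepn, hi, if_true] using this
  · simp [namn, tran, stepn, kapn, hi]

end Crest.Agent.R115
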