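import Crest.Agent.R115.CoreA

/-!
Core estimate, part B: test functions, pairing, mass and variation.
-/

set_option autoImplicit false

namespace Crest.Agent.R115

open Finset

section theta

variable {h n : ℕ}

/-- The test function with signs `θT` on terminals, `θS` on sheets, centred at `κ`. -/
noncomputable def Theta (r : ℕ) (κ : Fin n → K h) (θT : (Fin n → K h) → ℝ)
    (θS : ∀ m' : ℕ, (Fin n → G m') → ℝ) : Pts h n → ℝ
  | Sum.inl b => θT b * chi r κ b
  | Sum.inr ⟨m', v⟩ => θS m' (namn κ v) * chi r κ (kapn v)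

/-- type of a point -/
noncomputable def kn : Pts h n → (Fin n → K h)
  | Sum.inl b => b
  | Sum.inr ⟨_, v⟩ => kapn v

lemma small_mem_TestS {r ρ : ℕ} (hr : 1 ≤ r) (hρ : 1 ≤ ρ) (g : Pts h n → ℝ)
    (hg : ∀ p, |g p| ≤ 1 / 2) : g ∈ TestS h n r ρ := by
  have hr' : (1 : ℝ) ≤ r := by exact_mod_cast hr
  have hρ' : (1 : ℝ) ≤ ρ := by exact_mod_cast hρ
  have h2 : ∀ p p', |g p - g p'| ≤ 1 := by
    intro p p'
    have h1 := abs_le.mp (hg p)
    have h2 := abs_le.mp (hg p')
    rw [abs_le]; constructor <;> linarith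
  refine ⟨fun p => (hg p).trans (by linarith), fun m u w e => h2 _ _, fun m u => (h2 _ _).trans hρ'⟩

lemma mass_mem_TestS {r ρ : ℕ} (hr : 1 ≤ r) (κ : Fin n → K h) :
    (fun p => (r : ℝ) * chi r κ (kn p)) ∈ TestS h n r ρ := by
  have hr' : (0 : ℝ) < r := by exact_mod_cast hr
  refine ⟨fun p => ?_, fun m u w e => ?_, fun m u => ?_⟩
  · rw [abs_of_nonneg (by have := chi_nonneg r κ (kn p); positivity)]
    have := chi_le_one r κ (kn p)
    nlinarith
  · simp only [kn]
    rw [← mul_sub, abs_mul, abs_of_pos hr']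
    have := abs_chi_stepn_right r κ w e u
    calc (r : ℝ) * |chi r κ (kapn u) - chi r κ (kapn (stepn w e u))|
        ≤ r * (1 / r) := by gcongr
      _ = 1 := by field_simp
  · simp [kn]

lemma Theta_mem_TestS {r ρ : ℕ} (hr : 1 ≤ r) (hρr : ρ ≤ r) (hh : 2 * r + 2 ≤ h)
    (κ : Fin n → K h) (θT : (Fin n → K h) → ℝ) (θS : ∀ m' : ℕ, (Fin n → G m') → ℝ)
    (hT : ∀ b, |θT b| ≤ 1) (hS : ∀ m' y, |θS m' y| ≤ 1) :
    (fun p => (ρ : ℝ) / 2 * Theta r κ θT θS p) ∈ TestS h n r ρ := by
  have hr' : (0 : ℝ) < r := by exact_mod_cast hr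
  have hρr' : (ρ : ℝ) ≤ r := by exact_mod_cast hρr
  have hρ0 : (0 : ℝ) ≤ ρ := Nat.cast_nonneg ρ
  have key : ∀ p, |Theta r κ θT θS p| ≤ 1 := by
    intro p
    rcases p with b | ⟨m', v⟩
    · simp only [Theta]
      rw [abs_mul, abs_of_nonneg (chi_nonneg _ _ _)]
      have h1 := hT b
      have h2 := chi_le_one r κ b
      have h3 := chi_nonneg r κ b
      have h4 := abs_nonneg (θT b)
      nlinarith
    · simp only [Theta]
      rw [abs_mul, abs_of_nonneg (chi_nonneg _ _ _)]
      have h1 := hS m' (namn κ v)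
      have h2 := chi_le_one r κ (kapn v)
      have h3 := chi_nonneg r κ (kapn v)
      have h4 := abs_nonneg (θS m' (namn κ v))
      nlinarith
  refine ⟨fun p => ?_, fun m u w e => ?_, fun m u => ?_⟩
  · rw [abs_mul, abs_of_nonneg (by positivity : (0 : ℝ) ≤ ρ / 2)]
    have := key p
    have h0 := abs_nonneg (Theta r κ θT θS p)
    nlinarith
  · rw [← mul_sub, abs_mul, abs_of_nonneg (by positivity : (0 : ℝ) ≤ ρ / 2)]
    have h1 : |Theta r κ θT θS (Sum.inr ⟨m, u⟩) - Theta r κ θT θS (Sum.inr ⟨m, stepn w e u⟩)|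
        ≤ 1 / r := by
      by_cases hz : chi r κ (kapn u) ≠ 0 ∨ chi r κ (kapn (stepn w e u)) ≠ 0
      · have hn := namn_stepn' hh κ w e u hz
        simp only [Theta]
        rw [hn, ← mul_sub, abs_mul]
        have h2 := abs_chi_stepn_right r κ w e u
        have h3 := hS m (namn κ u)
        calc |θS m (namn κ u)| * |chi r κ (kapn u) - chi r κ (kapn (stepn w e u))|
            ≤ 1 * (1 / r) := by gcongr
          _ = 1 / r := one_mul _
      · push Not at hz
        simp only [Theta, hz.1, hz.2]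
        simp
    calc (ρ : ℝ) / 2 * _ ≤ ρ / 2 * (1 / r) := by gcongr
      _ ≤ 1 := by
        rw [mul_one_div, div_div, div_le_one (by positivity)]
        linarith
  · rw [← mul_sub, abs_mul, abs_of_nonneg (by positivity : (0 : ℝ) ≤ ρ / 2)]
    have h1 := key (Sum.inr ⟨m, u⟩)
    have h2 := key (Sum.inl (kapn u))
    have h3 : |Theta r κ θT θS (Sum.inr ⟨m, u⟩) - Theta r κ θT θS (Sum.inl (kapn u))| ≤ 2 := by
      rw [abs_le] at *
      constructor <;> linarith [h1.1, h1.2, h2.1, h2.2]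
    calc (ρ : ℝ) / 2 * _ ≤ ρ / 2 * 2 := by gcongr
      _ = ρ := by ring

/-- difference of two test functions with adjacent centres -/
lemma Theta_sub {r : ℕ} (hr : 1 ≤ r) (hh : 2 * r + 2 ≤ h) {m : ℕ} (u : Fin n → Z (G m) h)
    (w : Fin n → Step h) (e : Fin n → Bool) (θT : (Fin n → K h) → ℝ)
    (θS : ∀ m' : ℕ, (Fin n → G m') → ℝ)
    (hT : ∀ b, |θT b| ≤ 1) (hS : ∀ m' y, |θS m' y| ≤ 1) (p : Pts h n) :
    |Theta r (kapn u) θT θS p -
      Theta r (kapn (stepn w e u)) θT (fun m' y => θS m' ((tran m' w e u).symm y)) p| ≤ 1 / r := by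
  rcases p with b | ⟨m', v⟩
  · simp only [Theta]
    rw [← mul_sub, abs_mul]
    have h2 := abs_chi_stepn_left r w e u b
    calc |θT b| * |chi r (kapn u) b - chi r (kapn (stepn w e u)) b|
        ≤ 1 * (1 / r) := by gcongr; exact hT b
      _ = 1 / r := one_mul _
  · simp only [Theta]
    by_cases hz : chi r (kapn u) (kapn v) ≠ 0 ∨ chi r (kapn (stepn w e u)) (kapn v) ≠ 0
    · have hn := namn_track hh w e u v hz
      rw [hn, Equiv.symm_apply_apply, ← mul_sub, abs_mul]
      have h2 := abs_chi_stepn_left r w e u (kapn v)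
      calc |θS m' (namn (kapn u) v)| *
            |chi r (kapn u) (kapn v) - chi r (kapn (stepn w e u)) (kapn v)|
          ≤ 1 * (1 / r) := by gcongr; exact hS _ _
        _ = 1 / r := one_mul _
    · push Not at hz
      simp [hz.1, hz.2]

end theta

section pairing

variable {h n : ℕ}

/-- pairing of the coefficients at `u` with a function -/
def prg (N : Finset (Pts h n)) (C : Pts h n → Pts h n → ℝ) (u : Pts h n) (g : Pts h n → ℝ) : ℝ :=
  ∑ p ∈ N, C u p * g p

lemma prg_split (N : Finset (Pts h n)) (C : Pts h n → Pts h n → ℝ)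
    (hN : ∀ u p, p ∉ N → C u p = 0) (m : ℕ)
    (hm : ∀ m' v, (Sum.inr ⟨m', v⟩ : Pts h n) ∈ N → m' < m) (u : Pts h n) (g : Pts h n → ℝ) :
    prg N C u g = ∑ b, C u (Sum.inl b) * g (Sum.inl b) +
      ∑ m' : Fin m, ∑ v : Fin n → Z (G m') h,
        C u (Sum.inr ⟨m', v⟩) * g (Sum.inr ⟨m', v⟩) := by
  classical
  let T := (Fin n → K h) ⊕ (Σ m' : Fin m, (Fin n → Z (G m') h))
  let ι : T → Pts h n := fun t => match t with
    | Sum.inl b => Sum.inl b
    | Sum.inr ⟨m', v⟩ => Sum.inr ⟨m', v⟩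
  have hι : Function.Injective ι := by
    intro a b hab
    rcases a with a | ⟨a, a'⟩ <;> rcases b with b | ⟨b, b'⟩
    · simp only [ι, Sum.inl.injEq] at hab
      rw [hab]
    · simp [ι] at hab
    · simp [ι] at hab
    · simp only [ι, Sum.inr.injEq, Sigma.mk.injEq] at hab
      obtain ⟨h1, h2⟩ := hab
      have h3 : a = b := Fin.ext h1
      subst h3
      have h4 : a' = b' := by simpa using h2
      rw [h4]
  have h1 : prg N C u g = ∑ t : T, C u (ι t) * g (ι t) := by
    unfold prg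
    rw [← Finset.sum_image (s := Finset.univ) (g := ι) (f := fun p => C u p * g p)
      (fun a _ b _ hab => hι hab)]
    apply Finset.sum_subset
    · intro p hp
      rw [Finset.mem_image]
      rcases p with b | ⟨m', v⟩
      · exact ⟨Sum.inl b, Finset.mem_univ _, rfl⟩
      · exact ⟨Sum.inr ⟨⟨m', hm m' v hp⟩, v⟩, Finset.mem_univ _, rfl⟩
    · intro p _ hp
      rw [hN u p hp, zero_mul]
  rw [h1, Fintype.sum_sum_type, Fintype.sum_sigma]

end pairing

end Crest.Agent.R115
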