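import Mathlib

/-!
Task T5: tensorization of the one-coordinate gap. Self-contained.
-/

set_option autoImplicit false

namespace Crest.Agent.R115

open Finset

namespace TensorAux

lemma sum_cons {n : ℕ} {α : Type} [Fintype α] (f : (Fin (n + 1) → α) → ℝ) :
    ∑ p, f p = ∑ a : α, ∑ q : Fin n → α, f (Fin.cons a q) := by
  rw [← Fintype.sum_prod_type' (f := fun (a : α) (q : Fin n → α) => f (Fin.cons a q))]
  exact (Fintype.sum_equiv (Fin.consEquiv (fun _ : Fin (n + 1) => α)) _ _ (fun x => rfl)).symm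

/-- the moved point -/
def mv {P Ω : Type} (σ : Ω → Equiv.Perm P) {n : ℕ} (w : Fin n → Ω) (e : Fin n → Bool)
    (p : Fin n → P) : Fin n → P := fun i => if e i then σ (w i) (p i) else p i

lemma mv_cons {P Ω : Type} (σ : Ω → Equiv.Perm P) {n : ℕ} (w0 : Ω) (w : Fin n → Ω) (e0 : Bool)
    (e : Fin n → Bool) (p0 : P) (p : Fin n → P) :
    mv σ (Fin.cons w0 w : Fin (n + 1) → Ω) (Fin.cons e0 e : Fin (n + 1) → Bool)
      (Fin.cons p0 p : Fin (n + 1) → P)
      = Fin.cons (if e0 then σ w0 p0 else p0) (mv σ w e p) := by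
  funext i
  refine Fin.cases ?_ (fun j => ?_) i
  · simp [mv]
  · simp [mv]

lemma one_coord {P Ω : Type} [Fintype P] [Fintype Ω] [Nonempty Ω]
    (σ : Ω → Equiv.Perm P) (D : Set P) (c : ℝ)
    (hgap : ∀ g : P → ℝ, (∀ p ∈ D, g p = 0) →
      c * ∑ p, g p ^ 2 ≤ ∑ w, ∑ p, (g p - g (σ w p)) ^ 2)
    (g : P → ℝ) (hg : ∀ p ∈ D, g p = 0) :
    ∑ w, ∑ p, (g p + g (σ w p)) ^ 2 ≤
      (4 * (Fintype.card Ω : ℝ) * (1 - c / (4 * Fintype.card Ω))) * ∑ p, g p ^ 2 := by
  have hΩ : (0 : ℝ) < Fintype.card Ω := by exact_mod_cast Fintype.card_pos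
  have h1 : ∀ w : Ω, ∑ p, g (σ w p) ^ 2 = ∑ p, g p ^ 2 := fun w =>
    Equiv.sum_comp (σ w) (fun p => g p ^ 2)
  have h2 : ∑ w : Ω, ∑ p, (g p + g (σ w p)) ^ 2
      = ∑ w : Ω, (4 * ∑ p, g p ^ 2) - ∑ w, ∑ p, (g p - g (σ w p)) ^ 2 := by
    rw [← Finset.sum_sub_distrib]
    refine Finset.sum_congr rfl (fun w _ => ?_)
    have : ∑ p, (g p + g (σ w p)) ^ 2 + ∑ p, (g p - g (σ w p)) ^ 2
        = 2 * ∑ p, g p ^ 2 + 2 * ∑ p, g (σ w p) ^ 2 := by
      rw [← Finset.sum_add_distrib, Finset.mul_sum, Finset.mul_sum, ← Finset.sum_add_distrib]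
      refine Finset.sum_congr rfl (fun p _ => by ring)
    rw [h1 w] at this
    linarith
  rw [h2]
  have h3 := hgap g hg
  have h4 : ∑ w : Ω, (4 * ∑ p, g p ^ 2) = 4 * (Fintype.card Ω : ℝ) * ∑ p, g p ^ 2 := by
    rw [Finset.sum_const, Finset.card_univ, nsmul_eq_mul]; ring
  rw [h4]
  have h5 : 4 * (Fintype.card Ω : ℝ) * (1 - c / (4 * Fintype.card Ω)) * ∑ p, g p ^ 2
      = 4 * (Fintype.card Ω : ℝ) * ∑ p, g p ^ 2 - c * ∑ p, g p ^ 2 := by
    field_simp
  rw [h5]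
  linarith

lemma main_bound {P Ω : Type} [Fintype P] [Fintype Ω] [Nonempty Ω]
    (σ : Ω → Equiv.Perm P) (D : Set P) (c : ℝ) (hc1 : c ≤ 1)
    (hgap : ∀ g : P → ℝ, (∀ p ∈ D, g p = 0) →
      c * ∑ p, g p ^ 2 ≤ ∑ w, ∑ p, (g p - g (σ w p)) ^ 2)
    (n : ℕ) (g : (Fin n → P) → ℝ) (hD : ∀ p : Fin n → P, (∃ i, p i ∈ D) → g p = 0) :
    ∑ w : Fin n → Ω, ∑ p : Fin n → P, (∑ e : Fin n → Bool, g (mv σ w e p)) ^ 2 ≤
      (4 * (Fintype.card Ω : ℝ) * (1 - c / (4 * Fintype.card Ω))) ^ n * ∑ p, g p ^ 2 := by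
  have hΩ : (1 : ℝ) ≤ Fintype.card Ω := by exact_mod_cast Fintype.card_pos
  have ha : 0 ≤ 4 * (Fintype.card Ω : ℝ) * (1 - c / (4 * Fintype.card Ω)) := by
    have : c / (4 * (Fintype.card Ω : ℝ)) ≤ 1 := by
      rw [div_le_one (by positivity)]; linarith
    have h1 : 0 ≤ 1 - c / (4 * (Fintype.card Ω : ℝ)) := by linarith
    positivity
  induction n with
  | zero =>
    simp only [pow_zero, one_mul]
    have : ∀ (w : Fin 0 → Ω) (p : Fin 0 → P) (e : Fin 0 → Bool), mv σ w e p = p := by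
      intro w p e; exact Subsingleton.elim _ _
    simp [this]
  | succ n ih =>
    rw [sum_cons (fun w => ∑ p : Fin (n + 1) → P, (∑ e : Fin (n + 1) → Bool, g (mv σ w e p)) ^ 2)]
    simp only [sum_cons (fun p => (∑ e : Fin (n + 1) → Bool, g (mv σ _ e p)) ^ 2)]
    rw [sum_cons (fun p => g p ^ 2)]
    -- rewrite the inner sum
    have key : ∀ (w0 : Ω) (w : Fin n → Ω) (p0 : P) (q : Fin n → P),
        ∑ e : Fin (n + 1) → Bool, g (mv σ (Fin.cons w0 w : Fin (n + 1) → Ω) e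
          (Fin.cons p0 q : Fin (n + 1) → P))
        = ∑ f : Fin n → Bool, g (Fin.cons p0 (mv σ w f q))
          + ∑ f : Fin n → Bool, g (Fin.cons (σ w0 p0) (mv σ w f q)) := by
      intro w0 w p0 q
      rw [sum_cons (fun e => g (mv σ (Fin.cons w0 w : Fin (n + 1) → Ω) e
          (Fin.cons p0 q : Fin (n + 1) → P)))]
      rw [Fintype.sum_bool]
      simp only [mv_cons]
      simp [add_comm]
    simp only [key]
    -- reorder
    have step1 : ∑ w0 : Ω, ∑ w : Fin n → Ω, ∑ p0 : P, ∑ q : Fin n → P,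
        (∑ f : Fin n → Bool, g (Fin.cons p0 (mv σ w f q))
          + ∑ f : Fin n → Bool, g (Fin.cons (σ w0 p0) (mv σ w f q))) ^ 2
        = ∑ w : Fin n → Ω, ∑ q : Fin n → P, ∑ w0 : Ω, ∑ p0 : P,
        (∑ f : Fin n → Bool, g (Fin.cons p0 (mv σ w f q))
          + ∑ f : Fin n → Bool, g (Fin.cons (σ w0 p0) (mv σ w f q))) ^ 2 := by
      rw [Finset.sum_comm]
      refine Finset.sum_congr rfl (fun w _ => ?_)
      symm
      rw [Finset.sum_comm]
      refine Finset.sum_congr rfl (fun w0 _ => ?_)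
      rw [Finset.sum_comm]
    rw [step1]
    set A : ℝ := 4 * (Fintype.card Ω : ℝ) * (1 - c / (4 * Fintype.card Ω)) with hA
    have step2 : ∀ (w : Fin n → Ω) (q : Fin n → P), ∑ w0 : Ω, ∑ p0 : P,
        (∑ f : Fin n → Bool, g (Fin.cons p0 (mv σ w f q))
          + ∑ f : Fin n → Bool, g (Fin.cons (σ w0 p0) (mv σ w f q))) ^ 2
        ≤ A * ∑ p0 : P, (∑ f : Fin n → Bool, g (Fin.cons p0 (mv σ w f q))) ^ 2 := by
      intro w q
      refine one_coord σ D c hgap (fun p0 => ∑ f : Fin n → Bool, g (Fin.cons p0 (mv σ w f q))) ?_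
      intro p hp
      refine Finset.sum_eq_zero (fun f _ => hD _ ⟨0, ?_⟩)
      simpa using hp
    have step3 : ∀ p0 : P, ∑ w : Fin n → Ω, ∑ q : Fin n → P,
        (∑ f : Fin n → Bool, g (Fin.cons p0 (mv σ w f q))) ^ 2
        ≤ A ^ n * ∑ q : Fin n → P, g (Fin.cons p0 q) ^ 2 := by
      intro p0
      refine ih (fun q => g (Fin.cons p0 q)) ?_
      rintro p ⟨i, hi⟩
      exact hD _ ⟨i.succ, by simpa using hi⟩
    calc ∑ w : Fin n → Ω, ∑ q : Fin n → P, ∑ w0 : Ω, ∑ p0 : P,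
        (∑ f : Fin n → Bool, g (Fin.cons p0 (mv σ w f q))
          + ∑ f : Fin n → Bool, g (Fin.cons (σ w0 p0) (mv σ w f q))) ^ 2
        ≤ ∑ w : Fin n → Ω, ∑ q : Fin n → P,
          A * ∑ p0 : P, (∑ f : Fin n → Bool, g (Fin.cons p0 (mv σ w f q))) ^ 2 :=
          Finset.sum_le_sum (fun w _ => Finset.sum_le_sum (fun q _ => step2 w q))
      _ = A * ∑ p0 : P, ∑ w : Fin n → Ω, ∑ q : Fin n → P,
          (∑ f : Fin n → Bool, g (Fin.cons p0 (mv σ w f q))) ^ 2 := by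
          rw [Finset.sum_comm (s := (Finset.univ : Finset P)), Finset.mul_sum]
          refine Finset.sum_congr rfl (fun w _ => ?_)
          rw [Finset.sum_comm (s := (Finset.univ : Finset P)), Finset.mul_sum]
      _ ≤ A * ∑ p0 : P, A ^ n * ∑ q : Fin n → P, g (Fin.cons p0 q) ^ 2 :=
          mul_le_mul_of_nonneg_left (Finset.sum_le_sum (fun p0 _ => step3 p0)) ha
      _ = A ^ (n + 1) * ∑ p0 : P, ∑ q : Fin n → P, g (Fin.cons p0 q) ^ 2 := by
          rw [← Finset.mul_sum, pow_succ]; ring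

lemma mv_inj {P Ω : Type} (σ : Ω → Equiv.Perm P) {n : ℕ} (w : Fin n → Ω) (e : Fin n → Bool) :
    Function.Injective (mv σ w e) := by
  intro p q h
  funext i
  have := congrFun h i
  simp only [mv] at this
  by_cases he : e i
  · simpa [he] using this
  · simpa [he] using this

lemma sum_mv {P Ω : Type} [Fintype P] (σ : Ω → Equiv.Perm P) {n : ℕ} (w : Fin n → Ω)
    (e : Fin n → Bool) (f : (Fin n → P) → ℝ) : ∑ p, f (mv σ w e p) = ∑ p, f p := by
  classical
  exact Fintype.sum_bijective (mv σ w e)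
    (Finite.injective_iff_bijective.mp (mv_inj σ w e)) _ _ (fun _ => rfl)

end TensorAux

theorem tensor {P Ω : Type} [Fintype P] [Fintype Ω] [Nonempty Ω]
    (σ : Ω → Equiv.Perm P) (D : Set P) (c : ℝ) (hc : 0 < c) (hc1 : c ≤ 1)
    (hgap : ∀ g : P → ℝ, (∀ p ∈ D, g p = 0) →
      c * ∑ p, g p ^ 2 ≤ ∑ w, ∑ p, (g p - g (σ w p)) ^ 2)
    (n : ℕ) (hn : (1 - c / (4 * Fintype.card Ω)) ^ n ≤ 1 / 4)
    (F : (Fin n → P) → ℝ) (hF : ∀ p, 0 ≤ F p) (hD : ∀ p : Fin n → P, (∃ i, p i ∈ D) → F p = 0) :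
    (2 * (Fintype.card Ω : ℝ)) ^ n * ∑ p, F p ≤
      ∑ w : Fin n → Ω, ∑ e : Fin n → Bool, ∑ p,
        |F p - F (fun i => if e i then σ (w i) (p i) else p i)| := by
  classical
  set g : (Fin n → P) → ℝ := fun p => Real.sqrt (F p) with hg
  have hgsq : ∀ p, g p ^ 2 = F p := fun p => Real.sq_sqrt (hF p)
  have hg0 : ∀ p, 0 ≤ g p := fun p => Real.sqrt_nonneg _
  have hgD : ∀ p : Fin n → P, (∃ i, p i ∈ D) → g p = 0 := by
    intro p hp; simp [hg, hD p hp]
  have hΩ : (1 : ℝ) ≤ Fintype.card Ω := by exact_mod_cast Fintype.card_pos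
  set m : ℝ := (Fintype.card Ω : ℝ) with hm
  set a : ℝ := 1 - c / (4 * m) with ha
  have ha0 : 0 ≤ a := by
    have : c / (4 * m) ≤ 1 := by
      rw [div_le_one (by positivity)]; linarith
    rw [ha]; linarith
  have hmain := TensorAux.main_bound σ D c hc1 hgap n g hgD
  rw [← hm, ← ha] at hmain
  set S : ℝ := ∑ p, g p ^ 2 with hS
  have hS0 : 0 ≤ S := Finset.sum_nonneg (fun p _ => sq_nonneg _)
  have hSF : ∑ p, F p = S := by rw [hS]; exact Finset.sum_congr rfl (fun p _ => (hgsq p).symm)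
  -- cross term
  set X : ℝ := ∑ w : Fin n → Ω, ∑ p : Fin n → P, g p * ∑ e : Fin n → Bool, g (TensorAux.mv σ w e p)
    with hX
  have hcardΩ : ((Fintype.card (Fin n → Ω) : ℕ) : ℝ) = m ^ n := by
    rw [Fintype.card_fun, Fintype.card_fin]; push_cast; rw [hm]
  have hcardB : ((Fintype.card (Fin n → Bool) : ℕ) : ℝ) = 2 ^ n := by
    rw [Fintype.card_fun, Fintype.card_fin, Fintype.card_bool]; push_cast; rfl
  have hXle : X ≤ (2 * m) ^ n / 2 * S := by
    -- for t > 0: g * T ≤ t/2 g^2 + T^2/(2t), with t = 2^n / 2... 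
    have hT : ∀ (w : Fin n → Ω) (p : Fin n → P),
        g p * ∑ e : Fin n → Bool, g (TensorAux.mv σ w e p) ≤
          (2 ^ n / 4) * g p ^ 2 + (1 / 2 ^ n) * (∑ e : Fin n → Bool, g (TensorAux.mv σ w e p)) ^ 2 := by
      intro w p
      set T := ∑ e : Fin n → Bool, g (TensorAux.mv σ w e p)
      have h2 : (0 : ℝ) < 2 ^ n := by positivity
      have : 0 ≤ (1 / 2 ^ n) * ((2 ^ n / 2) * g p - T) ^ 2 := by positivity
      have h3 : (1 / 2 ^ n) * ((2 ^ n / 2) * g p - T) ^ 2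
          = (2 ^ n / 4) * g p ^ 2 + (1 / 2 ^ n) * T ^ 2 - g p * T := by
        field_simp
        ring
      linarith
    calc X ≤ ∑ w : Fin n → Ω, ∑ p : Fin n → P, ((2 ^ n / 4) * g p ^ 2 +
          (1 / 2 ^ n) * (∑ e : Fin n → Bool, g (TensorAux.mv σ w e p)) ^ 2) :=
          Finset.sum_le_sum (fun w _ => Finset.sum_le_sum (fun p _ => hT w p))
      _ = m ^ n * ((2 ^ n / 4) * S) + (1 / 2 ^ n) *
          ∑ w : Fin n → Ω, ∑ p : Fin n → P, (∑ e : Fin n → Bool, g (TensorAux.mv σ w e p)) ^ 2 := by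
          simp only [Finset.sum_add_distrib, ← Finset.mul_sum]
          rw [← hS, Finset.sum_const, Finset.card_univ, nsmul_eq_mul, hcardΩ]
          ring
      _ ≤ m ^ n * ((2 ^ n / 4) * S) + (1 / 2 ^ n) * ((4 * m * a) ^ n * S) := by
          have : (0 : ℝ) ≤ 1 / 2 ^ n := by positivity
          have := mul_le_mul_of_nonneg_left hmain this
          linarith
      _ = (2 * m) ^ n / 4 * S + (2 * m) ^ n * a ^ n * S := by
          have h4 : (4 * m * a) ^ n = (2 : ℝ) ^ n * ((2 * m) ^ n * a ^ n) := by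
            rw [← mul_pow, ← mul_pow]; congr 1; ring
          have h5 : (2 * m) ^ n = 2 ^ n * m ^ n := mul_pow _ _ _
          have h2 : (2 : ℝ) ^ n ≠ 0 := by positivity
          rw [h4, h5]
          field_simp
      _ ≤ (2 * m) ^ n / 4 * S + (2 * m) ^ n * (1 / 4) * S := by
          have : (2 * m) ^ n * a ^ n ≤ (2 * m) ^ n * (1 / 4) :=
            mul_le_mul_of_nonneg_left hn (by positivity)
          have := mul_le_mul_of_nonneg_right this hS0
          linarith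
      _ = (2 * m) ^ n / 2 * S := by ring
  have hlow : ∑ w : Fin n → Ω, ∑ e : Fin n → Bool, ∑ p,
        |F p - F (TensorAux.mv σ w e p)| ≥ 2 * (2 * m) ^ n * S - 2 * X := by
    have hpt : ∀ (w : Fin n → Ω) (e : Fin n → Bool), ∑ p, |F p - F (TensorAux.mv σ w e p)| ≥
        2 * S - 2 * ∑ p, g p * g (TensorAux.mv σ w e p) := by
      intro w e
      have h1 : ∀ p, |F p - F (TensorAux.mv σ w e p)| ≥
          g p ^ 2 + g (TensorAux.mv σ w e p) ^ 2 - 2 * (g p * g (TensorAux.mv σ w e p)) := by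
        intro p
        rw [← hgsq p, ← hgsq (TensorAux.mv σ w e p)]
        set x := g p
        set y := g (TensorAux.mv σ w e p)
        have hx : 0 ≤ x := hg0 _
        have hy : 0 ≤ y := hg0 _
        rw [sq_sub_sq, abs_mul, abs_of_nonneg (by positivity : 0 ≤ x + y)]
        have : |x - y| ≤ x + y := by
          rw [abs_le]; constructor <;> linarith
        have h2 : |x - y| * |x - y| = (x - y) ^ 2 := by rw [abs_mul_abs_self]; ring
        nlinarith [abs_nonneg (x - y)]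
      calc ∑ p, |F p - F (TensorAux.mv σ w e p)| ≥ ∑ p, (g p ^ 2 + g (TensorAux.mv σ w e p) ^ 2
            - 2 * (g p * g (TensorAux.mv σ w e p))) := Finset.sum_le_sum (fun p _ => h1 p)
        _ = 2 * S - 2 * ∑ p, g p * g (TensorAux.mv σ w e p) := by
            rw [Finset.sum_sub_distrib, Finset.sum_add_distrib,
              TensorAux.sum_mv σ w e (fun p => g p ^ 2), ← hS, ← Finset.mul_sum]
            ring
    calc ∑ w : Fin n → Ω, ∑ e : Fin n → Bool, ∑ p, |F p - F (TensorAux.mv σ w e p)|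
        ≥ ∑ w : Fin n → Ω, ∑ e : Fin n → Bool,
          (2 * S - 2 * ∑ p, g p * g (TensorAux.mv σ w e p)) :=
          Finset.sum_le_sum (fun w _ => Finset.sum_le_sum (fun e _ => hpt w e))
      _ = 2 * (2 * m) ^ n * S - 2 * X := by
          simp only [Finset.sum_sub_distrib, ← Finset.mul_sum, Finset.sum_const, Finset.card_univ,
            nsmul_eq_mul, hcardΩ, hcardB]
          have : ∑ w : Fin n → Ω, ∑ e : Fin n → Bool, ∑ p, g p * g (TensorAux.mv σ w e p) = X := by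
            rw [hX]
            refine Finset.sum_congr rfl (fun w _ => ?_)
            rw [Finset.sum_comm]
            refine Finset.sum_congr rfl (fun p _ => ?_)
            rw [Finset.mul_sum]
          rw [this, mul_pow]
          ring
  rw [hSF]
  have hfin : ∑ w : Fin n → Ω, ∑ e : Fin n → Bool, ∑ p,
        |F p - F (fun i => if e i then σ (w i) (p i) else p i)|
      = ∑ w : Fin n → Ω, ∑ e : Fin n → Bool, ∑ p, |F p - F (TensorAux.mv σ w e p)| := rfl
  rw [hfin]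
  nlinarith

end Crest.Agent.R115
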