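import Crest.Agent.R115.CoreB
import Crest.Agent.R115.Tensor

/-!
Core estimate, part C: tensorised Poincaré inequality for pairs (point, name).
-/

set_option autoImplicit false

namespace Crest.Agent.R115

open Finset

section reindex

variable {h n m : ℕ} {Y : Type}

/-- pack a point and a name into a point of the pair graph -/
def packZ (z : Z (G m) h) (y : Y) : Z (G m × Y) h := ((z.1, y), z.2)

/-- coordinatewise packing as an equivalence -/
def packE (h n m : ℕ) (Y : Type) :
    (Fin n → Z (G m) h) × (Fin n → Y) ≃ (Fin n → Z (G m × Y) h) where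
  toFun p i := packZ (p.1 i) (p.2 i)
  invFun p := (fun i => ((p i).1.1, (p i).2), fun i => (p i).1.2)
  left_inv := fun _ => rfl
  right_inv := fun _ => rfl

/-- coordinatewise transition on an arbitrary `Y` -/
def tranY (β : Arm → Equiv.Perm Y) (w : Fin n → Step h) (e : Fin n → Bool)
    (u : Fin n → Z (G m) h) (y : Fin n → Y) : Fin n → Y :=
  fun i => if e i then tra β (w i) (u i) (y i) else y i

theorem tensor_pairs [Fintype Y] (β : Arm → Equiv.Perm Y) (hβ : ∀ a, β (bar a) = (β a)⁻¹)
    (D : Set (Z (G m × Y) h)) (c : ℝ) (hc : 0 < c) (hc1 : c ≤ 1)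
    (hgap : ∀ g : Z (G m × Y) h → ℝ, (∀ p ∈ D, g p = 0) →
      c * ∑ p, g p ^ 2 ≤
        ∑ w : Step h, ∑ p, (g p - g (stepFun (prodAct (act (q m)) β) w p)) ^ 2)
    (hn : (1 - c / (4 * Fintype.card (Step h))) ^ n ≤ 1 / 4)
    (f : (Fin n → Z (G m) h) → (Fin n → Y) → ℝ)
    (hD : ∀ u y, (∃ i, packZ (u i) (y i) ∈ D) → f u y = 0) :
    (2 * (Fintype.card (Step h) : ℝ)) ^ n * ∑ u, ∑ y, |f u y| ≤
      ∑ w : Fin n → Step h, ∑ e : Fin n → Bool, ∑ u, ∑ y,
        |f u y - f (stepn w e u) (tranY β w e u y)| := by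
  have hαβ : ∀ a, prodAct (act (q m)) β (bar a) = (prodAct (act (q m)) β a)⁻¹ :=
    prodAct_bar _ _ (act_bar (q m)) hβ
  let F : (Fin n → Z (G m × Y) h) → ℝ := fun p =>
    |f ((packE h n m Y).symm p).1 ((packE h n m Y).symm p).2|
  have H := tensor (P := Z (G m × Y) h) (Ω := Step h) (step (prodAct (act (q m)) β) hαβ) D c hc hc1
    (by
      intro g hg
      simpa only [step_apply] using hgap g hg) n hn F (fun p => abs_nonneg _)
    (by
      intro p hp
      simp only [F, abs_eq_zero]
      exact hD _ _ hp)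
  have e1 : ∑ p, F p = ∑ u, ∑ y, |f u y| := by
    rw [← Fintype.sum_prod_type', ← (packE h n m Y).sum_comp]
    rfl
  rw [e1] at H
  refine H.trans ?_
  refine Finset.sum_le_sum fun w _ => Finset.sum_le_sum fun e _ => ?_
  rw [← (packE h n m Y).sum_comp, Fintype.sum_prod_type]
  refine Finset.sum_le_sum fun u _ => Finset.sum_le_sum fun y _ => ?_
  have e2 : (fun i => if e i then (step (prodAct (act (q m)) β) hαβ (w i)) ((packE h n m Y) (u, y) i)
      else (packE h n m Y) (u, y) i) = packE h n m Y (stepn w e u, tranY β w e u y) := by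
    funext i
    by_cases hi : e i
    · simp only [hi, if_true, step_apply, packE, packZ, Equiv.coe_fn_mk, stepn, tranY]
      rcases hu : u i with ⟨x, a, j⟩
      simpa using step_prod (act (q m)) β (w i) x (y i) a j
    · simp [hi, packE, packZ, stepn, tranY]
  rw [e2]
  simp only [F, Equiv.symm_apply_apply]
  exact abs_abs_sub_abs_le_abs_sub _ _

end reindex

lemma tra_one {h : ℕ} {S Y : Type} (w : Step h) (u : Z S h) :
    tra (fun _ : Arm => (1 : Equiv.Perm Y)) w u = 1 := by
  rcases w with i | a | t <;> rcases u with ⟨x, _ | a', j⟩ <;> simp [tra]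

lemma tranY_one {h n m : ℕ} {Y : Type} (w : Fin n → Step h) (e : Fin n → Bool)
    (u : Fin n → Z (G m) h) (y : Fin n → Y) :
    tranY (fun _ : Arm => (1 : Equiv.Perm Y)) w e u y = y := by
  funext i
  simp [tranY, tra_one]

lemma tranY_act {h n m m' : ℕ} (w : Fin n → Step h) (e : Fin n → Bool)
    (u : Fin n → Z (G m) h) (y : Fin n → G m') :
    tranY (act (q m')) w e u y = tran m' w e u y := by
  funext i
  by_cases hi : e i <;> simp [tranY, tran, hi]

end Crest.Agent.R115
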