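import Crest.Agent.R115.CoreC

/-!
Core estimate, part D: coefficients, mass, variation, killing.
-/

set_option autoImplicit false

namespace Crest.Agent.R115

open Finset

variable {h n m : ℕ}

/-- terminal coefficients -/
noncomputable def fT (C : Pts h n → Pts h n → ℝ) (r : ℕ) (u : Fin n → Z (G m) h)
    (b : Fin n → K h) : ℝ := C (Sum.inr ⟨m, u⟩) (Sum.inl b) * chi r (kapn u) b

open Classical in
/-- sheet coefficients -/
noncomputable def fS (C : Pts h n → Pts h n → ℝ) (r : ℕ) (m' : ℕ) (u : Fin n → Z (G m) h)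
    (y : Fin n → G m') : ℝ :=
  ∑ v : Fin n → Z (G m') h,
    if namn (kapn u) v = y then C (Sum.inr ⟨m, u⟩) (Sum.inr ⟨m', v⟩) * chi r (kapn u) (kapn v)
    else 0

lemma pairing (N : Finset (Pts h n)) (C : Pts h n → Pts h n → ℝ)
    (hN : ∀ u p, p ∉ N → C u p = 0) (hm : ∀ m' v, (Sum.inr ⟨m', v⟩ : Pts h n) ∈ N → m' < m)
    (r : ℕ) (u : Fin n → Z (G m) h) (θT : (Fin n → K h) → ℝ)
    (θS : ∀ m' : ℕ, (Fin n → G m') → ℝ) :
    prg N C (Sum.inr ⟨m, u⟩) (Theta r (kapn u) θT θS) =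
      ∑ b, θT b * fT C r u b + ∑ m' : Fin m, ∑ y, θS m' y * fS C r m' u y := by
  classical
  rw [prg_split N C hN m hm]
  congr 1
  · refine Finset.sum_congr rfl fun b _ => ?_
    simp only [Theta, fT]
    ring
  · refine Finset.sum_congr rfl fun m' _ => ?_
    simp only [fS, Finset.mul_sum]
    rw [Finset.sum_comm]
    refine Finset.sum_congr rfl fun v _ => ?_
    simp only [mul_ite, mul_zero, Finset.sum_ite_eq, Finset.mem_univ, if_true, Theta]
    ring

/-- killing of terminal coefficients -/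
lemma fT_eq_zero (C : Pts h n → Pts h n → ℝ) (r : ℕ) (u : Fin n → Z (G m) h)
    (b : Fin n → K h) (H : ∃ i, r ≤ del (kapn u i) (b i)) : fT C r u b = 0 := by
  obtain ⟨i, hi⟩ := H
  rw [fT, chi_eq_zero i hi, mul_zero]

/-- killing of sheet coefficients -/
lemma fS_eq_zero (C : Pts h n → Pts h n → ℝ) {r : ℕ} (hr : 2 * r + 2 ≤ h) (m' : ℕ)
    (u : Fin n → Z (G m) h) (y : Fin n → G m')
    (H : ∃ i, ∃ x, u i = (x, none, Fin.last h) ∧ mark (q m) x ≠ mark (q m') (y i)) :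
    fS C r m' u y = 0 := by
  obtain ⟨i, x, hu, hx⟩ := H
  unfold fS
  refine Finset.sum_eq_zero fun v _ => ?_
  split_ifs with hv
  · by_cases hz : chi r (kapn u) (kapn v) = 0
    · rw [hz, mul_zero]
    · exfalso
      have h1 := del_lt_of_chi_ne hz i
      simp only [kapn, hu] at h1
      have h2 := nam_mark r hr (mark (q m)) (act (q m')) (mark (q m')) x (v i) h1
      apply hx
      rw [← hv, ← h2]
      simp only [namn, kapn, hu]
  · rfl

/-- the sign of a real number, with values `±1` -/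
noncomputable def sg (x : ℝ) : ℝ := if 0 ≤ x then 1 else -1

lemma sg_mul (x : ℝ) : sg x * x = |x| := by
  unfold sg
  split_ifs with h
  · rw [one_mul, abs_of_nonneg h]
  · rw [abs_of_neg (not_le.mp h)]; ring

lemma abs_sg (x : ℝ) : |sg x| ≤ 1 := by
  unfold sg
  split_ifs <;> simp

lemma prg_sub_left (N : Finset (Pts h n)) (C : Pts h n → Pts h n → ℝ) (u u' : Pts h n)
    (g : Pts h n → ℝ) : prg N C u g - prg N C u' g = ∑ p ∈ N, (C u p - C u' p) * g p := by
  unfold prg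
  rw [← Finset.sum_sub_distrib]
  exact Finset.sum_congr rfl fun p _ => by ring

lemma prg_sub_right (N : Finset (Pts h n)) (C : Pts h n → Pts h n → ℝ) (u : Pts h n)
    (g g' : Pts h n → ℝ) : prg N C u g - prg N C u g' = prg N C u (fun p => g p - g' p) := by
  unfold prg
  rw [← Finset.sum_sub_distrib]
  exact Finset.sum_congr rfl fun p _ => by ring

lemma prg_smul (N : Finset (Pts h n)) (C : Pts h n → Pts h n → ℝ) (u : Pts h n)
    (c : ℝ) (g : Pts h n → ℝ) : prg N C u (fun p => c * g p) = c * prg N C u g := by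
  unfold prg
  rw [Finset.mul_sum]
  exact Finset.sum_congr rfl fun p _ => by ring

section est

variable {r ρ : ℕ} {N : Finset (Pts h n)} {C : Pts h n → Pts h n → ℝ} {L : ℝ}
  (hLip : ∀ g ∈ TestS h n r ρ, ∀ u u' : Pts h n, ∀ M : ℝ, 0 ≤ M →
      (∀ g' ∈ TestS h n r ρ, |g' u - g' u'| ≤ M) →
      |∑ p ∈ N, (C u p - C u' p) * g p| ≤ L * M + 1 / 4)
  (hT : ∀ b : Fin n → K h, ∀ g ∈ TestS h n r ρ,
      |∑ p ∈ N, C (Sum.inl b) p * g p - g (Sum.inl b)| ≤ 1 / 4)
include hLip hT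

/-- comparison with the terminal below -/
lemma term_cmp (u : Fin n → Z (G m) h) (g : Pts h n → ℝ) (hg : g ∈ TestS h n r ρ) :
    |prg N C (Sum.inr ⟨m, u⟩) g - g (Sum.inl (kapn u))| ≤ L * ρ + 1 / 2 := by
  have h1 := hLip g hg (Sum.inr ⟨m, u⟩) (Sum.inl (kapn u)) ρ (Nat.cast_nonneg _)
    (fun g' hg' => hg'.2.2 m u)
  rw [← prg_sub_left] at h1
  have h2 := hT (kapn u) g hg
  have h3 : |prg N C (Sum.inl (kapn u)) g - g (Sum.inl (kapn u))| ≤ 1 / 4 := h2
  rw [abs_le] at *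
  constructor <;> linarith [h1.1, h1.2, h3.1, h3.2]

omit hT in
/-- comparison of adjacent points -/
lemma step_cmp (u : Fin n → Z (G m) h) (w : Fin n → Step h) (e : Fin n → Bool) (g : Pts h n → ℝ)
    (hg : g ∈ TestS h n r ρ) :
    |prg N C (Sum.inr ⟨m, u⟩) g - prg N C (Sum.inr ⟨m, stepn w e u⟩) g| ≤ L + 1 / 4 := by
  have h1 := hLip g hg (Sum.inr ⟨m, u⟩) (Sum.inr ⟨m, stepn w e u⟩) 1 zero_le_one
    (fun g' hg' => hg'.2.1 m u w e)
  rw [← prg_sub_left, mul_one] at h1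
  exact h1

lemma mass_le (hN : ∀ u p, p ∉ N → C u p = 0)
    (hm : ∀ m' v, (Sum.inr ⟨m', v⟩ : Pts h n) ∈ N → m' < m) (hr : 1 ≤ r)
    (hA : L * ρ + 1 / 2 ≤ r / 32)
    (u : Fin n → Z (G m) h) :
    31 / 32 ≤ ∑ b, |fT C r u b| + ∑ m' : Fin m, ∑ y, |fS C r m' u y| := by
  have hr' : (0 : ℝ) < r := by exact_mod_cast hr
  have h1 := term_cmp hLip hT u _ (mass_mem_TestS (ρ := ρ) hr (kapn u))
  have e1 : (fun p : Pts h n => (r : ℝ) * chi r (kapn u) (kn p)) =
      fun p => (r : ℝ) * Theta r (kapn u) (fun _ => 1) (fun _ _ => 1) p := by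
    funext p
    rcases p with b | ⟨m', v⟩ <;> simp [Theta, kn]
  have e2 : (r : ℝ) * chi r (kapn u) (kn (Sum.inl (kapn u) : Pts h n)) = r := by
    simp [kn, chi_self hr]
  simp only [e2] at h1
  rw [e1, prg_smul, pairing N C hN hm] at h1
  simp only [one_mul] at h1
  have h2 : ∑ b, fT C r u b ≤ ∑ b, |fT C r u b| :=
    Finset.sum_le_sum fun b _ => le_abs_self _
  have h3 : ∑ m' : Fin m, ∑ y, fS C r m' u y ≤ ∑ m' : Fin m, ∑ y, |fS C r m' u y| :=
    Finset.sum_le_sum fun m' _ => Finset.sum_le_sum fun y _ => le_abs_self _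
  have h4 := (abs_le.mp h1).1
  have h5 : (r : ℝ) * (31 / 32) ≤
      r * (∑ b, fT C r u b + ∑ m' : Fin m, ∑ y, fS C r m' u y) := by linarith
  have h6 := le_of_mul_le_mul_left h5 hr'
  linarith

lemma var_le (hN : ∀ u p, p ∉ N → C u p = 0)
    (hm : ∀ m' v, (Sum.inr ⟨m', v⟩ : Pts h n) ∈ N → m' < m) (hρ : 1 ≤ ρ) (hρr : ρ ≤ r)
    (hh : 2 * r + 2 ≤ h) (hA : L * ρ + 1 ≤ r * (5 / 256)) (hB : L + 1 / 4 ≤ ρ * (5 / 256))
    (u : Fin n → Z (G m) h) (w : Fin n → Step h) (e : Fin n → Bool) :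
    ∑ b, |fT C r u b - fT C r (stepn w e u) b| +
      ∑ m' : Fin m, ∑ y, |fS C r m' u y - fS C r m' (stepn w e u) (tran m' w e u y)| ≤
      5 / 64 := by
  have hr : 1 ≤ r := hρ.trans hρr
  have hr' : (0 : ℝ) < r := by exact_mod_cast hr
  have hρ' : (0 : ℝ) < ρ := by exact_mod_cast hρ
  set u' := stepn w e u with hu'
  let θT : (Fin n → K h) → ℝ := fun b => sg (fT C r u b - fT C r u' b)
  let θS : ∀ m' : ℕ, (Fin n → G m') → ℝ := fun m' y =>
    sg (fS C r m' u y - fS C r m' u' (tran m' w e u y))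
  have hθT : ∀ b, |θT b| ≤ 1 := fun b => abs_sg _
  have hθS : ∀ m' y, |θS m' y| ≤ 1 := fun m' y => abs_sg _
  let Θ : Pts h n → ℝ := Theta r (kapn u) θT θS
  let Θ' : Pts h n → ℝ := Theta r (kapn u') θT (fun m' y => θS m' ((tran m' w e u).symm y))
  have e1 : ∑ b, |fT C r u b - fT C r u' b| +
      ∑ m' : Fin m, ∑ y, |fS C r m' u y - fS C r m' u' (tran m' w e u y)| =
      prg N C (Sum.inr ⟨m, u⟩) Θ - prg N C (Sum.inr ⟨m, u'⟩) Θ' := by
    rw [pairing N C hN hm, pairing N C hN hm]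
    have e2 : ∀ m' : Fin m, ∑ y, θS m' ((tran m' w e u).symm y) * fS C r m' u' y =
        ∑ y, θS m' y * fS C r m' u' (tran m' w e u y) := by
      intro m'
      refine (Fintype.sum_equiv (tran (m' : ℕ) w e u) _ _ fun y => ?_).symm
      rw [Equiv.symm_apply_apply]
    simp only [e2]
    rw [add_sub_add_comm, ← Finset.sum_sub_distrib, ← Finset.sum_sub_distrib]
    congr 1
    · refine Finset.sum_congr rfl fun b _ => ?_
      rw [← mul_sub, sg_mul]
    · refine Finset.sum_congr rfl fun m' _ => ?_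
      rw [← Finset.sum_sub_distrib]
      refine Finset.sum_congr rfl fun y _ => ?_
      rw [← mul_sub, sg_mul]
  rw [e1]
  -- first difference
  have h1 := step_cmp hLip u w e _ (Theta_mem_TestS hr hρr hh (kapn u) θT θS hθT hθS)
  rw [prg_smul, prg_smul, ← mul_sub, abs_mul, abs_of_nonneg (by positivity : (0 : ℝ) ≤ ρ / 2)] at h1
  have h1' : prg N C (Sum.inr ⟨m, u⟩) Θ - prg N C (Sum.inr ⟨m, u'⟩) Θ ≤ 5 / 128 := by
    have h2 : (ρ : ℝ) / 2 * (prg N C (Sum.inr ⟨m, u⟩) Θ - prg N C (Sum.inr ⟨m, u'⟩) Θ) ≤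
        ρ / 2 * (5 / 128) := by
      refine le_trans (mul_le_mul_of_nonneg_left (le_abs_self _) (by positivity)) ?_
      refine h1.trans ?_
      linarith
    exact le_of_mul_le_mul_left h2 (by positivity)
  -- second difference
  have hΨ : ∀ p, |Θ p - Θ' p| ≤ 1 / r := fun p => Theta_sub hr hh u w e θT θS hθT hθS p
  have hΨ2 : ∀ p, |(r : ℝ) / 2 * (Θ p - Θ' p)| ≤ 1 / 2 := by
    intro p
    rw [abs_mul, abs_of_nonneg (by positivity : (0 : ℝ) ≤ r / 2)]
    calc (r : ℝ) / 2 * |Θ p - Θ' p| ≤ r / 2 * (1 / r) := by gcongr; exact hΨ p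
      _ = 1 / 2 := by field_simp
  have h3 := term_cmp hLip hT u' _ (small_mem_TestS hr hρ _ hΨ2)
  rw [prg_smul] at h3
  have h4 := hΨ2 (Sum.inl (kapn u'))
  have h5 : prg N C (Sum.inr ⟨m, u'⟩) (fun p => Θ p - Θ' p) ≤ 5 / 128 := by
    have h6 : (r : ℝ) / 2 * prg N C (Sum.inr ⟨m, u'⟩) (fun p => Θ p - Θ' p) ≤
        r / 2 * (5 / 128) := by
      have h7 := (abs_le.mp h3).2
      have h8 := (abs_le.mp h4).2
      linarith
    exact le_of_mul_le_mul_left h6 (by positivity)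
  rw [← prg_sub_right] at h5
  linarith

end est

end Crest.Agent.R115
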