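import Crest.Agent.R115.FamMetric
import Crest.Agent.R115.AP

/-!
Task T7: the free space of the glued space has the approximation property.
-/

set_option autoImplicit false

namespace Crest.Agent.R115

open Crest.AnalysisR

namespace Fam

variable (Φ : Fam)

theorem hasAP : HasAP Φ.P.FreeSpace := by
  classical
  have hd : ∀ x y : Φ.P.M, dist x y = Φ.d x y := Φ.dist_eq
  refine hasAP_of_exhaustion Φ.P (fun x y hxy => by rw [hd]; exact Φ.one_le_d hxy)
    (fun n => {x : Φ.M | ∀ l p, x = some ⟨l, p⟩ → l ≤ n}) ?_ ?_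
    (fun n => ∑ l ∈ Finset.range (n + 1), Φ.D l) ?_ 1 le_rfl ?_
  · intro a b hab x hx l p hlp
    exact (hx l p hlp).trans hab
  · intro x
    rcases x with _ | ⟨l, p⟩
    · exact ⟨0, fun l p h => by cases h⟩
    · refine ⟨l, fun l' p' h => ?_⟩
      have := Option.some.inj h
      exact (Sigma.mk.inj this).1 ▸ le_rfl
  · intro n x hx
    rw [hd]
    refine (Φ.d_eq_size x).le.trans ?_
    have hD : ∀ l, 0 ≤ Φ.D l := fun l => (Φ.D_pos l).le
    rcases x with _ | ⟨l, p⟩
    · exact Finset.sum_nonneg fun l _ => hD l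
    · exact Finset.single_le_sum (f := Φ.D) (fun l _ => hD l)
        (Finset.mem_range.mpr (Nat.lt_succ_of_le (hx l p rfl)))
  · intro n x hx y hy
    rw [hd, hd, one_mul]
    refine (Φ.d_eq_size x).le.trans ?_
    rcases x with _ | ⟨l, p⟩
    · exact Φ.d_nonneg _ _
    · change Φ.D l ≤ _
      rcases y with _ | ⟨l', p'⟩
      · exact (Φ.d_some_none l p).ge
      · have hne : l ≠ l' := by
          rintro rfl
          refine hy fun l'' p'' h => ?_
          have := Option.some.inj h
          rw [← (Sigma.mk.inj this).1]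
          exact hx l p rfl
        rw [Φ.d_of_ne hne]
        linarith [Φ.D_pos l']

end Fam

end Crest.Agent.R115
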