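import Crest.Agent.R115.Free

/-!
What the bounded approximation property of the free space gives for a bounded set of points:
finitely supported kernels. (Task T8, generic part.)
-/

set_option autoImplicit false

open Crest.AnalysisR

namespace Crest.Agent.R115

noncomputable section

variable (P : PointedMetric)

/-- the functional of a `1`-Lipschitz function on molecules -/
lemma ext_emb_real (f : P.M → ℝ) (hf : ∀ x y, |f x - f y| ≤ dist x y) (h0 : f P.base = 0)
    (a : P.Mol) : ext P f (emb P a) = ∑ x ∈ (P.coeffs a).support, (P.coeffs a) x * f x := by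
  rw [ext_emb P f 1 zero_le_one (fun x y => by rw [one_mul, Real.norm_eq_abs]; exact hf x y) h0]
  change Finsupp.linearCombination ℝ f (P.coeffs a) = _
  rw [Finsupp.linearCombination_apply, Finsupp.sum]
  simp [smul_eq_mul]

lemma ext_real_norm_le (f : P.M → ℝ) (hf : ∀ x y, |f x - f y| ≤ dist x y) (h0 : f P.base = 0)
    (z : P.FreeSpace) : |ext P f z| ≤ ‖z‖ := by
  have h := norm_ext_le P f 1 zero_le_one
    (fun x y => by rw [one_mul, Real.norm_eq_abs]; exact hf x y) h0
  have := (ext P f).le_of_opNorm_le h z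
  rwa [one_mul, Real.norm_eq_abs] at this

lemma ext_real_delta (f : P.M → ℝ) (hf : ∀ x y, |f x - f y| ≤ dist x y) (h0 : f P.base = 0)
    (x : P.M) : ext P f (delta P x) = f x :=
  ext_delta P f 1 zero_le_one (fun x y => by rw [one_mul, Real.norm_eq_abs]; exact hf x y) h0 x

/-- compact subsets of the free space have finite nets made of molecules -/
lemma net_mol (K : Set P.FreeSpace) (hK : IsCompact K) (η : ℝ) (hη : 0 < η) :
    ∃ S : Finset P.Mol, ∀ x ∈ K, ∃ a ∈ S, ‖x - emb P a‖ < η := by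
  obtain ⟨t, ht⟩ := hK.elim_finite_subcover
    (fun a : P.Mol => Metric.ball (emb P a) η) (fun a => Metric.isOpen_ball) (by
      intro x _
      obtain ⟨a, ha⟩ := Metric.denseRange_iff.mp (emb_dense P) x η hη
      exact Set.mem_iUnion.mpr ⟨a, by simpa [Metric.mem_ball] using ha⟩)
  refine ⟨t, fun x hx => ?_⟩
  obtain ⟨a, ha, hxa⟩ := Set.mem_iUnion₂.mp (ht hx)
  refine ⟨a, ha, ?_⟩
  rwa [Metric.mem_ball, dist_eq_norm] at hxa

/-- Finitely supported kernels from the bounded approximation property. -/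
theorem bap_kernel (h : HasBAP P.FreeSpace) : ∃ lam : ℝ, 0 ≤ lam ∧
    ∀ (B : Set P.M) (R : ℝ), (∀ x ∈ B, dist x P.base ≤ R) → ∀ (S : Finset P.M) (ε : ℝ), 0 < ε →
    ∃ (N : Finset P.M) (c : P.M → P.M → ℝ), (∀ u q, q ∉ N → c u q = 0) ∧
      (∀ f : P.M → ℝ, (∀ x y, |f x - f y| ≤ dist x y) → f P.base = 0 →
        ∀ u ∈ B, ∀ u' ∈ B, |∑ q ∈ N, (c u q - c u' q) * f q| ≤ lam * dist u u' + ε) ∧
      (∀ f : P.M → ℝ, (∀ x y, |f x - f y| ≤ dist x y) → f P.base = 0 →
        ∀ t ∈ S, t ∈ B → |∑ q ∈ N, c t q * f q - f t| ≤ ε) := by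
  classical
  obtain ⟨lam, hlam⟩ := h
  refine ⟨max lam 0, le_max_right _ _, fun B R hB S ε hε => ?_⟩
  obtain ⟨T, hfin, hT, hTS⟩ := hlam ((delta P) '' (S : Set P.M))
    (S.finite_toSet.image _).isCompact (ε / 2) (by positivity)
  have hT' : ‖T‖ ≤ max lam 0 := hT.trans (le_max_left _ _)
  -- the compact set
  set V : Submodule ℝ P.FreeSpace := LinearMap.range T.toLinearMap with hV
  have : ProperSpace V := FiniteDimensional.proper ℝ V
  set K : Set P.FreeSpace :=
    (Subtype.val : V → P.FreeSpace) '' (Metric.closedBall (0 : V) (max lam 0 * R)) with hK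
  have hKc : IsCompact K := (isCompact_closedBall (0 : V) _).image continuous_subtype_val
  have hmem : ∀ u ∈ B, T (delta P u) ∈ K := by
    intro u hu
    refine ⟨⟨T (delta P u), ⟨delta P u, rfl⟩⟩, ?_, rfl⟩
    rw [Metric.mem_closedBall, dist_zero_right]
    change ‖T (delta P u)‖ ≤ _
    refine (T.le_of_opNorm_le hT' _).trans ?_
    exact mul_le_mul_of_nonneg_left ((norm_delta_le P u).trans (hB u hu)) (le_max_right _ _)
  obtain ⟨A, hA⟩ := net_mol P K hKc (ε / 2) (by positivity)
  have hch : ∀ u : P.M, ∃ a : P.Mol, (u ∈ B → a ∈ A ∧ ‖T (delta P u) - emb P a‖ < ε / 2) ∧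
      (u ∉ B → a = 0) := by
    intro u
    by_cases hu : u ∈ B
    · obtain ⟨a, ha, ha2⟩ := hA _ (hmem u hu)
      exact ⟨a, fun _ => ⟨ha, ha2⟩, fun h => absurd hu h⟩
    · exact ⟨0, fun h => absurd h hu, fun _ => rfl⟩
  choose a ha1 ha2 using hch
  set N : Finset P.M := A.biUnion fun b => (P.coeffs b).support with hN
  have hsupp : ∀ u, (P.coeffs (a u)).support ⊆ N := by
    intro u
    by_cases hu : u ∈ B
    · intro q hq
      exact Finset.mem_biUnion.mpr ⟨a u, (ha1 u hu).1, hq⟩
    · rw [ha2 u hu, P.coeffs_zero]; simp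
  have hsum : ∀ f : P.M → ℝ, (∀ x y, |f x - f y| ≤ dist x y) → f P.base = 0 → ∀ u,
      ∑ q ∈ N, (P.coeffs (a u)) q * f q = ext P f (emb P (a u)) := by
    intro f hf h0 u
    rw [ext_emb_real P f hf h0]
    symm
    refine Finset.sum_subset (hsupp u) fun q _ hq => ?_
    rw [Finsupp.notMem_support_iff.mp hq, zero_mul]
  have happ : ∀ f : P.M → ℝ, (∀ x y, |f x - f y| ≤ dist x y) → f P.base = 0 → ∀ u ∈ B,
      |∑ q ∈ N, (P.coeffs (a u)) q * f q - ext P f (T (delta P u))| ≤ ε / 2 := by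
    intro f hf h0 u hu
    rw [hsum f hf h0, ← map_sub]
    refine (ext_real_norm_le P f hf h0 _).trans ?_
    rw [norm_sub_rev]
    exact (ha1 u hu).2.le
  refine ⟨N, fun u q => (P.coeffs (a u)) q, ?_, ?_, ?_⟩
  · intro u q hq
    by_contra hne
    exact hq (hsupp u (Finsupp.mem_support_iff.mpr hne))
  · intro f hf h0 u hu u' hu'
    have h1 := happ f hf h0 u hu
    have h2 := happ f hf h0 u' hu'
    have h3 : |ext P f (T (delta P u)) - ext P f (T (delta P u'))| ≤ max lam 0 * dist u u' := by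
      rw [← map_sub, ← map_sub]
      refine (ext_real_norm_le P f hf h0 _).trans ?_
      refine (T.le_of_opNorm_le hT' _).trans ?_
      exact mul_le_mul_of_nonneg_left (dist_delta_le P u u') (le_max_right _ _)
    have h4 : ∑ q ∈ N, ((P.coeffs (a u)) q - (P.coeffs (a u')) q) * f q =
        (∑ q ∈ N, (P.coeffs (a u)) q * f q - ext P f (T (delta P u))) -
        (∑ q ∈ N, (P.coeffs (a u')) q * f q - ext P f (T (delta P u'))) +
        (ext P f (T (delta P u)) - ext P f (T (delta P u'))) := by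
      rw [show ∑ q ∈ N, ((P.coeffs (a u)) q - (P.coeffs (a u')) q) * f q =
        ∑ q ∈ N, (P.coeffs (a u)) q * f q - ∑ q ∈ N, (P.coeffs (a u')) q * f q by
          rw [← Finset.sum_sub_distrib]; exact Finset.sum_congr rfl fun q _ => by ring]
      ring
    rw [h4]
    rw [abs_le] at h1 h2 h3 ⊢
    constructor <;> linarith [h1.1, h1.2, h2.1, h2.2, h3.1, h3.2]
  · intro f hf h0 t ht htB
    have h1 := happ f hf h0 t htB
    have h2 : |ext P f (T (delta P t)) - f t| ≤ ε / 2 := by
      have h3 := hTS (delta P t) ⟨t, ht, rfl⟩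
      rw [← ext_real_delta P f hf h0 t, ← map_sub]
      exact (ext_real_norm_le P f hf h0 _).trans h3
    have h5 : ∑ q ∈ N, (P.coeffs (a t)) q * f q - f t =
        (∑ q ∈ N, (P.coeffs (a t)) q * f q - ext P f (T (delta P t))) +
        (ext P f (T (delta P t)) - f t) := by ring
    change |∑ q ∈ N, (P.coeffs (a t)) q * f q - f t| ≤ ε
    rw [h5]
    rw [abs_le] at h1 h2 ⊢
    constructor <;> linarith [h1.1, h1.2, h2.1, h2.2]

end

end Crest.Agent.R115
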