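import Crest.Agent.R115.FamMetric
import Crest.Agent.R115.Kernel

/-!
Task T8: what the bounded approximation property gives for the parts.
-/

set_option autoImplicit false

namespace Crest.Agent.R115

open Crest.AnalysisR

namespace Fam

variable (Φ : Fam)

/-- What BAP gives: for each part and each finite set `S` of points of that part, coefficients
`c u q` supported in a common finite set `N`, almost `lam`-Lipschitz in `u` when tested on
`Test l`, and almost equal to `δ_t` for `t ∈ S`. -/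
theorem bap_cons (h : HasBAP Φ.P.FreeSpace) : ∃ lam : ℝ, ∀ (l : ℕ) (S : Finset (Φ.Pt l))
    (ε : ℝ), 0 < ε → ∃ (N : Finset (Φ.Pt l)) (c : Φ.Pt l → Φ.Pt l → ℝ),
      (∀ u q, q ∉ N → c u q = 0) ∧
      (∀ g ∈ Φ.Test l, ∀ u u' : Φ.Pt l, ∀ K : ℝ, 0 ≤ K →
        (∀ g' ∈ Φ.Test l, |g' u - g' u'| ≤ K) →
        |∑ q ∈ N, (c u q - c u' q) * g q| ≤ lam * K + ε) ∧
      (∀ t ∈ S, ∀ g ∈ Φ.Test l, |∑ q ∈ N, c t q * g q - g t| ≤ ε) := by
  classical
  obtain ⟨lam, hlam0, hlam⟩ := bap_kernel Φ.P h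
  refine ⟨lam, fun l S ε hε => ?_⟩
  have hd : ∀ x y : Φ.P.M, dist x y = Φ.d x y := Φ.dist_eq
  set inc : Φ.Pt l → Φ.P.M := fun p => (some ⟨l, p⟩ : Φ.M) with hinc
  have hinj : Function.Injective inc := by
    intro p p' hp
    have := Option.some.inj hp
    exact eq_of_heq (Sigma.mk.inj this).2
  obtain ⟨N, c, h1, h2, h3⟩ := hlam (Set.range inc) (Φ.D l) (by
    rintro _ ⟨p, rfl⟩
    rw [hd]
    exact (Φ.d_some_none l p).le) (S.image inc) ε hε
  -- test functions
  have htest : ∀ g ∈ Φ.Test l, (∀ x y : Φ.P.M, |Φ.extz l g x - Φ.extz l g y| ≤ dist x y) ∧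
      Φ.extz l g Φ.P.base = 0 := by
    intro g hg
    refine ⟨fun x y => ?_, rfl⟩
    rw [hd]
    exact Φ.le_d (Φ.extz_mem hg) x y
  set N' : Finset (Φ.Pt l) := N.preimage inc hinj.injOn with hN'
  have hsum : ∀ (b : Φ.P.M → ℝ) (g : Φ.Pt l → ℝ),
      ∑ q ∈ N, b q * Φ.extz l g q = ∑ q ∈ N', b (inc q) * g q := by
    intro b g
    have h4 : ∑ q ∈ N', b (inc q) * g q = ∑ q ∈ N', b (inc q) * Φ.extz l g (inc q) := by
      refine Finset.sum_congr rfl fun q _ => ?_
      have h5 : Φ.extz l g (inc q) = g q := Φ.extz_some l g q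
      rw [h5]
    rw [h4]
    symm
    refine Finset.sum_preimage inc N hinj.injOn (fun q => b q * Φ.extz l g q) ?_
    intro x _ hx
    have : Φ.extz l g x = 0 := by
      rcases x with _ | ⟨l', p⟩
      · rfl
      · refine Φ.extz_ne ?_ g p
        rintro rfl
        exact hx ⟨p, rfl⟩
    rw [this, mul_zero]
  refine ⟨N', fun u q => c (inc u) (inc q), ?_, ?_, ?_⟩
  · intro u q hq
    refine h1 _ _ fun hmem => hq ?_
    rw [hN', Finset.mem_preimage]; exact hmem
  · intro g hg u u' K hK hK2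
    have h5 := h2 (Φ.extz l g) (htest g hg).1 (htest g hg).2 (inc u) ⟨u, rfl⟩ (inc u') ⟨u', rfl⟩
    rw [hsum (fun q => c (inc u) q - c (inc u') q) g] at h5
    refine h5.trans ?_
    have h6 : dist (inc u) (inc u') ≤ K := by
      rw [hd]
      exact Φ.d_same_le hK2
    have := mul_le_mul_of_nonneg_left h6 hlam0
    linarith
  · intro t ht g hg
    have h5 := h3 (Φ.extz l g) (htest g hg).1 (htest g hg).2 (inc t)
      (Finset.mem_image_of_mem _ ht) ⟨t, rfl⟩
    rw [hsum (fun q => c (inc t) q) g] at h5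
    have h6 : Φ.extz l g (inc t) = g t := Φ.extz_some l g t
    rw [h6] at h5
    exact h5

end Fam

end Crest.Agent.R115
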