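import Crest.Agent.R115.FamMetric
import Crest.Agent.R115.FamAP
import Crest.Agent.R115.FamBAP

/-!
Row 115, track A: the glued metric space (`FamMetric.lean`), its approximation property
(`FamAP.lean`: `Fam.hasAP`) and the consequence of the bounded approximation property
(`FamBAP.lean`: `Fam.bap_cons`).
-/
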