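import Mathlib
import Crest.Prelude.Def_LipschitzFree

/-!
Task T6: the metric space built from families of test functions.
-/

set_option autoImplicit false

namespace Crest.Agent.R115

open Crest.AnalysisR

/-- A sequence of countable sets `Pt l` with families of test functions `Test l`. -/
structure Fam where
  Pt : ℕ → Type
  cnt : ∀ l, Countable (Pt l)
  inf : ∃ l, Infinite (Pt l)
  ne : ∀ l, Nonempty (Pt l)
  D : ℕ → ℝ
  one_le_D : ∀ l, 1 ≤ D l
  D_unbdd : ∀ C : ℝ, ∃ l, C ≤ D l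
  Test : ∀ l, Set (Pt l → ℝ)
  bdd : ∀ l, ∀ g ∈ Test l, ∀ p, |g p| ≤ D l
  const_mem : ∀ l, (fun _ => D l) ∈ Test l
  nconst_mem : ∀ l, (fun _ => -D l) ∈ Test l
  small_mem : ∀ l, ∀ g : Pt l → ℝ, (∀ p, |g p| ≤ 1 / 2) → g ∈ Test l

namespace Fam

variable (Φ : Fam)

/-- the points: a base point and all `Pt l` -/
abbrev M : Type := Option (Σ l, Φ.Pt l)

/-- restriction of a function to the `l`-th part -/
def res (g : Φ.M → ℝ) (l : ℕ) : Φ.Pt l → ℝ := fun p => g (some ⟨l, p⟩)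

/-- global test functions -/
def GTest : Set (Φ.M → ℝ) := {g | g none = 0 ∧ ∀ l, Φ.res g l ∈ Φ.Test l}

/-- the distance -/
noncomputable def d (x y : Φ.M) : ℝ := ⨆ g : Φ.GTest, |g.1 x - g.1 y|

lemma zero_mem (l : ℕ) : (fun _ => (0 : ℝ)) ∈ Φ.Test l :=
  Φ.small_mem l _ (fun _ => by norm_num)

lemma D_pos (l : ℕ) : 0 < Φ.D l := lt_of_lt_of_le one_pos (Φ.one_le_D l)

/-- glue functions on the parts to a function on `M` -/
def glue (G : ∀ l, Φ.Pt l → ℝ) : Φ.M → ℝ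
  | none => 0
  | some ⟨l, p⟩ => G l p

@[simp] lemma glue_none (G : ∀ l, Φ.Pt l → ℝ) : Φ.glue G none = 0 := rfl

@[simp] lemma glue_some (G : ∀ l, Φ.Pt l → ℝ) (l : ℕ) (p : Φ.Pt l) :
    Φ.glue G (some ⟨l, p⟩) = G l p := rfl

lemma glue_mem (G : ∀ l, Φ.Pt l → ℝ) (hG : ∀ l, G l ∈ Φ.Test l) : Φ.glue G ∈ Φ.GTest :=
  ⟨rfl, fun l => hG l⟩

instance : Nonempty Φ.GTest := ⟨⟨Φ.glue fun _ _ => 0, Φ.glue_mem _ fun l => Φ.zero_mem l⟩⟩

/-- the size of a point -/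
def size : Φ.M → ℝ
  | none => 0
  | some ⟨l, _⟩ => Φ.D l

@[simp] lemma size_none : Φ.size none = 0 := rfl
@[simp] lemma size_some (l : ℕ) (p : Φ.Pt l) : Φ.size (some ⟨l, p⟩) = Φ.D l := rfl

lemma abs_le_size {g : Φ.M → ℝ} (hg : g ∈ Φ.GTest) (x : Φ.M) : |g x| ≤ Φ.size x := by
  rcases x with _ | ⟨l, p⟩
  · rw [hg.1]; simp
  · exact Φ.bdd l _ (hg.2 l) p

lemma bddAbove (x y : Φ.M) : BddAbove (Set.range fun g : Φ.GTest => |g.1 x - g.1 y|) := by
  refine ⟨Φ.size x + Φ.size y, ?_⟩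
  rintro _ ⟨g, rfl⟩
  exact (abs_sub _ _).trans (add_le_add (Φ.abs_le_size g.2 x) (Φ.abs_le_size g.2 y))

lemma le_d {g : Φ.M → ℝ} (hg : g ∈ Φ.GTest) (x y : Φ.M) : |g x - g y| ≤ Φ.d x y :=
  le_ciSup (Φ.bddAbove x y) ⟨g, hg⟩

lemma d_le {x y : Φ.M} {K : ℝ} (h : ∀ g ∈ Φ.GTest, |g x - g y| ≤ K) : Φ.d x y ≤ K :=
  ciSup_le fun g => h g.1 g.2

lemma d_nonneg (x y : Φ.M) : 0 ≤ Φ.d x y :=
  (abs_nonneg _).trans (Φ.le_d (Classical.arbitrary Φ.GTest).2 x y)

lemma d_self (x : Φ.M) : Φ.d x x = 0 :=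
  le_antisymm (Φ.d_le fun g _ => by simp) (Φ.d_nonneg x x)

lemma d_comm (x y : Φ.M) : Φ.d x y = Φ.d y x := by
  unfold d
  congr 1
  funext g
  exact abs_sub_comm _ _

lemma d_triangle (x y z : Φ.M) : Φ.d x z ≤ Φ.d x y + Φ.d y z :=
  Φ.d_le fun _ hg => (abs_sub_le _ _ _).trans (add_le_add (Φ.le_d hg x y) (Φ.le_d hg y z))

lemma d_some_none (l : ℕ) (p : Φ.Pt l) : Φ.d (some ⟨l, p⟩) none = Φ.D l := by
  refine le_antisymm (Φ.d_le fun g hg => ?_) ?_
  · rw [hg.1, sub_zero]; exact Φ.bdd l _ (hg.2 l) p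
  · have h := Φ.le_d (Φ.glue_mem (fun l _ => Φ.D l) fun l => Φ.const_mem l) (some ⟨l, p⟩) none
    rw [glue_some, glue_none, sub_zero, abs_of_pos (Φ.D_pos l)] at h
    exact h

lemma d_none_some (l : ℕ) (p : Φ.Pt l) : Φ.d none (some ⟨l, p⟩) = Φ.D l := by
  rw [d_comm, d_some_none]

lemma d_eq_size (x : Φ.M) : Φ.d x none = Φ.size x := by
  rcases x with _ | ⟨l, p⟩
  · exact Φ.d_self none
  · exact Φ.d_some_none l p

lemma d_of_ne {l l' : ℕ} (h : l ≠ l') (p : Φ.Pt l) (p' : Φ.Pt l') :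
    Φ.d (some ⟨l, p⟩) (some ⟨l', p'⟩) = Φ.D l + Φ.D l' := by
  refine le_antisymm ?_ ?_
  · refine (Φ.d_triangle _ none _).trans ?_
    rw [d_some_none, d_none_some]
  · have h := Φ.le_d (Φ.glue_mem (fun k _ => if k = l then Φ.D k else -Φ.D k) fun k => by
      by_cases hk : k = l
      · simp only [if_pos hk]; exact Φ.const_mem k
      · simp only [if_neg hk]; exact Φ.nconst_mem k) (some ⟨l, p⟩) (some ⟨l', p'⟩)
    have e : Φ.glue (fun k _ => if k = l then Φ.D k else -Φ.D k) (some ⟨l, p⟩)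
        - Φ.glue (fun k _ => if k = l then Φ.D k else -Φ.D k) (some ⟨l', p'⟩)
        = Φ.D l + Φ.D l' := by
      simp only [glue_some, if_true]
      rw [if_neg (Ne.symm ‹l ≠ l'›)]
      ring
    rw [e, abs_of_pos (add_pos (Φ.D_pos l) (Φ.D_pos l'))] at h
    exact h

/-- points in the same part -/
lemma d_same_le {l : ℕ} {p p' : Φ.Pt l} {K : ℝ} (h : ∀ g ∈ Φ.Test l, |g p - g p'| ≤ K) :
    Φ.d (some ⟨l, p⟩) (some ⟨l, p'⟩) ≤ K :=
  Φ.d_le fun _ hg => h _ (hg.2 l)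

open Classical in
/-- extension of a function on one part by zero -/
noncomputable def extz (l : ℕ) (g : Φ.Pt l → ℝ) : Φ.M → ℝ :=
  Φ.glue fun k => if h : k = l then fun p => g (h ▸ p) else fun _ => 0

lemma extz_none (l : ℕ) (g : Φ.Pt l → ℝ) : Φ.extz l g none = 0 := rfl

lemma extz_some (l : ℕ) (g : Φ.Pt l → ℝ) (p : Φ.Pt l) : Φ.extz l g (some ⟨l, p⟩) = g p := by
  simp [extz]

lemma extz_ne {l k : ℕ} (h : k ≠ l) (g : Φ.Pt l → ℝ) (p : Φ.Pt k) :
    Φ.extz l g (some ⟨k, p⟩) = 0 := by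
  simp [extz, h]

lemma extz_mem {l : ℕ} {g : Φ.Pt l → ℝ} (hg : g ∈ Φ.Test l) : Φ.extz l g ∈ Φ.GTest := by
  refine Φ.glue_mem _ fun k => ?_
  by_cases h : k = l
  · subst h; simpa using hg
  · simp only [h, dif_neg, not_false_eq_true]; exact Φ.zero_mem k

lemma le_d_same {l : ℕ} {g : Φ.Pt l → ℝ} (hg : g ∈ Φ.Test l) (p p' : Φ.Pt l) :
    |g p - g p'| ≤ Φ.d (some ⟨l, p⟩) (some ⟨l, p'⟩) := by
  have h := Φ.le_d (Φ.extz_mem hg) (some ⟨l, p⟩) (some ⟨l, p'⟩)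
  rwa [extz_some, extz_some] at h

lemma one_le_d {x y : Φ.M} (hxy : x ≠ y) : 1 ≤ Φ.d x y := by
  classical
  rcases x with _ | ⟨l, p⟩
  · rcases y with _ | ⟨l', p'⟩
    · exact absurd rfl hxy
    · rw [d_none_some]; exact Φ.one_le_D l'
  · rcases y with _ | ⟨l', p'⟩
    · rw [d_some_none]; exact Φ.one_le_D l
    · by_cases hl : l = l'
      · subst hl
        have hp : p' ≠ p := by
          rintro rfl; exact hxy rfl
        have hg : (fun z : Φ.Pt l => if z = p then (1 / 2 : ℝ) else -(1 / 2)) ∈ Φ.Test l := by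
          refine Φ.small_mem l _ fun z => ?_
          split_ifs <;> norm_num
        have h := Φ.le_d_same hg p p'
        rw [if_pos rfl, if_neg hp] at h
        norm_num at h
        exact h
      · rw [d_of_ne Φ hl]
        linarith [Φ.one_le_D l, Φ.one_le_D l']

/-- the metric space -/
@[reducible] noncomputable def met : MetricSpace Φ.M where
  dist := Φ.d
  dist_self := Φ.d_self
  dist_comm := Φ.d_comm
  dist_triangle := Φ.d_triangle
  eq_of_dist_eq_zero := by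
    intro x y h
    by_contra hxy
    have := Φ.one_le_d hxy
    change Φ.d x y = 0 at h
    linarith

/-- the pointed metric space -/
noncomputable def P : PointedMetric := ⟨Φ.M, Φ.met, none⟩

theorem dist_eq (x y : Φ.M) : (letI := Φ.met; dist x y) = Φ.d x y := rfl

theorem isCSUN : Φ.P.IsCountableSeparatedUnboundedNonproper := by
  let inst : MetricSpace Φ.M := Φ.met
  have hsep : ∀ x y : Φ.M, x ≠ y → 1 ≤ dist x y := fun x y hxy => Φ.one_le_d hxy
  refine (⟨?_, hsep, ?_, ?_⟩ : Countable Φ.M ∧ (∀ x y : Φ.M, x ≠ y → 1 ≤ dist x y) ∧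
    ¬ Bornology.IsBounded (Set.univ : Set Φ.M) ∧ ¬ ProperSpace Φ.M)
  · have := Φ.cnt
    infer_instance
  · intro hb
    obtain ⟨C, hC⟩ := Metric.isBounded_iff.1 hb
    obtain ⟨l, hl⟩ := Φ.D_unbdd (C + 1)
    obtain ⟨p⟩ := Φ.ne l
    have h : dist (some ⟨l, p⟩ : Φ.M) (none : Φ.M) ≤ C :=
      hC (x := (some ⟨l, p⟩ : Φ.M)) (Set.mem_univ _) (y := (none : Φ.M)) (Set.mem_univ _)
    have h2 : dist (some ⟨l, p⟩ : Φ.M) (none : Φ.M) = Φ.D l := Φ.d_some_none l p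
    linarith
  · intro hp
    obtain ⟨l, hl⟩ := Φ.inf
    have hc : IsCompact (Metric.closedBall (none : Φ.M) (Φ.D l)) := isCompact_closedBall _ _
    have hdisc : DiscreteTopology Φ.M :=
      DiscreteTopology.of_forall_le_dist one_pos (fun x y hxy => hsep x y hxy)
    have hfin : (Metric.closedBall (none : Φ.M) (Φ.D l)).Finite := hc.finite_of_discrete
    have hinj : Function.Injective (fun p : Φ.Pt l => (some ⟨l, p⟩ : Φ.M)) := by
      intro p p' h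
      simpa using h
    have hsub : Set.range (fun p : Φ.Pt l => (some ⟨l, p⟩ : Φ.M)) ⊆
        Metric.closedBall (none : Φ.M) (Φ.D l) := by
      rintro _ ⟨p, rfl⟩
      exact le_of_eq (Φ.d_some_none l p)
    exact (Set.infinite_range_of_injective hinj) (hfin.subset hsub)

end Fam

end Crest.Agent.R115
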