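import Crest.Prelude.Def_LipschitzFree

set_option autoImplicit false

open Crest.AnalysisR

namespace Crest.Agent.R115

noncomputable section

/-- Make the bundled metric available to instance search. -/
scoped instance instMetric (P : PointedMetric) : MetricSpace P.M := P.metric

variable (P : PointedMetric)

/-- Dirac molecule. -/
def mdelta (x : P.M) : P.Mol := Finsupp.single x (1 : ℝ)

/-- Dirac element of the free space. -/
def delta (x : P.M) : P.FreeSpace := (mdelta P x : P.Mol)

lemma norm_mol (a : P.Mol) : ‖a‖ = P.freeNorm a := rfl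

lemma pairing_mdelta (x : P.M) (f : P.M → ℝ) : P.pairing (mdelta P x) f = f x := by
  unfold PointedMetric.pairing PointedMetric.coeffs mdelta
  rw [Finsupp.sum_single_index] <;> simp

/-- The pairing with a function, as a linear map. -/
def pairingL (f : P.M → ℝ) : P.Mol →ₗ[ℝ] ℝ where
  toFun a := P.pairing a f
  map_add' a b := P.pairing_add a b f
  map_smul' c a := P.pairing_smul c a f

lemma abs_pairing_le_norm (a : P.Mol) (f : P.Lip1) : |P.pairing a f.1| ≤ ‖a‖ := by
  rw [norm_mol]
  exact le_ciSup (P.freeNorm_bddAbove a) f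

/-- Linear extension of a vector valued function to molecules. -/
def lsum {X : Type*} [AddCommGroup X] [Module ℝ X] (g : P.M → X) : P.Mol →ₗ[ℝ] X :=
  (Finsupp.linearCombination ℝ g : (P.M →₀ ℝ) →ₗ[ℝ] X)

lemma lsum_mdelta {X : Type*} [AddCommGroup X] [Module ℝ X] (g : P.M → X) (x : P.M) :
    lsum P g (mdelta P x) = g x := by
  change Finsupp.linearCombination ℝ g (Finsupp.single x (1 : ℝ)) = g x
  simp

/-- molecules are spanned by the Dirac molecules -/
lemma mol_induction {p : P.Mol → Prop} (h0 : p 0) (hadd : ∀ a b, p a → p b → p (a + b))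
    (hd : ∀ (c : ℝ) x, p (c • mdelta P x)) (a : P.Mol) : p a := by
  refine Finsupp.induction_linear (motive := fun a : P.M →₀ ℝ => p a) a h0 hadd ?_
  intro x c
  have := hd c x
  unfold mdelta at this
  have h2 : (c • (Finsupp.single x (1:ℝ)) : P.M →₀ ℝ) = Finsupp.single x c := by simp
  have h3 : (Finsupp.single x c : P.M →₀ ℝ) = (c • (Finsupp.single x (1:ℝ)) : P.M →₀ ℝ) := h2.symm
  rw [h3]
  exact this

lemma lsum_functional {X : Type*} [NormedAddCommGroup X] [NormedSpace ℝ X] (g : P.M → X)
    (φ : X →L[ℝ] ℝ) (a : P.Mol) : φ (lsum P g a) = P.pairing a (fun x => φ (g x)) := by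
  have : (φ.toLinearMap ∘ₗ lsum P g) = pairingL P (fun x => φ (g x)) := by
    ext a
    refine mol_induction P (p := fun a => (φ.toLinearMap ∘ₗ lsum P g) a
      = pairingL P (fun x => φ (g x)) a) ?_ ?_ ?_ a
    · simp
    · intro a b ha hb
      rw [map_add, map_add, ha, hb]
    · intro c x
      rw [map_smul, map_smul]
      congr 1
      have h1 : (φ.toLinearMap ∘ₗ lsum P g) (mdelta P x) = φ (g x) := by
        simp only [LinearMap.comp_apply, lsum_mdelta]
        rfl
      rw [h1]
      exact (pairing_mdelta P x (fun x => φ (g x))).symm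
  exact congrArg (fun L => L a) this

/-- Bound for the linear extension of a Lipschitz map vanishing at the base point. -/
lemma norm_lsum_le {X : Type*} [NormedAddCommGroup X] [NormedSpace ℝ X] (g : P.M → X) (C : ℝ)
    (hC : 0 ≤ C) (hg : ∀ x y, ‖g x - g y‖ ≤ C * dist x y) (h0 : g P.base = 0) (a : P.Mol) :
    ‖lsum P g a‖ ≤ C * ‖a‖ := by
  obtain ⟨φ, hφ, hφ2⟩ := exists_dual_vector'' ℝ (lsum P g a)
  have h1 : ‖lsum P g a‖ = P.pairing a (fun x => φ (g x)) := by
    rw [← lsum_functional]
    rw [hφ2]; simp
  rcases hC.eq_or_lt with h | hpos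
  · subst h
    have hg0 : ∀ x, g x = 0 := by
      intro x
      have := hg x P.base
      rw [zero_mul, h0, sub_zero] at this
      exact norm_le_zero_iff.mp this
    have : (fun x => φ (g x)) = fun _ => 0 := by
      funext x; rw [hg0]; simp
    rw [h1, this]
    simp [PointedMetric.pairing, Finsupp.sum]
  · have hL : LipschitzWith 1 (fun x => C⁻¹ * φ (g x)) := by
      refine LipschitzWith.of_dist_le_mul fun x y => ?_
      rw [Real.dist_eq, NNReal.coe_one, one_mul, ← mul_sub, ← map_sub, abs_mul,
        abs_of_nonneg (inv_nonneg.mpr hC)]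
      have h2 : |φ (g x - g y)| ≤ ‖g x - g y‖ := by
        have := φ.le_of_opNorm_le hφ (g x - g y)
        rwa [one_mul, Real.norm_eq_abs] at this
      calc C⁻¹ * |φ (g x - g y)| ≤ C⁻¹ * (C * dist x y) :=
            mul_le_mul_of_nonneg_left (h2.trans (hg x y)) (inv_nonneg.mpr hC)
        _ = dist x y := by field_simp
    have h0' : (fun x => C⁻¹ * φ (g x)) P.base = 0 := by simp [h0]
    have h3 := abs_pairing_le_norm P a ⟨_, hL, h0'⟩
    have h4 : P.pairing a (fun x => C⁻¹ * φ (g x)) = C⁻¹ * P.pairing a (fun x => φ (g x)) := by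
      unfold PointedMetric.pairing
      rw [Finsupp.mul_sum]
      refine Finsupp.sum_congr fun x _ => by ring
    simp only at h3
    rw [h4, ← h1, abs_mul, abs_of_nonneg (inv_nonneg.mpr hC), abs_of_nonneg (norm_nonneg _)] at h3
    calc ‖lsum P g a‖ = C * (C⁻¹ * ‖lsum P g a‖) := by field_simp
      _ ≤ C * ‖a‖ := mul_le_mul_of_nonneg_left h3 hC

/-- The embedding of molecules in the free space, as a linear map. -/
def emb : P.Mol →ₗ[ℝ] P.FreeSpace :=
  (UniformSpace.Completion.toComplL (𝕜 := ℝ) (E := P.Mol)).toLinearMap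

lemma emb_apply (a : P.Mol) : emb P a = (a : P.FreeSpace) := rfl

lemma emb_dense : DenseRange (emb P) := UniformSpace.Completion.denseRange_coe

lemma norm_emb (a : P.Mol) : ‖emb P a‖ = ‖a‖ := UniformSpace.Completion.norm_coe a

lemma emb_mdelta (x : P.M) : emb P (mdelta P x) = delta P x := rfl

lemma lsum_delta (a : P.Mol) : lsum P (delta P) a = emb P a := by
  refine mol_induction P (p := fun a => lsum P (delta P) a = emb P a) ?_ ?_ ?_ a
  · simp
  · intro a b ha hb
    rw [map_add, map_add, ha, hb]
  · intro c x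
    rw [map_smul, map_smul, lsum_mdelta, emb_mdelta]

section ext

variable {X : Type*} [NormedAddCommGroup X] [NormedSpace ℝ X] [CompleteSpace X]

/-- Universal property of the free space: the linear extension of a Lipschitz map. -/
def ext (g : P.M → X) : P.FreeSpace →L[ℝ] X := (lsum P g).extendOfNorm (emb P)

variable (g : P.M → X) (C : ℝ) (hC : 0 ≤ C) (hg : ∀ x y, ‖g x - g y‖ ≤ C * dist x y)
  (h0 : g P.base = 0)

include hC hg h0

lemma ext_emb (a : P.Mol) : ext P g (emb P a) = lsum P g a := by
  refine LinearMap.extendOfNorm_eq (emb_dense P) ⟨C, fun a => ?_⟩ a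
  rw [norm_emb]
  exact norm_lsum_le P g C hC hg h0 a

lemma ext_delta (x : P.M) : ext P g (delta P x) = g x := by
  rw [← emb_mdelta, ext_emb P g C hC hg h0, lsum_mdelta]

lemma norm_ext_le : ‖ext P g‖ ≤ C := by
  refine LinearMap.opNorm_extendOfNorm_le (emb_dense P) hC (fun a => ?_)
  rw [norm_emb]
  exact norm_lsum_le P g C hC hg h0 a

end ext

/-- Two continuous linear maps on the free space agreeing at the Dirac elements agree. -/
lemma clm_ext {X : Type*} [NormedAddCommGroup X] [NormedSpace ℝ X]
    {S T : P.FreeSpace →L[ℝ] X} (h : ∀ x, S (delta P x) = T (delta P x)) : S = T := by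
  have h2 : ∀ a : P.Mol, S (emb P a) = T (emb P a) := by
    intro a
    refine mol_induction P (p := fun a => S (emb P a) = T (emb P a)) ?_ ?_ ?_ a
    · simp
    · intro a b ha hb
      rw [map_add, map_add, map_add, ha, hb]
    · intro c x
      rw [map_smul, map_smul, map_smul, emb_mdelta, h]
  ext y
  have := (emb_dense P).equalizer S.continuous T.continuous (funext h2)
  exact congrFun this y

/-- Evaluation functional of a `1`-Lipschitz function. -/
def ev (f : P.M → ℝ) : P.FreeSpace →L[ℝ] ℝ := ext P f

lemma dist_delta_le (x y : P.M) : ‖delta P x - delta P y‖ ≤ dist x y := by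
  have h : delta P x - delta P y = emb P (mdelta P x - mdelta P y) := by
    rw [map_sub]; rfl
  rw [h, norm_emb, norm_mol]
  refine ciSup_le fun f => ?_
  have h2 : P.pairing (mdelta P x - mdelta P y) f.1 = f.1 x - f.1 y := by
    have := map_sub (pairingL P f.1) (mdelta P x) (mdelta P y)
    calc P.pairing (mdelta P x - mdelta P y) f.1
        = pairingL P f.1 (mdelta P x - mdelta P y) := rfl
      _ = pairingL P f.1 (mdelta P x) - pairingL P f.1 (mdelta P y) := this
      _ = _ := by
        change P.pairing (mdelta P x) f.1 - P.pairing (mdelta P y) f.1 = _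
        rw [pairing_mdelta, pairing_mdelta]
  rw [h2]
  have := f.2.1.dist_le_mul x y
  rwa [Real.dist_eq, NNReal.coe_one, one_mul] at this

lemma delta_base : delta P P.base = 0 := by
  have h : delta P P.base = emb P (mdelta P P.base) := rfl
  have h2 : ‖delta P P.base‖ ≤ 0 := by
    rw [h, norm_emb, norm_mol]
    refine ciSup_le fun f => ?_
    rw [pairing_mdelta, f.2.2, abs_zero]
  exact norm_le_zero_iff.mp h2

lemma norm_delta_le (x : P.M) : ‖delta P x‖ ≤ dist x P.base := by
  have := dist_delta_le P x P.base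
  rwa [delta_base, sub_zero] at this

/-- A function `M → M` fixing the base point and `C`-Lipschitz induces an operator. -/
def lmap {P Q : PointedMetric} (r : P.M → Q.M) : P.FreeSpace →L[ℝ] Q.FreeSpace :=
  ext P (fun x => delta Q (r x))

section lmap

variable {P}
variable {Q : PointedMetric} (r : P.M → Q.M) (C : ℝ) (hC : 0 ≤ C)
  (hr : ∀ x y, dist (r x) (r y) ≤ C * dist x y) (h0 : r P.base = Q.base)

include hC hr h0

lemma lmap_delta (x : P.M) : lmap r (delta P x) = delta Q (r x) := by
  refine ext_delta P _ C hC (fun x y => (dist_delta_le Q _ _).trans (hr x y)) ?_ x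
  simp only [h0, delta_base]

lemma norm_lmap_le : ‖lmap r‖ ≤ C := by
  refine norm_ext_le P _ C hC (fun x y => (dist_delta_le Q _ _).trans (hr x y)) ?_
  simp only [h0, delta_base]

end lmap

end

end Crest.Agent.R115
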