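import Crest.Agent.R115.Core
import Crest.Agent.R115.Fam

/-!
Task T12: final assembly of track A.
-/

set_option autoImplicit false

namespace Crest.Agent.R115

open Finset Crest.AnalysisR

/-- the parameters -/
def rhoP (l : ℕ) : ℕ := 64 * (l + 1)
def rP (l : ℕ) : ℕ := 64 * (l + 1) * rhoP l
def hP (l : ℕ) : ℕ := 2 * rP l + 2

lemma one_le_rhoP (l : ℕ) : 1 ≤ rhoP l := by unfold rhoP; omega

lemma one_le_rP (l : ℕ) : 1 ≤ rP l := by
  unfold rP
  exact Nat.one_le_iff_ne_zero.mpr (Nat.mul_ne_zero (by omega) (by have := one_le_rhoP l; omega))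

lemma le_rP (l : ℕ) : l ≤ rP l := by
  unfold rP
  have := one_le_rhoP l
  nlinarith

/-- both one-coordinate gaps with the same constant `c ≤ 1`, and the number of coordinates -/
lemma exists_params (r h : ℕ) (hr : 1 ≤ r) (hh : 2 * r ≤ h) : ∃ (c : ℝ) (n : ℕ), 0 < c ∧ c ≤ 1 ∧
    (∀ m m' : ℕ, m ≠ m' → ∀ g : Z (G m × G m') h → ℝ,
      (∀ x : G m × G m', mark (q m) x.1 ≠ mark (q m') x.2 → g (x, none, Fin.last h) = 0) →
      c * ∑ z, g z ^ 2 ≤
        ∑ w : Step h, ∑ z, (g z - g (stepFun (prodAct (act (q m)) (act (q m'))) w z)) ^ 2) ∧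
    (∀ m : ℕ, ∀ g : Z (G m × K h) h → ℝ,
      (∀ z : Z (G m × K h) h,
        r ≤ del (kap (fun x : G m × K h => mark (q m) x.1) z) z.1.2 → g z = 0) →
      c * ∑ z, g z ^ 2 ≤
        ∑ w : Step h, ∑ z, (g z - g (stepFun (prodAct (act (q m)) (fun _ => 1)) w z)) ^ 2) ∧
    (1 - c / (4 * Fintype.card (Step h))) ^ n ≤ 1 / 4 := by
  obtain ⟨c1, hc1, H1⟩ := gap_sheets h
  obtain ⟨c2, hc2, H2⟩ := gap_terminals h r hr hh
  set c : ℝ := min 1 (min c1 c2) with hc
  have hc0 : 0 < c := lt_min one_pos (lt_min hc1 hc2)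
  have hcle : c ≤ 1 := min_le_left _ _
  have hcc1 : c ≤ c1 := (min_le_right _ _).trans (min_le_left _ _)
  have hcc2 : c ≤ c2 := (min_le_right _ _).trans (min_le_right _ _)
  have hcard : (1 : ℝ) ≤ Fintype.card (Step h) := by
    have : 0 < Fintype.card (Step h) := Fintype.card_pos_iff.mpr ⟨Sum.inr (Sum.inr ())⟩
    exact_mod_cast this
  have hq0 : 0 < c / (4 * Fintype.card (Step h)) := by positivity
  obtain ⟨n, hn⟩ := exists_pow_lt_of_lt_one (show (0 : ℝ) < 1 / 4 by norm_num)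
    (show 1 - c / (4 * Fintype.card (Step h)) < 1 by linarith)
  refine ⟨c, n, hc0, hcle, ?_, ?_, hn.le⟩
  · intro m m' hmm g hg
    exact (mul_le_mul_of_nonneg_right hcc1 (Finset.sum_nonneg fun z _ => sq_nonneg _)).trans
      (H1 m m' hmm g hg)
  · intro m g hg
    exact (mul_le_mul_of_nonneg_right hcc2 (Finset.sum_nonneg fun z _ => sq_nonneg _)).trans
      (H2 m g hg)

/-- constant of the gaps -/
noncomputable def cP (l : ℕ) : ℝ :=
  (exists_params (rP l) (hP l) (one_le_rP l) (by unfold hP; omega)).choose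

/-- number of coordinates -/
noncomputable def nP (l : ℕ) : ℕ :=
  (exists_params (rP l) (hP l) (one_le_rP l) (by unfold hP; omega)).choose_spec.choose

lemma paramsP (l : ℕ) : 0 < cP l ∧ cP l ≤ 1 ∧
    (∀ m m' : ℕ, m ≠ m' → ∀ g : Z (G m × G m') (hP l) → ℝ,
      (∀ x : G m × G m', mark (q m) x.1 ≠ mark (q m') x.2 → g (x, none, Fin.last (hP l)) = 0) →
      cP l * ∑ z, g z ^ 2 ≤
        ∑ w : Step (hP l), ∑ z, (g z - g (stepFun (prodAct (act (q m)) (act (q m'))) w z)) ^ 2) ∧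
    (∀ m : ℕ, ∀ g : Z (G m × K (hP l)) (hP l) → ℝ,
      (∀ z : Z (G m × K (hP l)) (hP l),
        rP l ≤ del (kap (fun x : G m × K (hP l) => mark (q m) x.1) z) z.1.2 → g z = 0) →
      cP l * ∑ z, g z ^ 2 ≤
        ∑ w : Step (hP l), ∑ z, (g z - g (stepFun (prodAct (act (q m)) (fun _ => 1)) w z)) ^ 2) ∧
    (1 - cP l / (4 * Fintype.card (Step (hP l)))) ^ nP l ≤ 1 / 4 :=
  (exists_params (rP l) (hP l) (one_le_rP l) (by unfold hP; omega)).choose_spec.choose_spec

lemma infinite_Pts (h n : ℕ) : Infinite (Pts h n) := by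
  have : Function.Injective (fun m : ℕ =>
      (Sum.inr ⟨m, fun _ => ((0, 0), none, 0)⟩ : Pts h n)) := by
    intro m m' hm
    have := Sum.inr.inj hm
    exact congrArg Sigma.fst this
  exact Infinite.of_injective _ this

/-- the family of test functions -/
noncomputable def fam : Fam where
  Pt l := Pts (hP l) (nP l)
  cnt l := by
    have : ∀ m, Countable (Fin (nP l) → Z (G m) (hP l)) := fun m => Finite.to_countable
    infer_instance
  inf := ⟨0, infinite_Pts _ _⟩
  ne l := (infinite_Pts _ _).nonempty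
  D l := rP l
  one_le_D l := by exact_mod_cast one_le_rP l
  D_unbdd C := by
    obtain ⟨l, hl⟩ := exists_nat_ge C
    exact ⟨l, hl.trans (by exact_mod_cast le_rP l)⟩
  Test l := TestS (hP l) (nP l) (rP l) (rhoP l)
  bdd l g hg p := hg.1 p
  const_mem l := by
    refine ⟨fun p => ?_, fun m u w e => ?_, fun m u => ?_⟩
    · rw [abs_of_nonneg (Nat.cast_nonneg _)]
    · simp
    · simp
  nconst_mem l := by
    refine ⟨fun p => ?_, fun m u w e => ?_, fun m u => ?_⟩
    · rw [abs_neg, abs_of_nonneg (Nat.cast_nonneg _)]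
    · simp
    · simp
  small_mem l g hg := small_mem_TestS (one_le_rP l) (one_le_rhoP l) g hg

theorem not_hasBAP : ¬ HasBAP fam.P.FreeSpace := by
  classical
  intro hB
  obtain ⟨lam, hlam⟩ := fam.bap_cons hB
  obtain ⟨l, hl⟩ := exists_nat_ge lam
  obtain ⟨N, C, hN, hLip, hT⟩ := hlam l
    ((Finset.univ : Finset (Fin (nP l) → K (hP l))).image Sum.inl) (1 / 4) (by norm_num)
  obtain ⟨hc0, hc1, hgS, hgT, hn⟩ := paramsP l
  refine core (l + 1) (by omega) (rhoP l) (rP l) (hP l) rfl rfl rfl (cP l) hc0 hc1 hgS hgT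
    (nP l) hn N C hN ?_ ?_
  · intro g hg u u' M hM H
    refine (hLip g hg u u' M hM H).trans ?_
    have : lam * M ≤ ((l + 1 : ℕ) : ℝ) * M :=
      mul_le_mul_of_nonneg_right (hl.trans (by push_cast; linarith)) hM
    linarith
  · intro b g hg
    exact hT (Sum.inl b) (Finset.mem_image_of_mem _ (Finset.mem_univ b)) g hg

theorem main : ∃ P : Crest.AnalysisR.PointedMetric, P.IsCountableSeparatedUnboundedNonproper ∧
    HasAP P.FreeSpace ∧ ¬ HasBAP P.FreeSpace :=
  ⟨fam.P, fam.isCSUN, fam.hasAP, not_hasBAP⟩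

end Crest.Agent.R115
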