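import Crest.Agent.R115.Defs
import Crest.Agent.R115.RelT

/-!
Task T1: Gabber--Galil / Margulis inequality on `(ZMod N)²`, constant `40² = 1600`.
-/

set_option autoImplicit false

namespace Crest.Agent.R115

open Finset

lemma corr_torus (N : ℕ) [NeZero N] (F : ZMod N × ZMod N → ℝ) (hF : ∑ z, F z = 0) :
    ∑ x, F x * (F (gen N 2 x) + F (gen N 0 (gen N 2 x))) +
      ∑ x, F x * (F (gen N 3 x) + F (gen N 1 (gen N 3 x))) ≤ 3.65 * ∑ x, F x ^ 2 := by
  have hN : (0 : ℝ) < N := by exact_mod_cast Nat.pos_of_ne_zero (NeZero.ne N)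
  set a : ZMod N × ZMod N → Equiv.Perm (ZMod N × ZMod N) := fun n => Equiv.addLeft n with ha
  have H1 := RelT.half F a (gen N 2) (gen N 0 * gen N 2)
    (by
      intro n x
      simp only [ha, gen, Equiv.coe_addLeft, Equiv.coe_fn_mk, Prod.ext_iff, Prod.fst_add,
        Prod.snd_add, and_true]
      ring)
    (by
      intro n x
      simp only [ha, gen, Equiv.Perm.mul_apply, Equiv.coe_addLeft, Equiv.coe_fn_mk, Prod.ext_iff,
        Prod.fst_add, Prod.snd_add, and_true]
      ring)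
  have H2 := RelT.half F (fun n => a (n.2, n.1)) (gen N 3) (gen N 1 * gen N 3)
    (by
      intro n x
      simp only [ha, gen, Equiv.coe_addLeft, Equiv.coe_fn_mk, Prod.ext_iff, Prod.fst_add,
        Prod.snd_add, true_and]
      ring)
    (by
      intro n x
      simp only [ha, gen, Equiv.Perm.mul_apply, Equiv.coe_addLeft, Equiv.coe_fn_mk, Prod.ext_iff,
        Prod.fst_add, Prod.snd_add, true_and]
      ring)
  simp only [Equiv.Perm.mul_apply] at H1 H2
  have hG' : ∀ ξ : ZMod N × ZMod N, RelT.G F (fun n => a (n.2, n.1)) ξ = RelT.G F a (ξ.2, ξ.1) := by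
    intro ξ
    unfold RelT.G
    congr 1
    refine Finset.sum_congr rfl fun x _ => ?_
    congr 2
    unfold RelT.F
    rw [← Equiv.sum_comp (Equiv.prodComm (ZMod N) (ZMod N))]
    refine Finset.sum_congr rfl fun n _ => ?_
    simp only [Equiv.prodComm_apply, Prod.fst_swap, Prod.snd_swap]
    congr 2
    ring
  have R1 : ∑ ξ : ZMod N × ZMod N, RelT.G F a ξ * RelT.G F a (ξ.1, ξ.2 - 2 * ξ.1) *
        (2 * |Real.cos (Real.pi * (ξ.1.val : ℝ) / N)|) =
      ∑ z : ZMod N × ZMod N, RelT.G F a z * RelT.G F a (z.1, z.2 + 2 * z.1) *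
        (2 * |Real.cos (Real.pi * (z.1.val : ℝ) / N)|) := by
    let S : ZMod N × ZMod N ≃ ZMod N × ZMod N :=
      { toFun := fun z => (z.1, z.2 + 2 * z.1)
        invFun := fun z => (z.1, z.2 - 2 * z.1)
        left_inv := fun z => by ext <;> simp
        right_inv := fun z => by ext <;> simp }
    rw [← Equiv.sum_comp S]
    refine Finset.sum_congr rfl fun z _ => ?_
    simp only [S, Equiv.coe_fn_mk, add_sub_cancel_right]
    ring
  have R2 : ∑ ξ : ZMod N × ZMod N, RelT.G F (fun n => a (n.2, n.1)) ξ *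
        RelT.G F (fun n => a (n.2, n.1)) (ξ.1, ξ.2 - 2 * ξ.1) *
        (2 * |Real.cos (Real.pi * (ξ.1.val : ℝ) / N)|) =
      ∑ z : ZMod N × ZMod N, RelT.G F a z * RelT.G F a (z.1 + 2 * z.2, z.2) *
        (2 * |Real.cos (Real.pi * (z.2.val : ℝ) / N)|) := by
    let S : ZMod N × ZMod N ≃ ZMod N × ZMod N :=
      { toFun := fun z => (z.2, z.1 + 2 * z.2)
        invFun := fun z => (z.2 - 2 * z.1, z.1)
        left_inv := fun z => by ext <;> simp
        right_inv := fun z => by ext <;> simp }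
    rw [← Equiv.sum_comp S]
    refine Finset.sum_congr rfl fun z _ => ?_
    simp only [hG', S, Equiv.coe_fn_mk, add_sub_cancel_right]
    ring
  have GG := R137.gabberGalil N (RelT.G F a) (RelT.G_nonneg F a)
  rw [RelT.sum_G_sq, RelT.G_zero_sq] at GG
  have hz : ∀ x : ZMod N × ZMod N, ∑ n : ZMod N × ZMod N, F (a n x) = 0 := by
    intro x
    rw [← hF, ← Equiv.sum_comp (Equiv.addRight x) F]
    rfl
  rw [R1] at H1
  rw [R2] at H2
  simp only [hz] at GG
  have hN4 : (0 : ℝ) < (N : ℝ) ^ 4 := by positivity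
  refine le_of_mul_le_mul_left ?_ hN4
  rw [mul_add]
  refine (add_le_add H1 H2).trans (GG.trans (le_of_eq ?_))
  simp only [Finset.sum_const_zero, ne_eq, OfNat.ofNat_ne_zero, not_false_eq_true, zero_pow, mul_zero, add_zero]
  ring

theorem margulis (N : ℕ) [NeZero N] (F : ZMod N × ZMod N → ℝ) (hF : ∑ z, F z = 0) (E : ℝ)
    (hE : ∀ s : Fin 4, ∑ z, (F (gen N s z) - F z) ^ 2 ≤ E) :
    ∑ z, F z ^ 2 ≤ 1600 * E := by
  have c := corr_torus N F hF
  have v1 := RelT.var_eq F (gen N 2)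
  have v2 := RelT.var_eq F (gen N 0 * gen N 2)
  have v3 := RelT.var_eq F (gen N 3)
  have v4 := RelT.var_eq F (gen N 1 * gen N 3)
  have two : ∀ s t : Equiv.Perm (ZMod N × ZMod N), RelT.var F (s * t) ≤
      2 * RelT.var F s + 2 * RelT.var F t := by
    intro s t
    have h1 := RelT.var_shift F s t
    have h2 : ∀ x, (F ((s * t) x) - F x) ^ 2 ≤
        2 * (F (s (t x)) - F (t x)) ^ 2 + 2 * (F (t x) - F x) ^ 2 := by
      intro x
      rw [Equiv.Perm.mul_apply]
      nlinarith [sq_nonneg ((F (s (t x)) - F (t x)) - (F (t x) - F x))]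
    calc RelT.var F (s * t) ≤ ∑ x, (2 * (F (s (t x)) - F (t x)) ^ 2 + 2 * (F (t x) - F x) ^ 2) :=
          Finset.sum_le_sum fun x _ => h2 x
      _ = _ := by
          rw [Finset.sum_add_distrib, ← Finset.mul_sum, ← Finset.mul_sum, h1]
          rfl
  have w2 := two (gen N 0) (gen N 2)
  have w4 := two (gen N 1) (gen N 3)
  have E0 : RelT.var F (gen N 0) ≤ E := hE 0
  have E1 : RelT.var F (gen N 1) ≤ E := hE 1
  have E2 : RelT.var F (gen N 2) ≤ E := hE 2
  have E3 : RelT.var F (gen N 3) ≤ E := hE 3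
  have n0 := RelT.var_nonneg F (gen N 0)
  simp only [Equiv.Perm.mul_apply] at v2 v4
  simp only [mul_add, Finset.sum_add_distrib] at c
  linarith

end Crest.Agent.R115
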