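import Crest.Agent.R115.Margulis

/-!
Task T2: gap on pairs `G m × G m'`, uniform in `m ≠ m'`, for functions small on mismatched marks.
-/

set_option autoImplicit false

namespace Crest.Agent.R115

open Finset

/-- the equivariant identification -/
noncomputable def pairEquiv {a b : ℕ} (h : Nat.Coprime a b) :
    ZMod (a * b) × ZMod (a * b) ≃ (ZMod a × ZMod a) × (ZMod b × ZMod b) where
  toFun z := (((ZMod.chineseRemainder h z.1).1, (ZMod.chineseRemainder h z.2).1),
    ((ZMod.chineseRemainder h z.1).2, (ZMod.chineseRemainder h z.2).2))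
  invFun z := ((ZMod.chineseRemainder h).symm (z.1.1, z.2.1),
    (ZMod.chineseRemainder h).symm (z.1.2, z.2.2))
  left_inv z := by
    ext <;> simp
  right_inv z := by
    ext <;> simp

lemma pairEquiv_gen {a b : ℕ} (h : Nat.Coprime a b) (s : Fin 4) (z : ZMod (a * b) × ZMod (a * b)) :
    pairEquiv h (gen (a * b) s z) = (gen a s (pairEquiv h z).1, gen b s (pairEquiv h z).2) := by
  have h2 : (ZMod.chineseRemainder h) 2 = (2, 2) := by
    rw [map_ofNat]; rfl
  fin_cases s <;> simp [pairEquiv, gen, h2]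

lemma card_lt (p : ℕ) [NeZero p] :
    (p : ℝ) / 2 ≤ ((univ.filter fun x : ZMod p => 2 * x.val < p).card : ℝ) := by
  have hp : 0 < p := Nat.pos_of_ne_zero (NeZero.ne p)
  have h : (univ.filter fun x : ZMod p => 2 * x.val < p).card =
      ((Finset.range p).filter fun k => 2 * k < p).card := by
    refine Finset.card_bij (fun (a : ZMod p) _ => a.val) ?_ ?_ ?_
    · intro a ha
      simp only [mem_filter, mem_univ, true_and] at ha
      simp only [mem_filter, mem_range]
      exact ⟨ZMod.val_lt a, ha⟩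
    · intro a _ b _ hab; exact ZMod.val_injective p hab
    · intro b hb
      simp only [mem_filter, mem_range] at hb
      refine ⟨(b : ZMod p), ?_, ZMod.val_cast_of_lt hb.1⟩
      simp only [mem_filter, mem_univ, true_and]
      rw [ZMod.val_cast_of_lt hb.1]; exact hb.2
  have h2 : Finset.range ((p + 1) / 2) ⊆ (Finset.range p).filter fun k => 2 * k < p := by
    intro k hk
    simp only [mem_range] at hk
    simp only [mem_filter, mem_range]
    omega
  have h3 := Finset.card_le_card h2
  rw [Finset.card_range] at h3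
  rw [h]
  have h4 : p ≤ 2 * ((Finset.range p).filter fun k => 2 * k < p).card := by omega
  have h5 : (p : ℝ) ≤ 2 * (((Finset.range p).filter fun k => 2 * k < p).card : ℝ) := by
    exact_mod_cast h4
  linarith

lemma card_not_lt (p : ℕ) (hp : 2 ≤ p) [NeZero p] :
    (p : ℝ) / 3 ≤ ((univ.filter fun x : ZMod p => ¬ (2 * x.val < p)).card : ℝ) := by
  have h : (univ.filter fun x : ZMod p => ¬ (2 * x.val < p)).card =
      ((Finset.range p).filter fun k => ¬ (2 * k < p)).card := by
    refine Finset.card_bij (fun (a : ZMod p) _ => a.val) ?_ ?_ ?_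
    · intro a ha
      simp only [mem_filter, mem_univ, true_and] at ha
      simp only [mem_filter, mem_range]
      exact ⟨ZMod.val_lt a, ha⟩
    · intro a _ b _ hab; exact ZMod.val_injective p hab
    · intro b hb
      simp only [mem_filter, mem_range] at hb
      refine ⟨(b : ZMod p), ?_, ZMod.val_cast_of_lt hb.1⟩
      simp only [mem_filter, mem_univ, true_and]
      rw [ZMod.val_cast_of_lt hb.1]; exact hb.2
  have h2 : (Finset.range p) \ (Finset.range ((p + 1) / 2)) ⊆
      (Finset.range p).filter fun k => ¬ (2 * k < p) := by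
    intro k hk
    simp only [mem_sdiff, mem_range] at hk
    simp only [mem_filter, mem_range]
    omega
  have h3 := Finset.card_le_card h2
  rw [Finset.card_sdiff_of_subset (by intro k; simp only [mem_range]; omega), Finset.card_range,
    Finset.card_range] at h3
  rw [h]
  have h4 : p ≤ 3 * ((Finset.range p).filter fun k => ¬ (2 * k < p)).card := by omega
  have h5 : (p : ℝ) ≤ 3 * (((Finset.range p).filter fun k => ¬ (2 * k < p)).card : ℝ) := by
    exact_mod_cast h4
  linarith

lemma card_mark_true (p : ℕ) [NeZero p] :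
    (p : ℝ) ^ 2 / 2 ≤ ((univ.filter fun x : ZMod p × ZMod p => mark p x = true).card : ℝ) := by
  have h : (univ.filter fun x : ZMod p × ZMod p => mark p x = true) =
      (univ.filter fun x : ZMod p => 2 * x.val < p) ×ˢ (univ : Finset (ZMod p)) := by
    ext x
    simp [mark]
  rw [h, Finset.card_product, Finset.card_univ, ZMod.card]
  have := card_lt p
  have hp : (0 : ℝ) < p := by exact_mod_cast Nat.pos_of_ne_zero (NeZero.ne p)
  push_cast
  nlinarith

lemma card_mark_false (p : ℕ) (hp2 : 2 ≤ p) [NeZero p] :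
    (p : ℝ) ^ 2 / 3 ≤ ((univ.filter fun x : ZMod p × ZMod p => mark p x = false).card : ℝ) := by
  have h : (univ.filter fun x : ZMod p × ZMod p => mark p x = false) =
      (univ.filter fun x : ZMod p => ¬ (2 * x.val < p)) ×ˢ (univ : Finset (ZMod p)) := by
    ext x
    simp [mark]
  rw [h, Finset.card_product, Finset.card_univ, ZMod.card]
  have := card_not_lt p hp2
  have hp : (0 : ℝ) < p := by exact_mod_cast Nat.pos_of_ne_zero (NeZero.ne p)
  push_cast
  nlinarith

/-- density of the mismatched pairs -/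
lemma card_mismatch (a b : ℕ) (hb2 : 2 ≤ b) [NeZero a] [NeZero b] :
    ((a : ℝ) * b) ^ 2 / 6 ≤ ((univ.filter fun z : (ZMod a × ZMod a) × (ZMod b × ZMod b) =>
      mark a z.1 ≠ mark b z.2).card : ℝ) := by
  have h : (univ.filter fun x : ZMod a × ZMod a => mark a x = true) ×ˢ
      (univ.filter fun x : ZMod b × ZMod b => mark b x = false) ⊆
      (univ.filter fun z : (ZMod a × ZMod a) × (ZMod b × ZMod b) => mark a z.1 ≠ mark b z.2) := by
    intro z hz
    simp only [mem_product, mem_filter, mem_univ, true_and] at hz ⊢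
    rw [hz.1, hz.2]; simp
  have h2 := Finset.card_le_card h
  rw [Finset.card_product] at h2
  have h3 : ((univ.filter fun x : ZMod a × ZMod a => mark a x = true).card : ℝ) *
    ((univ.filter fun x : ZMod b × ZMod b => mark b x = false).card : ℝ) ≤
    ((univ.filter fun z : (ZMod a × ZMod a) × (ZMod b × ZMod b) =>
      mark a z.1 ≠ mark b z.2).card : ℝ) := by exact_mod_cast h2
  refine le_trans ?_ h3
  have e1 := card_mark_true a
  have e2 := card_mark_false b hb2
  calc ((a : ℝ) * b) ^ 2 / 6 = ((a : ℝ) ^ 2 / 2) * ((b : ℝ) ^ 2 / 3) := by ring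
    _ ≤ _ := mul_le_mul e1 e2 (by positivity) (by positivity)

theorem pair_gap' (a b : ℕ) (hb2 : 2 ≤ b) [NeZero a] [NeZero b] (hab : Nat.Coprime a b)
    (F : (ZMod a × ZMod a) × (ZMod b × ZMod b) → ℝ) (E : ℝ)
    (hE : ∀ s : Fin 4, ∑ z, (F (gen a s z.1, gen b s z.2) - F z) ^ 2 ≤ E)
    (hM : ∑ z : (ZMod a × ZMod a) × (ZMod b × ZMod b) with mark a z.1 ≠ mark b z.2,
      F z ^ 2 ≤ E) :
    ∑ z, F z ^ 2 ≤ 30000 * E := by
  have : NeZero (a * b) := ⟨mul_ne_zero (NeZero.ne a) (NeZero.ne b)⟩
  set Φ := pairEquiv hab with hΦ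
  have hab0 : (0 : ℝ) < (a : ℝ) * b := by
    have h1 : (0 : ℝ) < a := by exact_mod_cast Nat.pos_of_ne_zero (NeZero.ne a)
    have h2 : (0 : ℝ) < b := by exact_mod_cast Nat.pos_of_ne_zero (NeZero.ne b)
    positivity
  set μ : ℝ := (∑ z, F z) / ((a : ℝ) * b) ^ 2 with hμ
  have hcard : (Fintype.card (ZMod (a * b) × ZMod (a * b)) : ℝ) = ((a : ℝ) * b) ^ 2 := by
    rw [Fintype.card_prod, ZMod.card]; push_cast; ring
  have hcard' : (Fintype.card ((ZMod a × ZMod a) × (ZMod b × ZMod b)) : ℝ) = ((a : ℝ) * b) ^ 2 := by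
    rw [← hcard, Fintype.card_congr Φ]
  have hE0 : 0 ≤ E := le_trans (Finset.sum_nonneg fun _ _ => by positivity) hM
  -- apply margulis
  have h1 := margulis (a * b) (fun z => F (Φ z) - μ)
    (by
      rw [Finset.sum_sub_distrib, Equiv.sum_comp Φ F, Finset.sum_const, Finset.card_univ,
        nsmul_eq_mul, hcard, hμ, mul_div_cancel₀ _ (by positivity), sub_self]) E
    (by
      intro s
      refine le_trans (le_of_eq ?_) (hE s)
      rw [← Equiv.sum_comp Φ (fun z => (F (gen a s z.1, gen b s z.2) - F z) ^ 2)]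
      refine Finset.sum_congr rfl fun z _ => ?_
      rw [hΦ, pairEquiv_gen]
      ring)
  rw [Equiv.sum_comp Φ (fun z => (F z - μ) ^ 2)] at h1
  -- the mean
  have h2 : ((a : ℝ) * b) ^ 2 / 6 * μ ^ 2 ≤ 2 * E + 3200 * E := by
    calc ((a : ℝ) * b) ^ 2 / 6 * μ ^ 2 ≤ ((univ.filter fun z : (ZMod a × ZMod a) × (ZMod b × ZMod b) =>
          mark a z.1 ≠ mark b z.2).card : ℝ) * μ ^ 2 :=
          mul_le_mul_of_nonneg_right (card_mismatch a b hb2) (by positivity)
      _ = ∑ z : (ZMod a × ZMod a) × (ZMod b × ZMod b) with mark a z.1 ≠ mark b z.2, μ ^ 2 := by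
          rw [Finset.sum_const, nsmul_eq_mul]
      _ ≤ ∑ z : (ZMod a × ZMod a) × (ZMod b × ZMod b) with mark a z.1 ≠ mark b z.2,
            (2 * F z ^ 2 + 2 * (F z - μ) ^ 2) := by
          refine Finset.sum_le_sum fun z _ => ?_
          nlinarith [sq_nonneg (2 * F z - μ)]
      _ = 2 * (∑ z : (ZMod a × ZMod a) × (ZMod b × ZMod b) with mark a z.1 ≠ mark b z.2, F z ^ 2) +
          2 * ∑ z : (ZMod a × ZMod a) × (ZMod b × ZMod b) with mark a z.1 ≠ mark b z.2,
            (F z - μ) ^ 2 := by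
          rw [Finset.sum_add_distrib, ← Finset.mul_sum, ← Finset.mul_sum]
      _ ≤ 2 * E + 2 * ∑ z, (F z - μ) ^ 2 := by
          have := Finset.sum_le_sum_of_subset_of_nonneg
            (Finset.filter_subset (fun z : (ZMod a × ZMod a) × (ZMod b × ZMod b) =>
              mark a z.1 ≠ mark b z.2) univ)
            (fun z _ _ => sq_nonneg (F z - μ))
          linarith
      _ ≤ 2 * E + 3200 * E := by linarith
  have h3 : ∑ z, F z ^ 2 = ∑ z, (F z - μ) ^ 2 + ((a : ℝ) * b) ^ 2 * μ ^ 2 := by
    have e : ∀ z, F z ^ 2 = (F z - μ) ^ 2 + (2 * μ * F z - μ ^ 2) := fun z => by ring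
    rw [Finset.sum_congr rfl fun z _ => e z, Finset.sum_add_distrib, Finset.sum_sub_distrib,
      ← Finset.mul_sum, Finset.sum_const, Finset.card_univ, nsmul_eq_mul, hcard']
    have : ∑ z, F z = μ * ((a : ℝ) * b) ^ 2 := by
      rw [hμ, div_mul_cancel₀ _ (by positivity)]
    rw [this]; ring
  rw [h3]
  linarith

theorem pair_gap : ∃ C : ℝ, 0 < C ∧ ∀ m m' : ℕ, m ≠ m' → ∀ (F : G m × G m' → ℝ) (E : ℝ),
    (∀ s : Fin 4, ∑ z : G m × G m',
      (F (gen (q m) s z.1, gen (q m') s z.2) - F z) ^ 2 ≤ E) →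
    (∑ z : G m × G m' with mark (q m) z.1 ≠ mark (q m') z.2, F z ^ 2 ≤ E) →
    ∑ z, F z ^ 2 ≤ C * E := by
  refine ⟨30000, by norm_num, fun m m' hm F E h1 h2 => ?_⟩
  have : NeZero (q m) := ⟨(q_prime m).ne_zero⟩
  have : NeZero (q m') := ⟨(q_prime m').ne_zero⟩
  exact pair_gap' (q m) (q m') (q_prime m').two_le
    ((Nat.coprime_primes (q_prime m) (q_prime m')).mpr fun h => hm (q_injective h)) F E h1 h2

end Crest.Agent.R115
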