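import Mathlib

/-!
Relative property (T) type inequality (Gabber-Galil) for four permutations of a finite set.
-/

set_option autoImplicit false

namespace Crest.Agent.R115.RT

open Finset Complex

section Fourier

variable {N : ℕ} [NeZero N]

/-- the pairing of `(ZMod N)^2` with itself -/
def dot (ξ n : ZMod N × ZMod N) : ZMod N := ξ.1 * n.1 + ξ.2 * n.2

omit [NeZero N] in
lemma dot_add_right (ξ n m : ZMod N × ZMod N) : dot ξ (n + m) = dot ξ n + dot ξ m := by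
  simp only [dot, Prod.fst_add, Prod.snd_add]; ring

omit [NeZero N] in
lemma dot_sub_right (ξ n m : ZMod N × ZMod N) : dot ξ (n - m) = dot ξ n - dot ξ m := by
  simp only [dot, Prod.fst_sub, Prod.snd_sub]; ring

lemma sum_char (k : ZMod N × ZMod N) :
    ∑ ξ : ZMod N × ZMod N, (ZMod.stdAddChar (dot ξ k) : ℂ) = if k = 0 then ((N : ℂ) ^ 2) else 0 := by
  have h1 : ∀ b : ZMod N, ∑ x : ZMod N, (ZMod.stdAddChar (x * b) : ℂ)
      = if b = 0 then (N : ℂ) else 0 := by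
    intro b
    have := AddChar.sum_mulShift (R := ZMod N) (R' := ℂ) b (ZMod.isPrimitive_stdAddChar N)
    rw [this]
    simp [ZMod.card]
  have h2 : ∑ ξ : ZMod N × ZMod N, (ZMod.stdAddChar (dot ξ k) : ℂ)
      = (∑ x : ZMod N, (ZMod.stdAddChar (x * k.1) : ℂ)) * (∑ y : ZMod N, (ZMod.stdAddChar (y * k.2) : ℂ)) := by
    rw [Finset.sum_mul_sum, Fintype.sum_prod_type]
    refine Finset.sum_congr rfl fun x _ => Finset.sum_congr rfl fun y _ => ?_
    simp only [dot]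
    rw [AddChar.map_add_eq_mul]
  rw [h2, h1, h1]
  rcases k with ⟨k1, k2⟩
  by_cases hk1 : k1 = 0 <;> by_cases hk2 : k2 = 0 <;> simp [hk1, hk2, sq]

/-- Parseval -/
lemma parseval (a : ZMod N × ZMod N → ℂ) :
    ∑ ξ : ZMod N × ZMod N, normSq (∑ n, ZMod.stdAddChar (-(dot ξ n)) * a n)
      = (N : ℝ) ^ 2 * ∑ n, normSq (a n) := by
  have key : ∀ ξ : ZMod N × ZMod N,
      ((normSq (∑ n, ZMod.stdAddChar (-(dot ξ n)) * a n) : ℝ) : ℂ)
        = ∑ n, ∑ m, ZMod.stdAddChar (dot ξ (m - n)) * (a n * (starRingEnd ℂ) (a m)) := by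
    intro ξ
    rw [normSq_eq_conj_mul_self, map_sum, mul_comm, Finset.sum_mul_sum]
    refine Finset.sum_congr rfl fun n _ => Finset.sum_congr rfl fun m _ => ?_
    rw [map_mul]
    have : (starRingEnd ℂ) (ZMod.stdAddChar (-(dot ξ m)) : ℂ) = ZMod.stdAddChar (dot ξ m) := by
      rw [← AddChar.map_neg_eq_conj, neg_neg]
    rw [this, dot_sub_right, sub_eq_add_neg, AddChar.map_add_eq_mul]
    ring
  have : (((∑ ξ : ZMod N × ZMod N, normSq (∑ n, ZMod.stdAddChar (-(dot ξ n)) * a n)) : ℝ) : ℂ)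
      = (((N : ℝ) ^ 2 * ∑ n, normSq (a n) : ℝ) : ℂ) := by
    rw [Complex.ofReal_sum, Finset.sum_congr rfl (fun ξ _ => key ξ), Finset.sum_comm]
    push_cast
    rw [Finset.mul_sum]
    refine Finset.sum_congr rfl fun n _ => ?_
    rw [Finset.sum_comm]
    have h3 : ∀ m : ZMod N × ZMod N,
        ∑ ξ : ZMod N × ZMod N, ZMod.stdAddChar (dot ξ (m - n)) * (a n * (starRingEnd ℂ) (a m))
          = if m = n then ((N : ℂ) ^ 2) * (a n * (starRingEnd ℂ) (a m)) else 0 := by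
      intro m
      rw [← Finset.sum_mul, sum_char]
      by_cases h : m = n
      · simp [h]
      · simp [h, sub_eq_zero]
    rw [Finset.sum_congr rfl (fun m _ => h3 m), Finset.sum_ite_eq' Finset.univ n]
    simp only [Finset.mem_univ, if_true]
    rw [normSq_eq_conj_mul_self]
    ring
  exact_mod_cast this

end Fourier

section Action

variable {N : ℕ} [NeZero N] {X : Type*} [Fintype X]

/-- Fourier transform along the orbits -/
noncomputable def hat (E : ZMod N × ZMod N → Equiv.Perm X) (f : X → ℝ) (ξ : ZMod N × ZMod N) (x : X) : ℂ :=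
  ∑ n, ZMod.stdAddChar (-(dot ξ n)) * (f (E n x) : ℂ)

/-- spectral mass at `ξ` -/
noncomputable def mass (E : ZMod N × ZMod N → Equiv.Perm X) (f : X → ℝ) (ξ : ZMod N × ZMod N) : ℝ :=
  ∑ x, normSq (hat E f ξ x)

lemma mass_nonneg (E : ZMod N × ZMod N → Equiv.Perm X) (f : X → ℝ) (ξ : ZMod N × ZMod N) :
    0 ≤ mass E f ξ := Finset.sum_nonneg fun _ _ => normSq_nonneg _

lemma sum_perm_sq (σ : Equiv.Perm X) (f : X → ℝ) : ∑ x, (f (σ x)) ^ 2 = ∑ x, (f x) ^ 2 :=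
  Equiv.sum_comp σ (fun x => (f x) ^ 2)

/-- total mass -/
lemma sum_mass (E : ZMod N × ZMod N → Equiv.Perm X) (f : X → ℝ) :
    ∑ ξ, mass E f ξ = (N : ℝ) ^ 4 * ∑ x, (f x) ^ 2 := by
  unfold mass hat
  rw [Finset.sum_comm]
  have h1 : ∀ x : X, ∑ ξ : ZMod N × ZMod N,
      normSq (∑ n, ZMod.stdAddChar (-(dot ξ n)) * (f (E n x) : ℂ))
      = (N : ℝ) ^ 2 * ∑ n, (f (E n x)) ^ 2 := by
    intro x
    rw [parseval (fun n => (f (E n x) : ℂ))]
    congr 1
    refine Finset.sum_congr rfl fun n _ => ?_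
    rw [normSq_ofReal, sq]
  rw [Finset.sum_congr rfl (fun x _ => h1 x), ← Finset.mul_sum, Finset.sum_comm]
  rw [Finset.sum_congr rfl (fun n _ => sum_perm_sq (E n) f)]
  simp only [Finset.sum_const, Finset.card_univ, Fintype.card_prod, ZMod.card, nsmul_eq_mul]
  push_cast
  ring

lemma hat_sub (E : ZMod N × ZMod N → Equiv.Perm X) (f g : X → ℝ) (ξ : ZMod N × ZMod N) (x : X) :
    hat E (fun y => f y - g y) ξ x = hat E f ξ x - hat E g ξ x := by
  unfold hat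
  rw [← Finset.sum_sub_distrib]
  refine Finset.sum_congr rfl fun n _ => ?_
  push_cast
  ring

/-- the pointwise comparison `|b|^2 ≤ (3/2)|a|^2 + 3|a-b|^2` -/
lemma normSq_le (a b : ℂ) : normSq b ≤ (3 / 2) * normSq a + 3 * normSq (a - b) := by
  rw [normSq_apply, normSq_apply, normSq_apply]
  simp only [sub_re, sub_im]
  nlinarith [sq_nonneg (3 * a.re - 2 * b.re), sq_nonneg (3 * a.im - 2 * b.im)]

lemma mass_le (E : ZMod N × ZMod N → Equiv.Perm X) (f g : X → ℝ) (ξ : ZMod N × ZMod N) :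
    mass E g ξ ≤ (3 / 2) * mass E f ξ + 3 * mass E (fun y => f y - g y) ξ := by
  unfold mass
  rw [Finset.mul_sum, Finset.mul_sum, ← Finset.sum_add_distrib]
  refine Finset.sum_le_sum fun x _ => ?_
  rw [hat_sub]
  exact normSq_le _ _

variable (E : ZMod N × ZMod N → Equiv.Perm X)

/-- mean over the orbits -/
noncomputable def mean (f : X → ℝ) (x : X) : ℝ := (∑ n, f (E n x)) / (N : ℝ) ^ 2

lemma hat_zero (f : X → ℝ) (x : X) : hat E f 0 x = ((N : ℝ) ^ 2 * mean E f x : ℝ) := by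
  have hN : (N : ℝ) ^ 2 ≠ 0 := pow_ne_zero _ (Nat.cast_ne_zero.mpr (NeZero.ne N))
  unfold hat mean
  rw [mul_div_cancel₀ _ hN]
  push_cast
  refine Finset.sum_congr rfl fun n _ => ?_
  simp [dot]

lemma hat_comp_perm (T : Equiv.Perm X) (A : ZMod N × ZMod N ≃ ZMod N × ZMod N)
    (A' : ZMod N × ZMod N → ZMod N × ZMod N)
    (hT : ∀ n, T * E n = E (A n) * T) (hA : ∀ ξ n, dot ξ n = dot (A' ξ) (A n))
    (f : X → ℝ) (ξ : ZMod N × ZMod N) (x : X) :
    hat E (fun y => f (T y)) ξ x = hat E f (A' ξ) (T x) := by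
  unfold hat
  rw [← Equiv.sum_comp A (fun n => ZMod.stdAddChar (-(dot (A' ξ) n)) * (f (E n (T x)) : ℂ))]
  refine Finset.sum_congr rfl fun n _ => ?_
  have : T (E n x) = E (A n) (T x) := by
    rw [← Equiv.Perm.mul_apply, hT, Equiv.Perm.mul_apply]
  simp only []
  rw [this, hA]

lemma mass_comp_perm (T : Equiv.Perm X) (A : ZMod N × ZMod N ≃ ZMod N × ZMod N)
    (A' : ZMod N × ZMod N → ZMod N × ZMod N)
    (hT : ∀ n, T * E n = E (A n) * T) (hA : ∀ ξ n, dot ξ n = dot (A' ξ) (A n))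
    (f : X → ℝ) (ξ : ZMod N × ZMod N) :
    mass E (fun y => f (T y)) ξ = mass E f (A' ξ) := by
  unfold mass
  rw [← Equiv.sum_comp T (fun x => normSq (hat E f (A' ξ) x))]
  refine Finset.sum_congr rfl fun x _ => ?_
  rw [hat_comp_perm E T A A' hT hA]

lemma hat_translate (hE : ∀ n m, E (n + m) = E n * E m) (m : ZMod N × ZMod N) (f : X → ℝ)
    (ξ : ZMod N × ZMod N) (x : X) :
    hat E (fun y => f (E m y)) ξ x = ZMod.stdAddChar (dot ξ m) * hat E f ξ x := by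
  unfold hat
  rw [← Equiv.sum_comp (Equiv.addLeft m) (fun n => ZMod.stdAddChar (-(dot ξ n)) * (f (E n x) : ℂ)),
    Finset.mul_sum]
  refine Finset.sum_congr rfl fun n _ => ?_
  simp only [Equiv.coe_addLeft]
  rw [hE, Equiv.Perm.mul_apply, dot_add_right, ← mul_assoc, ← AddChar.map_add_eq_mul]
  congr 2
  ring_nf

lemma mass_translate_sub (hE : ∀ n m, E (n + m) = E n * E m) (m : ZMod N × ZMod N) (f : X → ℝ)
    (ξ : ZMod N × ZMod N) :
    mass E (fun y => f (E m y) - f y) ξ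
      = normSq ((ZMod.stdAddChar (dot ξ m) : ℂ) - 1) * mass E f ξ := by
  unfold mass
  rw [Finset.mul_sum]
  refine Finset.sum_congr rfl fun x _ => ?_
  rw [hat_sub, hat_translate E hE, ← normSq_mul]
  congr 1
  ring

lemma mean_invariant (hE : ∀ n m, E (n + m) = E n * E m) (m : ZMod N × ZMod N) (f : X → ℝ) (x : X) :
    mean E f (E m x) = mean E f x := by
  unfold mean
  congr 1
  rw [← Equiv.sum_comp (Equiv.addRight m) (fun n => f (E n x))]
  refine Finset.sum_congr rfl fun n _ => ?_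
  simp only [Equiv.coe_addRight]
  rw [hE, Equiv.Perm.mul_apply]

lemma sum_mul_mean (hE : ∀ n m, E (n + m) = E n * E m) (f : X → ℝ) :
    ∑ x, f x * mean E f x = ∑ x, (mean E f x) ^ 2 := by
  have hN : (N : ℝ) ^ 2 ≠ 0 := pow_ne_zero _ (Nat.cast_ne_zero.mpr (NeZero.ne N))
  have h1 : ∀ n : ZMod N × ZMod N, ∑ x, f x * mean E f x = ∑ x, f (E n x) * mean E f x := by
    intro n
    rw [← Equiv.sum_comp (E n) (fun x => f x * mean E f x)]
    refine Finset.sum_congr rfl fun x _ => ?_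
    rw [mean_invariant E hE]
  have h2 : (N : ℝ) ^ 2 * ∑ x, f x * mean E f x = (N : ℝ) ^ 2 * ∑ x, (mean E f x) ^ 2 := by
    have : (N : ℝ) ^ 2 * ∑ x, f x * mean E f x
        = ∑ n : ZMod N × ZMod N, ∑ x, f (E n x) * mean E f x := by
      rw [← Finset.sum_congr rfl (fun n _ => h1 n)]
      simp only [Finset.sum_const, Finset.card_univ, Fintype.card_prod, ZMod.card, nsmul_eq_mul]
      push_cast
      ring
    rw [this, Finset.sum_comm, Finset.mul_sum]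
    refine Finset.sum_congr rfl fun x _ => ?_
    rw [← Finset.sum_mul]
    have : ∑ n, f (E n x) = (N : ℝ) ^ 2 * mean E f x := by
      unfold mean; rw [mul_div_cancel₀ _ hN]
    rw [this]
    ring
  exact mul_left_cancel₀ hN h2

lemma sum_sub_mean_sq (hE : ∀ n m, E (n + m) = E n * E m) (f : X → ℝ) :
    ∑ x, (f x - mean E f x) ^ 2 = ∑ x, (f x) ^ 2 - ∑ x, (mean E f x) ^ 2 := by
  have : ∑ x, (f x - mean E f x) ^ 2
      = ∑ x, (f x) ^ 2 - 2 * (∑ x, f x * mean E f x) + ∑ x, (mean E f x) ^ 2 := by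
    rw [Finset.mul_sum, ← Finset.sum_sub_distrib, ← Finset.sum_add_distrib]
    refine Finset.sum_congr rfl fun x _ => ?_
    ring
  rw [this, sum_mul_mean E hE]
  ring

lemma sum_mass_erase (hE : ∀ n m, E (n + m) = E n * E m) (f : X → ℝ) :
    ∑ ξ ∈ Finset.univ.erase (0 : ZMod N × ZMod N), mass E f ξ
      = (N : ℝ) ^ 4 * ∑ x, (f x - mean E f x) ^ 2 := by
  have h0 : mass E f 0 = (N : ℝ) ^ 4 * ∑ x, (mean E f x) ^ 2 := by
    unfold mass
    rw [Finset.mul_sum]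
    refine Finset.sum_congr rfl fun x _ => ?_
    rw [hat_zero, normSq_ofReal]
    ring
  have h1 := Finset.add_sum_erase Finset.univ (mass E f) (Finset.mem_univ (0 : ZMod N × ZMod N))
  rw [sum_mass] at h1
  rw [sum_sub_mean_sq E hE]
  linarith

end Action

section Cones

variable {N : ℕ} [NeZero N]

/-- inverse of the dual of `T1` -/
def Ai (ξ : ZMod N × ZMod N) : ZMod N × ZMod N := (ξ.1, ξ.2 + ξ.1)
/-- inverse of the dual of `T2` -/
def Bi (ξ : ZMod N × ZMod N) : ZMod N × ZMod N := (ξ.1 + ξ.2, ξ.2)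
/-- dual of `T1` -/
def Ad (ξ : ZMod N × ZMod N) : ZMod N × ZMod N := (ξ.1, ξ.2 - ξ.1)
/-- dual of `T2` -/
def Bd (ξ : ZMod N × ZMod N) : ZMod N × ZMod N := (ξ.1 - ξ.2, ξ.2)

/-- the cone `Q` -/
def Q (ξ : ZMod N × ZMod N) : Prop := 0 ≤ ξ.1.valMinAbs * ξ.2.valMinAbs ∧ ξ.1.valMinAbs ≠ 0
/-- the cone `Q'` -/
def Q' (ξ : ZMod N × ZMod N) : Prop := ξ.1.valMinAbs * ξ.2.valMinAbs ≤ 0 ∧ ξ.2.valMinAbs ≠ 0
/-- the box -/
def Bx (ξ : ZMod N × ZMod N) : Prop := 4 * |ξ.1.valMinAbs| < N ∧ 4 * |ξ.2.valMinAbs| < N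

lemma vma_add {a b : ZMod N} (ha : 4 * |a.valMinAbs| < N) (hb : 4 * |b.valMinAbs| < N) :
    (a + b).valMinAbs = a.valMinAbs + b.valMinAbs := by
  rw [ZMod.valMinAbs_spec]
  constructor
  · push_cast
    first
      | rfl
      | rw [ZMod.coe_valMinAbs, ZMod.coe_valMinAbs]
  · constructor
    · have := neg_abs_le a.valMinAbs
      have := neg_abs_le b.valMinAbs
      omega
    · have := le_abs_self a.valMinAbs
      have := le_abs_self b.valMinAbs
      omega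

lemma vma_sub {a b : ZMod N} (ha : 4 * |a.valMinAbs| < N) (hb : 4 * |b.valMinAbs| < N) :
    (a - b).valMinAbs = a.valMinAbs - b.valMinAbs := by
  rw [ZMod.valMinAbs_spec]
  constructor
  · push_cast
    first
      | rfl
      | rw [ZMod.coe_valMinAbs, ZMod.coe_valMinAbs]
  · constructor
    · have := neg_abs_le a.valMinAbs
      have := le_abs_self b.valMinAbs
      omega
    · have := le_abs_self a.valMinAbs
      have := neg_abs_le b.valMinAbs
      omega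

lemma Ai_mem {ξ : ZMod N × ZMod N} (h : Q ξ) (hb : Bx ξ) :
    Q (Ai ξ) ∧ |(Ai ξ).1.valMinAbs| ≤ |(Ai ξ).2.valMinAbs| := by
  obtain ⟨h1, h2⟩ := h
  unfold Q Ai
  simp only []
  rw [vma_add hb.2 hb.1]
  set a := ξ.1.valMinAbs
  set b := ξ.2.valMinAbs
  refine ⟨⟨by nlinarith [mul_self_nonneg a], h2⟩, ?_⟩
  rcases lt_or_gt_of_ne h2 with ha | ha
  · have : b ≤ 0 := by nlinarith
    rw [abs_of_neg ha, abs_of_neg (by linarith)]; linarith
  · have : 0 ≤ b := by nlinarith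
    rw [abs_of_pos ha, abs_of_pos (by linarith)]; linarith

lemma Bi_mem {ξ : ZMod N × ZMod N} (h : Q ξ) (hb : Bx ξ) :
    Q (Bi ξ) ∧ |(Bi ξ).2.valMinAbs| < |(Bi ξ).1.valMinAbs| := by
  obtain ⟨h1, h2⟩ := h
  unfold Q Bi
  simp only []
  rw [vma_add hb.1 hb.2]
  set a := ξ.1.valMinAbs
  set b := ξ.2.valMinAbs
  rcases lt_or_gt_of_ne h2 with ha | ha
  · have : b ≤ 0 := by nlinarith
    refine ⟨⟨by nlinarith [mul_self_nonneg b], by omega⟩, ?_⟩
    rw [abs_of_nonpos this, abs_of_neg (by linarith)]; linarith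
  · have : 0 ≤ b := by nlinarith
    refine ⟨⟨by nlinarith [mul_self_nonneg b], by omega⟩, ?_⟩
    rw [abs_of_nonneg this, abs_of_pos (by linarith)]; linarith

lemma Ad_mem {ξ : ZMod N × ZMod N} (h : Q' ξ) (hb : Bx ξ) :
    Q' (Ad ξ) ∧ |(Ad ξ).1.valMinAbs| < |(Ad ξ).2.valMinAbs| := by
  obtain ⟨h1, h2⟩ := h
  unfold Q' Ad
  simp only []
  rw [vma_sub hb.2 hb.1]
  set a := ξ.1.valMinAbs
  set b := ξ.2.valMinAbs
  rcases lt_or_gt_of_ne h2 with ha | ha
  · have : 0 ≤ a := by nlinarith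
    refine ⟨⟨by nlinarith [mul_self_nonneg a], by omega⟩, ?_⟩
    rw [abs_of_nonneg this, abs_of_neg (by linarith)]; linarith
  · have : a ≤ 0 := by nlinarith
    refine ⟨⟨by nlinarith [mul_self_nonneg a], by omega⟩, ?_⟩
    rw [abs_of_nonpos this, abs_of_pos (by linarith)]; linarith

lemma Bd_mem {ξ : ZMod N × ZMod N} (h : Q' ξ) (hb : Bx ξ) :
    Q' (Bd ξ) ∧ |(Bd ξ).2.valMinAbs| ≤ |(Bd ξ).1.valMinAbs| := by
  obtain ⟨h1, h2⟩ := h
  unfold Q' Bd
  simp only []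
  rw [vma_sub hb.1 hb.2]
  set a := ξ.1.valMinAbs
  set b := ξ.2.valMinAbs
  refine ⟨⟨by nlinarith [mul_self_nonneg b], h2⟩, ?_⟩
  rcases lt_or_gt_of_ne h2 with ha | ha
  · have : 0 ≤ a := by nlinarith
    rw [abs_of_neg ha, abs_of_pos (by linarith)]; linarith
  · have : a ≤ 0 := by nlinarith
    rw [abs_of_pos ha, abs_of_neg (by linarith)]; linarith

lemma Q_or_Q' {ξ : ZMod N × ZMod N} (h : ξ ≠ 0) : Q ξ ∨ Q' ξ := by
  unfold Q Q'
  rcases ξ with ⟨x, y⟩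
  simp only []
  by_cases hx : x.valMinAbs = 0
  · right
    rw [hx]
    refine ⟨by simp, ?_⟩
    intro hy
    apply h
    rw [ZMod.valMinAbs_eq_zero] at hx hy
    rw [hx, hy]; rfl
  · by_cases hy : y.valMinAbs = 0
    · left
      rw [hy]
      exact ⟨by simp, hx⟩
    · rcases le_total 0 (x.valMinAbs * y.valMinAbs) with h' | h'
      · left; exact ⟨h', hx⟩
      · right; exact ⟨h', hy⟩

/-- outside of the box one of the two characters is far from `1` -/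
lemma char_far {a : ZMod N} (h : ¬ (4 * |a.valMinAbs| < N)) :
    2 ≤ normSq ((ZMod.stdAddChar a : ℂ) - 1) := by
  have hN : (0 : ℝ) < N := Nat.cast_pos.mpr (NeZero.pos N)
  have hN' : (0 : ℤ) < N := by exact_mod_cast NeZero.pos N
  set v : ℤ := a.valMinAbs with hv
  have hIoc := a.valMinAbs_mem_Ioc
  rw [← hv] at hIoc
  set θ : ℝ := 2 * Real.pi * v / N with hθ
  have hc : (ZMod.stdAddChar a : ℂ) = Complex.exp ((θ : ℂ) * I) := by
    conv_lhs => rw [← ZMod.coe_valMinAbs a, ← hv]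
    rw [ZMod.stdAddChar_coe]
    congr 1
    rw [hθ]
    push_cast
    ring
  have hre : (ZMod.stdAddChar a : ℂ).re = Real.cos θ := by
    rw [hc, Complex.exp_ofReal_mul_I_re]
  have him : (ZMod.stdAddChar a : ℂ).im = Real.sin θ := by
    rw [hc, Complex.exp_ofReal_mul_I_im]
  have hcos : Real.cos θ ≤ 0 := by
    rw [← Real.cos_abs]
    have habs : |θ| = 2 * Real.pi * |(v : ℝ)| / N := by
      rw [hθ, abs_div, abs_mul, abs_mul, abs_of_pos hN, abs_of_pos Real.pi_pos]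
      norm_num
    have h1 : (N : ℝ) ≤ 4 * |(v : ℝ)| := by
      have : (N : ℤ) ≤ 4 * |v| := by omega
      exact_mod_cast this
    have h2 : 2 * |(v : ℝ)| ≤ N := by
      have : 2 * |v| ≤ (N : ℤ) := by
        have h3 := hIoc.1
        have h4 := hIoc.2
        rcases abs_cases v with ⟨h, _⟩ | ⟨h, _⟩ <;> omega
      exact_mod_cast this
    apply Real.cos_nonpos_of_pi_div_two_le_of_le
    · rw [habs, le_div_iff₀ hN]
      nlinarith [Real.pi_pos]
    · rw [habs, div_le_iff₀ hN]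
      nlinarith [Real.pi_pos]
  rw [normSq_apply]
  simp only [sub_re, sub_im, one_re, one_im, hre, him]
  nlinarith [Real.sin_sq_add_cos_sq θ]

lemma Ad_Ai (ξ : ZMod N × ZMod N) : Ad (Ai ξ) = ξ := by
  unfold Ad Ai; ext <;> simp
lemma Ai_Ad (ξ : ZMod N × ZMod N) : Ai (Ad ξ) = ξ := by
  unfold Ad Ai; ext <;> simp
lemma Bd_Bi (ξ : ZMod N × ZMod N) : Bd (Bi ξ) = ξ := by
  unfold Bd Bi; ext <;> simp
lemma Bi_Bd (ξ : ZMod N × ZMod N) : Bi (Bd ξ) = ξ := by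
  unfold Bd Bi; ext <;> simp

lemma Ai_inj : Function.Injective (Ai : ZMod N × ZMod N → _) :=
  Function.LeftInverse.injective Ad_Ai
lemma Ad_inj : Function.Injective (Ad : ZMod N × ZMod N → _) :=
  Function.LeftInverse.injective Ai_Ad
lemma Bi_inj : Function.Injective (Bi : ZMod N × ZMod N → _) :=
  Function.LeftInverse.injective Bd_Bi
lemma Bd_inj : Function.Injective (Bd : ZMod N × ZMod N → _) :=
  Function.LeftInverse.injective Bi_Bd

end Cones

section Main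

open Classical

variable {N : ℕ} [NeZero N] {X : Type*} [Fintype X]

/-- abstract doubling step -/
lemma doubling (m : ZMod N × ZMod N → ℝ) (hm : ∀ ξ, 0 ≤ m ξ) (R : ZMod N × ZMod N → Prop)
    (a b : ZMod N × ZMod N → ZMod N × ZMod N) (ha : Function.Injective a) (hb : Function.Injective b)
    (haR : ∀ ξ, R ξ → Bx ξ → R (a ξ)) (hbR : ∀ ξ, R ξ → Bx ξ → R (b ξ))
    (hab : ∀ ξ η, R ξ → Bx ξ → R η → Bx η → a ξ ≠ b η)
    (da db : ZMod N × ZMod N → ℝ) (hda : ∀ ξ, 0 ≤ da ξ) (hdb : ∀ ξ, 0 ≤ db ξ)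
    (h1 : ∀ ξ, m ξ ≤ (3 / 2) * m (a ξ) + 3 * da (a ξ))
    (h2 : ∀ ξ, m ξ ≤ (3 / 2) * m (b ξ) + 3 * db (b ξ)) :
    ∑ ξ ∈ univ.filter R, m ξ ≤ 4 * ∑ ξ ∈ univ.filter (fun ξ => ¬ Bx ξ), m ξ
      + 6 * ∑ ξ, da ξ + 6 * ∑ ξ, db ξ := by
  set S := univ.filter (fun ξ : ZMod N × ZMod N => R ξ ∧ Bx ξ) with hS
  have e1 : ∑ ξ ∈ S, m ξ ≤ (3 / 2) * ∑ ξ ∈ S, m (a ξ) + 3 * ∑ ξ, da ξ := by
    calc ∑ ξ ∈ S, m ξ ≤ ∑ ξ ∈ S, ((3 / 2) * m (a ξ) + 3 * da (a ξ)) :=
          Finset.sum_le_sum fun ξ _ => h1 ξ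
      _ = (3 / 2) * ∑ ξ ∈ S, m (a ξ) + 3 * ∑ ξ ∈ S, da (a ξ) := by
          rw [Finset.sum_add_distrib, Finset.mul_sum, Finset.mul_sum]
      _ ≤ _ := by
          have : ∑ ξ ∈ S, da (a ξ) ≤ ∑ ξ, da ξ := by
            rw [← Finset.sum_image (f := da) (g := a) (fun x _ y _ h => ha h)]
            exact Finset.sum_le_sum_of_subset_of_nonneg (Finset.subset_univ _) fun _ _ _ => hda _
          linarith
  have e2 : ∑ ξ ∈ S, m ξ ≤ (3 / 2) * ∑ ξ ∈ S, m (b ξ) + 3 * ∑ ξ, db ξ := by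
    calc ∑ ξ ∈ S, m ξ ≤ ∑ ξ ∈ S, ((3 / 2) * m (b ξ) + 3 * db (b ξ)) :=
          Finset.sum_le_sum fun ξ _ => h2 ξ
      _ = (3 / 2) * ∑ ξ ∈ S, m (b ξ) + 3 * ∑ ξ ∈ S, db (b ξ) := by
          rw [Finset.sum_add_distrib, Finset.mul_sum, Finset.mul_sum]
      _ ≤ _ := by
          have : ∑ ξ ∈ S, db (b ξ) ≤ ∑ ξ, db ξ := by
            rw [← Finset.sum_image (f := db) (g := b) (fun x _ y _ h => hb h)]
            exact Finset.sum_le_sum_of_subset_of_nonneg (Finset.subset_univ _) fun _ _ _ => hdb _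
          linarith
  have e3 : ∑ ξ ∈ S, m (a ξ) + ∑ ξ ∈ S, m (b ξ) ≤ ∑ ξ ∈ univ.filter R, m ξ := by
    rw [← Finset.sum_image (f := m) (g := a) (fun x _ y _ h => ha h),
      ← Finset.sum_image (f := m) (g := b) (fun x _ y _ h => hb h), ← Finset.sum_union]
    · apply Finset.sum_le_sum_of_subset_of_nonneg
      · intro η hη
        rw [Finset.mem_union, Finset.mem_image, Finset.mem_image] at hη
        rw [Finset.mem_filter]
        refine ⟨Finset.mem_univ _, ?_⟩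
        rcases hη with ⟨ξ, hξ, rfl⟩ | ⟨ξ, hξ, rfl⟩
        · rw [hS, Finset.mem_filter] at hξ
          exact haR ξ hξ.2.1 hξ.2.2
        · rw [hS, Finset.mem_filter] at hξ
          exact hbR ξ hξ.2.1 hξ.2.2
      · exact fun _ _ _ => hm _
    · rw [Finset.disjoint_left]
      intro η hη hη'
      rw [Finset.mem_image] at hη hη'
      obtain ⟨ξ, hξ, rfl⟩ := hη
      obtain ⟨ζ, hζ, hz⟩ := hη'
      rw [hS, Finset.mem_filter] at hξ hζ
      exact hab ξ ζ hξ.2.1 hξ.2.2 hζ.2.1 hζ.2.2 hz.symm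
  have e4 : ∑ ξ ∈ univ.filter R, m ξ ≤ ∑ ξ ∈ S, m ξ + ∑ ξ ∈ univ.filter (fun ξ => ¬ Bx ξ), m ξ := by
    rw [← Finset.sum_filter_add_sum_filter_not (univ.filter R) Bx, Finset.filter_filter, ← hS]
    have : ∑ ξ ∈ (univ.filter R).filter (fun ξ => ¬ Bx ξ), m ξ
        ≤ ∑ ξ ∈ univ.filter (fun ξ => ¬ Bx ξ), m ξ := by
      apply Finset.sum_le_sum_of_subset_of_nonneg
      · intro ξ hξ
        rw [Finset.mem_filter] at hξ ⊢
        exact ⟨Finset.mem_univ _, hξ.2⟩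
      · exact fun _ _ _ => hm _
    linarith
  linarith

/-- The relative property (T) inequality (Gabber-Galil). -/
theorem rt (E : ZMod N × ZMod N → Equiv.Perm X) (hE : ∀ n m, E (n + m) = E n * E m)
    (T1 T2 : Equiv.Perm X) (hT1 : ∀ n, T1 * E n = E (n.1 + n.2, n.2) * T1)
    (hT2 : ∀ n, T2 * E n = E (n.1, n.2 + n.1) * T2) (f : X → ℝ) :
    ∑ x, (f x - mean E f x) ^ 2 ≤ 12 * (∑ x, (f (T1 x) - f x) ^ 2 + ∑ x, (f (T2 x) - f x) ^ 2
      + ∑ x, (f (E (1, 0) x) - f x) ^ 2 + ∑ x, (f (E (0, 1) x) - f x) ^ 2) := by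
  have hN : (0 : ℝ) < (N : ℝ) ^ 4 := pow_pos (Nat.cast_pos.mpr (NeZero.pos N)) _
  have m1 : ∀ ξ, mass E (fun y => f (T1 y)) ξ = mass E f (Ad ξ) := by
    refine mass_comp_perm E T1 ⟨fun n => (n.1 + n.2, n.2), fun n => (n.1 - n.2, n.2), ?_, ?_⟩ Ad
      hT1 ?_ f
    · intro n; ext <;> simp
    · intro n; ext <;> simp
    · intro ξ n; simp only [dot, Ad, Equiv.coe_fn_mk]; ring
  have m2 : ∀ ξ, mass E (fun y => f (T2 y)) ξ = mass E f (Bd ξ) := by
    refine mass_comp_perm E T2 ⟨fun n => (n.1, n.2 + n.1), fun n => (n.1, n.2 - n.1), ?_, ?_⟩ Bd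
      hT2 ?_ f
    · intro n; ext <;> simp
    · intro n; ext <;> simp
    · intro ξ n; simp only [dot, Bd, Equiv.coe_fn_mk]; ring
  set d1 : ZMod N × ZMod N → ℝ := mass E (fun y => f y - f (T1 y)) with hd1
  set d2 : ZMod N × ZMod N → ℝ := mass E (fun y => f y - f (T2 y)) with hd2
  have hd1' : ∀ ξ, 0 ≤ d1 ξ := fun ξ => mass_nonneg _ _ _
  have hd2' : ∀ ξ, 0 ≤ d2 ξ := fun ξ => mass_nonneg _ _ _
  have s1 : ∑ ξ, d1 ξ = (N : ℝ) ^ 4 * ∑ x, (f (T1 x) - f x) ^ 2 := by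
    rw [hd1, sum_mass]
    congr 1
    refine Finset.sum_congr rfl fun x _ => ?_
    ring
  have s2 : ∑ ξ, d2 ξ = (N : ℝ) ^ 4 * ∑ x, (f (T2 x) - f x) ^ 2 := by
    rw [hd2, sum_mass]
    congr 1
    refine Finset.sum_congr rfl fun x _ => ?_
    ring
  -- comparison inequalities
  have c1 : ∀ η, mass E f (Ad η) ≤ (3 / 2) * mass E f η + 3 * d1 η := by
    intro η
    rw [← m1]
    exact mass_le E f (fun y => f (T1 y)) η
  have c2 : ∀ η, mass E f (Bd η) ≤ (3 / 2) * mass E f η + 3 * d2 η := by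
    intro η
    rw [← m2]
    exact mass_le E f (fun y => f (T2 y)) η
  have c1' : ∀ η, mass E f η ≤ (3 / 2) * mass E f (Ad η) + 3 * d1 η := by
    intro η
    rw [← m1]
    have := mass_le E (fun y => f (T1 y)) f η
    have h3 : mass E (fun y => f (T1 y) - f y) η = d1 η := by
      rw [hd1]
      unfold mass
      refine Finset.sum_congr rfl fun x _ => ?_
      rw [hat_sub, hat_sub, ← normSq_neg]
      congr 1
      ring
    rw [h3] at this
    exact this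
  have c2' : ∀ η, mass E f η ≤ (3 / 2) * mass E f (Bd η) + 3 * d2 η := by
    intro η
    rw [← m2]
    have := mass_le E (fun y => f (T2 y)) f η
    have h3 : mass E (fun y => f (T2 y) - f y) η = d2 η := by
      rw [hd2]
      unfold mass
      refine Finset.sum_congr rfl fun x _ => ?_
      rw [hat_sub, hat_sub, ← normSq_neg]
      congr 1
      ring
    rw [h3] at this
    exact this
  have hQ : ∑ ξ ∈ univ.filter Q, mass E f ξ ≤ 4 * ∑ ξ ∈ univ.filter (fun ξ => ¬ Bx ξ), mass E f ξ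
      + 6 * ∑ ξ, d1 ξ + 6 * ∑ ξ, d2 ξ := by
    refine doubling (mass E f) (mass_nonneg E f) Q Ai Bi Ai_inj Bi_inj
      (fun ξ h hb => (Ai_mem h hb).1) (fun ξ h hb => (Bi_mem h hb).1) ?_ d1 d2 hd1' hd2' ?_ ?_
    · intro ξ η h1 h2 h3 h4 heq
      have := (Ai_mem h1 h2).2
      have := (Bi_mem h3 h4).2
      rw [heq] at *
      omega
    · intro ξ; have := c1 (Ai ξ); rwa [Ad_Ai] at this
    · intro ξ; have := c2 (Bi ξ); rwa [Bd_Bi] at this
  have hQ' : ∑ ξ ∈ univ.filter Q', mass E f ξ ≤ 4 * ∑ ξ ∈ univ.filter (fun ξ => ¬ Bx ξ), mass E f ξ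
      + 6 * ∑ ξ, d1 ξ + 6 * ∑ ξ, d2 ξ := by
    have t1 : ∑ ξ, d1 (Ai ξ) = ∑ ξ, d1 ξ :=
      Equiv.sum_comp (⟨Ai, Ad, Ad_Ai, Ai_Ad⟩ : ZMod N × ZMod N ≃ ZMod N × ZMod N) d1
    have t2 : ∑ ξ, d2 (Bi ξ) = ∑ ξ, d2 ξ :=
      Equiv.sum_comp (⟨Bi, Bd, Bd_Bi, Bi_Bd⟩ : ZMod N × ZMod N ≃ ZMod N × ZMod N) d2
    have := doubling (mass E f) (mass_nonneg E f) Q' Ad Bd Ad_inj Bd_inj
      (fun ξ h hb => (Ad_mem h hb).1) (fun ξ h hb => (Bd_mem h hb).1) ?_
      (fun ξ => d1 (Ai ξ)) (fun ξ => d2 (Bi ξ)) (fun _ => hd1' _) (fun _ => hd2' _) ?_ ?_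
    · rw [t1, t2] at this
      exact this
    · intro ξ η h1 h2 h3 h4 heq
      have := (Ad_mem h1 h2).2
      have := (Bd_mem h3 h4).2
      rw [heq] at *
      omega
    · intro ξ; simp only [Ai_Ad]; exact c1' ξ
    · intro ξ; simp only [Bi_Bd]; exact c2' ξ
  -- translations
  have tr1 : 2 * ∑ ξ ∈ univ.filter (fun ξ : ZMod N × ZMod N => ¬ (4 * |ξ.1.valMinAbs| < N)), mass E f ξ
      ≤ (N : ℝ) ^ 4 * ∑ x, (f (E (1, 0) x) - f x) ^ 2 := by
    rw [← sum_mass, Finset.mul_sum]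
    refine le_trans (Finset.sum_le_sum (g := fun ξ => mass E (fun y => f (E (1, 0) y) - f y) ξ) ?_) ?_
    · intro ξ hξ
      rw [mass_translate_sub E hE]
      apply mul_le_mul_of_nonneg_right _ (mass_nonneg _ _ _)
      rw [Finset.mem_filter] at hξ
      have : dot ξ (1, 0) = ξ.1 := by simp [dot]
      rw [this]
      exact char_far hξ.2
    · exact Finset.sum_le_sum_of_subset_of_nonneg (Finset.subset_univ _) fun _ _ _ => mass_nonneg _ _ _
  have tr2 : 2 * ∑ ξ ∈ univ.filter (fun ξ : ZMod N × ZMod N => ¬ (4 * |ξ.2.valMinAbs| < N)), mass E f ξ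
      ≤ (N : ℝ) ^ 4 * ∑ x, (f (E (0, 1) x) - f x) ^ 2 := by
    rw [← sum_mass, Finset.mul_sum]
    refine le_trans (Finset.sum_le_sum (g := fun ξ => mass E (fun y => f (E (0, 1) y) - f y) ξ) ?_) ?_
    · intro ξ hξ
      rw [mass_translate_sub E hE]
      apply mul_le_mul_of_nonneg_right _ (mass_nonneg _ _ _)
      rw [Finset.mem_filter] at hξ
      have : dot ξ (0, 1) = ξ.2 := by simp [dot]
      rw [this]
      exact char_far hξ.2
    · exact Finset.sum_le_sum_of_subset_of_nonneg (Finset.subset_univ _) fun _ _ _ => mass_nonneg _ _ _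
  have hB : ∑ ξ ∈ univ.filter (fun ξ : ZMod N × ZMod N => ¬ Bx ξ), mass E f ξ
      ≤ ∑ ξ ∈ univ.filter (fun ξ : ZMod N × ZMod N => ¬ (4 * |ξ.1.valMinAbs| < N)), mass E f ξ
        + ∑ ξ ∈ univ.filter (fun ξ : ZMod N × ZMod N => ¬ (4 * |ξ.2.valMinAbs| < N)), mass E f ξ := by
    refine le_trans (Finset.sum_le_sum_of_subset_of_nonneg (t := univ.filter (fun ξ : ZMod N × ZMod N => ¬ (4 * |ξ.1.valMinAbs| < N)) ∪ univ.filter (fun ξ : ZMod N × ZMod N => ¬ (4 * |ξ.2.valMinAbs| < N))) ?_ (fun _ _ _ => mass_nonneg _ _ _)) ?_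
    · intro ξ hξ
      rw [Finset.mem_filter] at hξ
      rw [Finset.mem_union, Finset.mem_filter, Finset.mem_filter]
      by_contra hcon
      push_neg at hcon
      apply hξ.2
      exact ⟨hcon.1 (Finset.mem_univ _), hcon.2 (Finset.mem_univ _)⟩
    · rw [← Finset.sum_union_inter]
      have : 0 ≤ ∑ ξ ∈ univ.filter (fun ξ : ZMod N × ZMod N => ¬ (4 * |ξ.1.valMinAbs| < N)) ∩ univ.filter (fun ξ : ZMod N × ZMod N => ¬ (4 * |ξ.2.valMinAbs| < N)), mass E f ξ :=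
        Finset.sum_nonneg fun _ _ => mass_nonneg _ _ _
      linarith
  have hall : ∑ ξ ∈ Finset.univ.erase (0 : ZMod N × ZMod N), mass E f ξ
      ≤ ∑ ξ ∈ univ.filter Q, mass E f ξ + ∑ ξ ∈ univ.filter Q', mass E f ξ := by
    refine le_trans (Finset.sum_le_sum_of_subset_of_nonneg (t := univ.filter Q ∪ univ.filter Q') ?_ (fun _ _ _ => mass_nonneg _ _ _)) ?_
    · intro ξ hξ
      rw [Finset.mem_erase] at hξ
      rw [Finset.mem_union, Finset.mem_filter, Finset.mem_filter]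
      rcases Q_or_Q' hξ.1 with h | h
      · left; exact ⟨Finset.mem_univ _, h⟩
      · right; exact ⟨Finset.mem_univ _, h⟩
    · rw [← Finset.sum_union_inter]
      have : 0 ≤ ∑ ξ ∈ univ.filter Q ∩ univ.filter Q', mass E f ξ :=
        Finset.sum_nonneg fun _ _ => mass_nonneg _ _ _
      linarith
  rw [sum_mass_erase E hE] at hall
  rw [s1, s2] at hQ hQ'
  set a1 := ∑ x, (f (T1 x) - f x) ^ 2
  set a2 := ∑ x, (f (T2 x) - f x) ^ 2
  set b1 := ∑ x, (f (E (1, 0) x) - f x) ^ 2 with hb1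
  set b2 := ∑ x, (f (E (0, 1) x) - f x) ^ 2 with hb2
  have hb1' : 0 ≤ b1 := Finset.sum_nonneg fun _ _ => sq_nonneg _
  have hb2' : 0 ≤ b2 := Finset.sum_nonneg fun _ _ => sq_nonneg _
  have p1 : 0 ≤ (N : ℝ) ^ 4 * b1 := mul_nonneg hN.le hb1'
  have p2 : 0 ≤ (N : ℝ) ^ 4 * b2 := mul_nonneg hN.le hb2'
  have fin : (N : ℝ) ^ 4 * ∑ x, (f x - mean E f x) ^ 2 ≤ (N : ℝ) ^ 4 * (12 * (a1 + a2 + b1 + b2)) := by
    nlinarith
  exact le_of_mul_le_mul_left fin hN

end Main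

end Crest.Agent.R115.RT
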