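import Crest.Agent.R115.WGlue

/-!
# Row 115: reduction of the main statement to finitely supported kernels

Main result: `reduction`.
-/

set_option autoImplicit false

open Crest.AnalysisR UniformSpace

noncomputable section

namespace Crest.Agent.R115.W

attribute [local instance] PointedMetric.metric

variable {P Q : PointedMetric}

/-- `P` is `1`-separated -/
def Sep (P : PointedMetric) : Prop := ∀ x y : P.M, x ≠ y → 1 ≤ dist x y

open Classical in
/-- the coordinate function -/
def chi (P : PointedMetric) (x : P.M) (y : P.M) : ℝ := if y = x ∧ x ≠ P.base then 1 else 0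

lemma lipB_of_abs_le (hsep : Sep P) {f : P.M → ℝ} (hb : f P.base = 0) {C : ℝ} (hC : 0 ≤ C)
    (h : ∀ x y, |f x - f y| ≤ C) : LipB P C f := by
  refine ⟨hC, hb, fun x y => ?_⟩
  by_cases hxy : x = y
  · subst hxy; simp
  · have h1 := hsep x y hxy
    nlinarith [h x y]

lemma lipB_chi (hsep : Sep P) (x : P.M) : LipB P 1 (chi P x) := by
  refine lipB_of_abs_le hsep ?_ zero_le_one fun y z => ?_
  · unfold chi
    split_ifs with h
    · exact absurd h.1.symm h.2
    · rfl
  · unfold chi
    split_ifs <;> simp

lemma pairing_chi (a : P.Mol) (x : P.M) :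
    P.pairing a (chi P x) = open Classical in if x = P.base then 0 else P.coeffs a x := by
  classical
  rw [pairing_def]
  split_ifs with h
  · refine Finset.sum_eq_zero fun y _ => ?_
    simp [chi, h]
  · rw [Finsupp.sum, Finset.sum_eq_single x]
    · simp [chi, h]
    · intro y _ hy
      simp [chi, hy]
    · intro hx
      simp [Finsupp.notMem_support_iff.1 hx]

lemma sum_abs_le (hsep : Sep P) (a : P.Mol) (F : Finset P.M) (hF : P.base ∉ F) :
    ∑ x ∈ F, |P.coeffs a x| ≤ 2 * ‖a‖ := by
  classical
  set f : P.M → ℝ := fun x => if x ∈ F then (1 / 2) * SignType.sign (P.coeffs a x) else 0 with hf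
  have hfabs : ∀ x, |f x| ≤ 1 / 2 := fun x => by
    simp only [hf]
    split_ifs
    · rw [abs_mul]
      have : |((SignType.sign (P.coeffs a x) : SignType) : ℝ)| ≤ 1 := by
        rcases SignType.sign (P.coeffs a x) <;> simp
      have h2 : |(1 / 2 : ℝ)| = 1 / 2 := abs_of_pos (by norm_num)
      rw [h2]
      linarith
    · simp
  have hlip : LipB P 1 f := by
    refine lipB_of_abs_le hsep ?_ zero_le_one fun y z => ?_
    · simp [hf, hF]
    · have h1 := hfabs y
      have h2 := hfabs z
      rw [abs_le] at *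
      constructor <;> linarith [h1.1, h1.2, h2.1, h2.2]
  have h1 := abs_pairing_le hlip a
  have h2 : P.pairing a f = (1 / 2) * ∑ x ∈ F, |P.coeffs a x| := by
    rw [pairing_def, Finsupp.sum, Finset.mul_sum]
    have h3 : ∀ x, P.coeffs a x * f x = if x ∈ F then (1 / 2) * |P.coeffs a x| else 0 := by
      intro x
      simp only [hf]
      split_ifs
      · rw [mul_left_comm, self_mul_sign]
      · simp
    simp_rw [h3]
    rw [← Finset.sum_filter, ← Finset.sum_subset (Finset.inter_subset_right
      (s₁ := (P.coeffs a).support) (s₂ := F))]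
    · refine Finset.sum_congr ?_ fun _ _ => rfl
      ext x; simp
    · intro x hx hx'
      have : x ∉ (P.coeffs a).support := fun h => hx' (Finset.mem_inter.2 ⟨h, hx⟩)
      simp [Finsupp.notMem_support_iff.1 this]
  rw [h2] at h1
  have h4 : 0 ≤ ∑ x ∈ F, |P.coeffs a x| := Finset.sum_nonneg fun _ _ => abs_nonneg _
  rw [abs_of_nonneg (by positivity)] at h1
  linarith

/-- projection onto finitely many coordinates -/
def projL (hsep : Sep P) (F : Finset P.M) : P.FreeSpace →L[ℝ] P.FreeSpace :=
  ∑ x ∈ F, (evalL (lipB_chi hsep x)).smulRight (delta P x)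

lemma projL_coe (hsep : Sep P) (F : Finset P.M) (a : P.Mol) :
    projL hsep F (a : P.FreeSpace) = ∑ x ∈ F, P.coeffs a x • delta P x := by
  classical
  simp only [projL, sum_apply, ContinuousLinearMap.smulRight_apply,
    evalL_coe, pairing_chi]
  refine Finset.sum_congr rfl fun x _ => ?_
  split_ifs with h
  · rw [h, delta_base]; simp
  · rfl

lemma norm_projL_le (hsep : Sep P) (F : Finset P.M) {D : ℝ} (hD : 0 ≤ D)
    (hF : ∀ x ∈ F, dist x P.base ≤ D) : ‖projL hsep F‖ ≤ 2 * D := by
  classical
  refine opNorm_le_of_mol _ (by positivity) fun a => ?_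
  rw [projL_coe]
  have h1 : ∑ x ∈ F, P.coeffs a x • delta P x
      = ∑ x ∈ F.erase P.base, P.coeffs a x • delta P x := by
    by_cases hb : P.base ∈ F
    · rw [← Finset.add_sum_erase _ _ hb, delta_base, smul_zero, zero_add]
    · rw [Finset.erase_eq_of_notMem hb]
  rw [h1]
  calc ‖∑ x ∈ F.erase P.base, P.coeffs a x • delta P x‖
      ≤ ∑ x ∈ F.erase P.base, ‖P.coeffs a x • delta P x‖ := norm_sum_le _ _
    _ ≤ ∑ x ∈ F.erase P.base, |P.coeffs a x| * D := by
        refine Finset.sum_le_sum fun x hx => ?_
        rw [norm_smul, Real.norm_eq_abs]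
        exact mul_le_mul_of_nonneg_left
          ((norm_delta_le x).trans (hF x (Finset.mem_of_mem_erase hx))) (abs_nonneg _)
    _ = (∑ x ∈ F.erase P.base, |P.coeffs a x|) * D := by rw [Finset.sum_mul]
    _ ≤ (2 * ‖a‖) * D :=
        mul_le_mul_of_nonneg_right (sum_abs_le hsep a _ (Finset.notMem_erase _ _)) hD
    _ = 2 * D * ‖a‖ := by ring

lemma finiteDimensional_range_projL (hsep : Sep P) (F : Finset P.M) :
    FiniteDimensional ℝ (LinearMap.range (projL hsep F).toLinearMap) := by
  have hle : LinearMap.range (projL hsep F).toLinearMap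
      ≤ Submodule.span ℝ ((delta P) '' (F : Set P.M)) := by
    rintro _ ⟨v, rfl⟩
    simp only [projL, ContinuousLinearMap.coe_coe, sum_apply,
      ContinuousLinearMap.smulRight_apply]
    exact Submodule.sum_mem _ fun x hx => Submodule.smul_mem _ _
      (Submodule.subset_span ⟨x, hx, rfl⟩)
  have : FiniteDimensional ℝ (Submodule.span ℝ ((delta P) '' (F : Set P.M))) :=
    FiniteDimensional.span_of_finite ℝ (F.finite_toSet.image _)
  exact Submodule.finiteDimensional_of_le hle

lemma dense_mol : Dense (Set.range ((↑) : P.Mol → P.FreeSpace)) := Completion.denseRange_coe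

/-- a bounded `1`-separated space has a free space with the bounded approximation property -/
lemma hasBAP_of_bounded (hsep : Sep P) {D : ℝ} (hD : ∀ x y : P.M, dist x y ≤ D) :
    HasBAP P.FreeSpace := by
  classical
  have hD0 : 0 ≤ D := dist_nonneg.trans (hD P.base P.base)
  refine ⟨2 * D, fun K hK ε hε => ?_⟩
  obtain ⟨F, hF⟩ := exists_approx_on_compact (ι := Finset P.M) (projL hsep)
    (ContinuousLinearMap.id ℝ P.FreeSpace) (C := 2 * D)
    (fun F => norm_projL_le hsep F hD0 fun x _ => hD _ _)
    (Set.range ((↑) : P.Mol → P.FreeSpace)) dense_mol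
    (by
      rintro _ ⟨a, rfl⟩
      refine ⟨(P.coeffs a).support, fun F hF => ?_⟩
      rw [projL_coe, ContinuousLinearMap.id_apply, mol_eq_sum, Finsupp.sum]
      refine (Finset.sum_subset hF fun x _ hx => ?_).symm
      rw [Finsupp.notMem_support_iff.1 hx, zero_smul]) hK hε
  exact ⟨projL hsep F, finiteDimensional_range_projL hsep F,
    norm_projL_le hsep F hD0 fun x _ => hD _ _, fun x hx => hF F le_rfl x hx⟩

/-! ### the wedge -/

section wedge

variable {R : ℕ → PointedMetric}

lemma mapF_trunc_coe (L : ℕ) (a : (wedge R).Mol) :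
    mapF (truncMap L) (a : (wedge R).FreeSpace)
      = ((wedge R).coeffs a).sum fun x r => r • delta (wedge R) (truncW L x) := by
  rw [mol_eq_sum, map_finsuppSum]
  refine Finsupp.sum_congr fun x _ => ?_
  rw [map_smul, mapF_delta]

lemma trunc_approx {K : Set (wedge R).FreeSpace} (hK : IsCompact K) {ε : ℝ} (hε : 0 < ε) :
    ∃ L : ℕ, ∀ x ∈ K, ‖mapF (truncMap (P := R) L) x - x‖ ≤ ε := by
  classical
  obtain ⟨L, hL⟩ := exists_approx_on_compact (ι := ℕ) (fun L => mapF (truncMap (P := R) L))
    (ContinuousLinearMap.id ℝ (wedge R).FreeSpace) (C := 1)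
    (fun L => norm_mapF_le _)
    (Set.range ((↑) : (wedge R).Mol → (wedge R).FreeSpace)) dense_mol
    (by
      rintro _ ⟨a, rfl⟩
      obtain ⟨L₀, hL₀⟩ := (((wedge R).coeffs a).support.biUnion fun p => supp (P := R) p).exists_le
      refine ⟨L₀, fun L hL => ?_⟩
      rw [mapF_trunc_coe, ContinuousLinearMap.id_apply, mol_eq_sum]
      refine Finsupp.sum_congr fun x hx => ?_
      have : truncW (P := R) L x = x := trunc_eq_self fun k hk =>
        (hL₀ k (Finset.mem_biUnion.2 ⟨x, hx, hk⟩)).trans hL
      rw [this]) hK hε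
  exact ⟨L, fun x hx => hL L le_rfl x hx⟩

lemma hasAP_wedge (hsep : ∀ l, Sep (R l)) (hbd : ∀ l, ∃ D : ℝ, ∀ x y : (R l).M, dist x y ≤ D) :
    HasAP (wedge R).FreeSpace := by
  classical
  have hs : Sep (wedge R) := one_le_dist_wedge hsep
  intro K hK ε hε
  obtain ⟨L, hL⟩ := trunc_approx hK (half_pos hε)
  obtain ⟨D, hD⟩ := exists_dist_trunc_le hbd L
  set good : (wedge R).M → Prop := fun p => ∀ k ∈ supp (P := R) p, k ≤ L with hgood
  have hD0 : 0 ≤ D := by
    refine dist_nonneg.trans (hD (wedge R).base ?_)
    intro k hk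
    exact absurd hk (Finset.notMem_empty k)
  obtain ⟨F, hF⟩ := exists_approx_on_compact (ι := Finset (wedge R).M)
    (fun F => projL hs (F.filter good))
    (mapF (truncMap (P := R) L)) (C := 2 * D)
    (fun F => norm_projL_le hs _ hD0 fun x hx => hD x (Finset.mem_filter.1 hx).2)
    (Set.range ((↑) : (wedge R).Mol → (wedge R).FreeSpace)) dense_mol
    (by
      rintro _ ⟨a, rfl⟩
      refine ⟨((wedge R).coeffs a).support, fun F hF => ?_⟩
      rw [projL_coe, mapF_trunc_coe, Finsupp.sum]
      have h1 : ∀ x : (wedge R).M, ((wedge R).coeffs a) x • delta (wedge R) (truncW L x)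
          = if good x then ((wedge R).coeffs a) x • delta (wedge R) x else 0 := by
        intro x
        split_ifs with hx
        · rw [show truncW (P := R) L x = x from trunc_eq_self hx]
        · have h2 : truncW (P := R) L x = (wedge R).base := by
            rcases x with _ | ⟨k, y⟩
            · rfl
            · by_cases hk : k ≤ L
              · refine absurd (fun k' hk' => ?_) hx
                have : k' = k := by simpa [supp] using hk'
                omega
              · exact trunc_of_not_le hk y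
          rw [h2, delta_base, smul_zero]
      simp_rw [h1]
      rw [Finset.sum_filter]
      have h3 : ∀ x ∈ F, x ∉ ((wedge R).coeffs a).support →
          (if good x then ((wedge R).coeffs a) x • delta (wedge R) x else 0) = 0 := by
        intro x _ hx
        rw [Finsupp.notMem_support_iff.1 hx, zero_smul, ite_self]
      convert (Finset.sum_subset hF h3).symm) hK (half_pos hε)
  refine ⟨projL hs (F.filter good), finiteDimensional_range_projL hs _, fun x hx => ?_⟩
  have h1 := hF F le_rfl x hx
  have h2 := hL x hx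
  calc ‖projL hs (F.filter good) x - x‖
      = ‖(projL hs (F.filter good) x - mapF (truncMap (P := R) L) x)
          + (mapF (truncMap (P := R) L) x - x)‖ := by congr 1; abel
    _ ≤ ε / 2 + ε / 2 := (norm_add_le _ _).trans (add_le_add h1 h2)
    _ = ε := by ring

lemma hasBAP_wedge_of_finite (hfin : ∀ l, Finite (R l).M) : HasBAP (wedge R).FreeSpace := by
  classical
  refine ⟨1, fun K hK ε hε => ?_⟩
  obtain ⟨L, hL⟩ := trunc_approx hK hε
  refine ⟨mapF (truncMap (P := R) L), ?_, norm_mapF_le _, hL⟩
  -- the truncation has finite range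
  have hrange : (Set.range (truncW (P := R) L)).Finite := by
    have h1 : Set.range (truncW (P := R) L) ⊆
        ⋃ l ∈ Finset.range (L + 1), Set.range (inclW (P := R) l) := by
      rintro _ ⟨p, rfl⟩
      rcases p with _ | ⟨k, y⟩
      · refine Set.mem_iUnion₂.2 ⟨0, by simp, (R 0).base, ?_⟩
        exact incl_base 0
      · by_cases hk : k ≤ L
        · refine Set.mem_iUnion₂.2 ⟨k, by simpa using Nat.lt_succ_of_le hk, y.1, ?_⟩
          show incl (P := R) k y.1 = trunc (P := R) L (some ⟨k, y⟩)
          rw [trunc_of_le hk, incl_of_ne y.2]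
        · refine Set.mem_iUnion₂.2 ⟨0, by simp, (R 0).base, ?_⟩
          show incl (P := R) 0 _ = trunc (P := R) L (some ⟨k, y⟩)
          rw [trunc_of_not_le hk]
          exact incl_base 0
    refine Set.Finite.subset ?_ h1
    refine Set.Finite.biUnion (Finset.finite_toSet _) fun l _ => ?_
    have := hfin l
    exact Set.finite_range _
  have hfd : FiniteDimensional ℝ
      (Submodule.span ℝ ((delta (wedge R)) '' Set.range (truncW (P := R) L))) :=
    FiniteDimensional.span_of_finite ℝ (hrange.image _)
  have hle : LinearMap.range (mapF (truncMap (P := R) L)).toLinearMap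
      ≤ Submodule.span ℝ ((delta (wedge R)) '' Set.range (truncW (P := R) L)) := by
    rintro _ ⟨v, rfl⟩
    rw [ContinuousLinearMap.coe_coe]
    refine Completion.induction_on v ?_ fun a => ?_
    · exact (Submodule.closed_of_finiteDimensional _).preimage
        (mapF (truncMap (P := R) L)).continuous
    · rw [mapF_trunc_coe, Finsupp.sum]
      exact Submodule.sum_mem _ fun x _ => Submodule.smul_mem _ _
        (Submodule.subset_span ⟨_, ⟨x, rfl⟩, rfl⟩)
  exact Submodule.finiteDimensional_of_le hle

end wedge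

/-! ### from finite rank operators to kernels -/

lemma exists_kernel (T : P.FreeSpace →L[ℝ] P.FreeSpace)
    (hT : FiniteDimensional ℝ (LinearMap.range T.toLinearMap)) {η : ℝ} (hη : 0 < η) :
    ∃ (S : Finset P.M) (t : P.M → P.M → ℝ), ∃ T' : P.FreeSpace →L[ℝ] P.FreeSpace,
      ‖T' - T‖ ≤ η ∧ ∀ (x : P.M) {K : ℝ} {f : P.M → ℝ} (hf : LipB P K f),
        evalL hf (T' (delta P x)) = ∑ s ∈ S, t x s * f s := by
  classical
  set V := LinearMap.range T.toLinearMap with hV
  set b := Module.finBasis ℝ V with hb
  -- the coordinate functionals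
  let φ : Fin (Module.finrank ℝ V) → (P.FreeSpace →L[ℝ] ℝ) := fun i =>
    (LinearMap.toContinuousLinearMap (b.coord i)).comp
      (T.codRestrict V fun x => LinearMap.mem_range_self T.toLinearMap x)
  have hφ : ∀ x, T x = ∑ i, φ i x • (b i : P.FreeSpace) := by
    intro x
    have h1 := b.sum_repr (T.codRestrict V (fun x => LinearMap.mem_range_self T.toLinearMap x) x)
    have h2 := congrArg (fun v : V => (v : P.FreeSpace)) h1
    simp only [Submodule.coe_sum, Submodule.coe_smul] at h2
    exact h2.symm
  set N : ℝ := ∑ i, ‖φ i‖ with hN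
  have hN0 : 0 ≤ N := Finset.sum_nonneg fun _ _ => norm_nonneg _
  have hex : ∀ i, ∃ u : P.Mol, ‖((u : P.Mol) : P.FreeSpace) - b i‖ ≤ η / (N + 1) := by
    intro i
    obtain ⟨_, ⟨u, rfl⟩, hu⟩ := Metric.mem_closure_iff.1 (dense_mol (P := P) (b i : P.FreeSpace))
      (η / (N + 1)) (by positivity)
    exact ⟨u, by rw [← dist_eq_norm, dist_comm]; exact hu.le⟩
  choose u hu using hex
  refine ⟨Finset.univ.biUnion fun i => (P.coeffs (u i)).support,
    fun x s => ∑ i, φ i (delta P x) * P.coeffs (u i) s,
    ∑ i, (φ i).smulRight ((u i : P.Mol) : P.FreeSpace), ?_, ?_⟩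
  · refine ContinuousLinearMap.opNorm_le_bound _ hη.le fun x => ?_
    rw [sub_apply, sum_apply, hφ x]
    rw [← Finset.sum_sub_distrib]
    calc ‖∑ i, ((φ i).smulRight ((u i : P.Mol) : P.FreeSpace) x - φ i x • (b i : P.FreeSpace))‖
        ≤ ∑ i, ‖(φ i).smulRight ((u i : P.Mol) : P.FreeSpace) x - φ i x • (b i : P.FreeSpace)‖ :=
          norm_sum_le _ _
      _ ≤ ∑ i, ‖φ i‖ * ‖x‖ * (η / (N + 1)) := by
          refine Finset.sum_le_sum fun i _ => ?_
          rw [ContinuousLinearMap.smulRight_apply, ← smul_sub, norm_smul]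
          exact mul_le_mul ((φ i).le_opNorm x) (hu i) (norm_nonneg _) (by positivity)
      _ = N * ‖x‖ * (η / (N + 1)) := by rw [hN, Finset.sum_mul, Finset.sum_mul]
      _ = (N / (N + 1)) * (η * ‖x‖) := by field_simp
      _ ≤ 1 * (η * ‖x‖) := by
          refine mul_le_mul_of_nonneg_right ?_ (by positivity)
          rw [div_le_one (by positivity)]
          linarith
      _ = η * ‖x‖ := one_mul _
  · intro x K f hf
    rw [sum_apply, map_sum]
    simp only [ContinuousLinearMap.smulRight_apply, map_smul, evalL_coe, smul_eq_mul]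
    simp_rw [Finset.sum_mul]
    rw [Finset.sum_comm]
    refine Finset.sum_congr rfl fun i _ => ?_
    rw [pairing_def, Finsupp.sum, Finset.mul_sum]
    rw [Finset.sum_subset (Finset.subset_biUnion_of_mem (fun i => (P.coeffs (u i)).support)
      (Finset.mem_univ i))]
    · refine Finset.sum_congr rfl fun s _ => ?_
      ring
    · intro s _ hs
      rw [Finsupp.notMem_support_iff.1 hs]
      ring

/-- **Reduction, operator form.** It is enough to produce, for every `l`, a countable bounded
`1`-separated pointed metric space whose free space fails the bounded approximation property with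
constant `l`, tested on finitely many point evaluations. -/
theorem reduction_fails (h : ∀ l : ℕ, ∃ P : PointedMetric, Countable P.M ∧
      (∀ x y : P.M, x ≠ y → 1 ≤ dist x y) ∧ (∃ D : ℝ, ∀ x y : P.M, dist x y ≤ D) ∧
      ∃ F : Finset P.M, ∃ ε : ℝ, 0 < ε ∧ ∀ T : P.FreeSpace →L[ℝ] P.FreeSpace,
        FiniteDimensional ℝ (LinearMap.range T.toLinearMap) → ‖T‖ ≤ l →
          ∃ x ∈ F, ε < ‖T (delta P x) - delta P x‖) :
    ∃ P : PointedMetric, P.IsCountableSeparatedUnboundedNonproper ∧
      HasAP P.FreeSpace ∧ ¬ HasBAP P.FreeSpace := by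
  classical
  choose R hcount hsep hbd A ε hε hA using h
  have hs : Sep (wedge R) := one_le_dist_wedge hsep
  have hnot : ¬ HasBAP (wedge R).FreeSpace := by
    rintro ⟨lam, hlam⟩
    obtain ⟨l, hl⟩ := exists_nat_ge lam
    obtain ⟨T, hT1, hT2, hT3⟩ := hlam ((fun a => delta (wedge R) (inclW l a)) '' (A l : Set (R l).M))
      ((A l).finite_toSet.image _).isCompact (ε l) (hε l)
    set T' : (R l).FreeSpace →L[ℝ] (R l).FreeSpace :=
      ((mapF (coordMap l)).comp T).comp (mapF (inclMap l)) with hT'
    have hfd : FiniteDimensional ℝ (LinearMap.range T'.toLinearMap) := by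
      have hle : LinearMap.range T'.toLinearMap
          ≤ (LinearMap.range T.toLinearMap).map (mapF (coordMap (P := R) l)).toLinearMap := by
        rintro _ ⟨v, rfl⟩
        exact ⟨T (mapF (inclMap l) v), ⟨_, rfl⟩, rfl⟩
      exact Submodule.finiteDimensional_of_le hle
    have hlam0 : 0 ≤ lam := (norm_nonneg _).trans hT2
    have hnorm : ‖T'‖ ≤ lam := by
      calc ‖T'‖ ≤ ‖(mapF (coordMap (P := R) l)).comp T‖ * ‖mapF (inclMap (P := R) l)‖ :=
            ContinuousLinearMap.opNorm_comp_le _ _
        _ ≤ (‖mapF (coordMap (P := R) l)‖ * ‖T‖) * 1 := by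
            refine mul_le_mul (ContinuousLinearMap.opNorm_comp_le _ _) (norm_mapF_le _)
              (norm_nonneg _) (by positivity)
        _ ≤ (1 * lam) * 1 := by
            refine mul_le_mul_of_nonneg_right ?_ zero_le_one
            exact mul_le_mul (norm_mapF_le _) hT2 (norm_nonneg _) zero_le_one
        _ = lam := by ring
    obtain ⟨a, ha, hlt⟩ := hA l T' hfd (hnorm.trans hl)
    refine absurd hlt (not_lt.2 ?_)
    have h1 : delta (R l) a = mapF (coordMap (P := R) l) (delta (wedge R) (inclW l a)) := by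
      rw [mapF_delta, coordW_inclW]
    have h2 : T' (delta (R l) a) - delta (R l) a
        = mapF (coordMap (P := R) l) (T (delta (wedge R) (inclW l a))
            - delta (wedge R) (inclW l a)) := by
      rw [map_sub, ← h1, hT']
      simp
    rw [h2]
    calc _ ≤ ‖mapF (coordMap (P := R) l)‖ * ‖T (delta (wedge R) (inclW l a))
            - delta (wedge R) (inclW l a)‖ := ContinuousLinearMap.le_opNorm _ _
      _ ≤ 1 * ε l := mul_le_mul (norm_mapF_le _) (hT3 _ ⟨a, ha, rfl⟩) (norm_nonneg _)
          zero_le_one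
      _ = ε l := one_mul _
  refine ⟨wedge R, ⟨?_, hs, ?_, ?_⟩, hasAP_wedge hsep hbd, hnot⟩
  · exact countable_wedge
  · intro hbdd
    obtain ⟨D, hD⟩ := Metric.isBounded_iff.1 hbdd
    exact hnot (hasBAP_of_bounded hs fun x y => hD (Set.mem_univ x) (Set.mem_univ y))
  · intro hproper
    refine hnot (hasBAP_wedge_of_finite fun l => ?_)
    obtain ⟨D, hD⟩ := hbd l
    have hcomp : IsCompact (Metric.closedBall (wedge R).base D) :=
      ProperSpace.isCompact_closedBall _ _
    have hfin : (Metric.closedBall (wedge R).base D).Finite := by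
      obtain ⟨t, htK, htf, htc⟩ := hcomp.finite_cover_balls (e := 1 / 2) (by norm_num)
      refine htf.subset fun y hy => ?_
      obtain ⟨x, hx, hxy⟩ := Set.mem_iUnion₂.1 (htc hy)
      by_cases hne : y = x
      · rwa [hne]
      · have h1 := hs y x hne
        have h2 : dist y x < 1 / 2 := hxy
        linarith
    have hinj : Function.Injective (inclW (P := R) l) := fun x y hxy => by
      have := congrArg (coordW (P := R) l) hxy
      simpa using this
    have hsub : Set.range (inclW (P := R) l) ⊆ Metric.closedBall (wedge R).base D := by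
      rintro _ ⟨x, rfl⟩
      rw [Metric.mem_closedBall]
      have h1 : dist (inclW (P := R) l x) (wedge R).base ≤ 1 * dist x (R l).base := by
        have := (inclMap (P := R) l).le x (R l).base
        rwa [(inclMap (P := R) l).base] at this
      linarith [hD x (R l).base]
    exact Set.finite_range_iff hinj |>.1 (hfin.subset hsub)

/-- **Reduction, kernel form.** It is enough to produce, for every `l`, a countable bounded
`1`-separated pointed metric space and a finite set `A` of its points such that no finitely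
supported kernel has Lipschitz constant `≤ l` and reproduces the points of `A` up to `1`. -/
theorem reduction (h : ∀ l : ℕ, ∃ P : PointedMetric, Countable P.M ∧
      (∀ x y : P.M, x ≠ y → 1 ≤ dist x y) ∧ (∃ D : ℝ, ∀ x y : P.M, dist x y ≤ D) ∧
      ∃ A : Finset P.M, ∀ (S : Finset P.M) (t : P.M → P.M → ℝ),
        (∀ f : P.M → ℝ, LipB P 1 f → ∀ x y,
          |∑ s ∈ S, t x s * f s - ∑ s ∈ S, t y s * f s| ≤ l * dist x y) →
        (∀ f : P.M → ℝ, LipB P 1 f → ∀ a ∈ A, |∑ s ∈ S, t a s * f s - f a| ≤ 1) → False) :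
    ∃ P : PointedMetric, P.IsCountableSeparatedUnboundedNonproper ∧
      HasAP P.FreeSpace ∧ ¬ HasBAP P.FreeSpace := by
  classical
  refine reduction_fails fun l => ?_
  obtain ⟨P, hc, hsep, hbd, A, hA⟩ := h (l + 1)
  refine ⟨P, hc, hsep, hbd, A, 1 / 2, by norm_num, fun T hfd hnorm => ?_⟩
  by_contra hcon
  push Not at hcon
  obtain ⟨B, hB⟩ : ∃ B : ℝ, ∀ a ∈ A, ‖delta P a‖ ≤ B := by
    refine ⟨∑ a ∈ A, ‖delta P a‖, fun a ha => ?_⟩
    exact Finset.single_le_sum (f := fun a => ‖delta P a‖) (fun _ _ => norm_nonneg _) ha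
  set η : ℝ := min 1 (1 / (2 * (|B| + 1))) with hη
  have hη0 : 0 < η := lt_min one_pos (by positivity)
  obtain ⟨S, t, T'', hT'', hker⟩ := exists_kernel T hfd hη0
  refine hA S t ?_ ?_
  · intro f hf x y
    rw [← hker x hf, ← hker y hf, ← map_sub, ← map_sub]
    calc |evalL hf (T'' (delta P x - delta P y))|
        ≤ 1 * ‖T'' (delta P x - delta P y)‖ := abs_evalL_le hf _
      _ ≤ ‖T''‖ * ‖delta P x - delta P y‖ := by
          rw [one_mul]; exact ContinuousLinearMap.le_opNorm _ _
      _ ≤ ((l + 1 : ℕ) : ℝ) * dist x y := by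
          refine mul_le_mul ?_ (norm_delta_sub_le x y) (norm_nonneg _) (by positivity)
          calc ‖T''‖ = ‖(T'' - T) + T‖ := by congr 1; abel
            _ ≤ ‖T'' - T‖ + ‖T‖ := norm_add_le _ _
            _ ≤ 1 + l := add_le_add (hT''.trans (min_le_left _ _)) hnorm
            _ = ((l + 1 : ℕ) : ℝ) := by push_cast; ring
  · intro f hf a ha
    rw [← hker a hf]
    have h1 : f a = evalL hf (delta P a) := (evalL_delta hf a).symm
    rw [h1, ← map_sub]
    calc |evalL hf (T'' (delta P a) - delta P a)|
        ≤ 1 * ‖T'' (delta P a) - delta P a‖ := abs_evalL_le hf _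
      _ = ‖(T'' - T) (delta P a) + (T (delta P a) - delta P a)‖ := by
          rw [one_mul, sub_apply]; congr 1; abel
      _ ≤ η * ‖delta P a‖ + 1 / 2 := by
          refine (norm_add_le _ _).trans (add_le_add ?_ (hcon a ha))
          exact ((T'' - T).le_opNorm _).trans
            (mul_le_mul_of_nonneg_right hT'' (norm_nonneg _))
      _ ≤ (1 / (2 * (|B| + 1))) * |B| + 1 / 2 := by
          gcongr
          · exact min_le_right _ _
          · exact (hB a ha).trans (le_abs_self _)
      _ ≤ 1 := by
          have hB0 : 0 ≤ |B| := abs_nonneg _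
          have : (1 / (2 * (|B| + 1))) * |B| ≤ 1 / 2 := by
            rw [div_mul_eq_mul_div, one_mul, div_le_iff₀ (by positivity)]
            linarith
          linarith

end Crest.Agent.R115.W
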