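import Crest.Agent.R115.Tau
import Crest.Agent.R115.WReduction

/-!
# Row 115: reduction of S0154 to `FailsBAP` (Tau.lean)
-/

set_option autoImplicit false

open Crest.AnalysisR

namespace Crest.Agent.R115

/-- It is enough to produce, for every `l`, a countable bounded `1`-separated pointed metric
space whose free space fails the bounded approximation property with constant `l`. -/
theorem reduction (h : ∀ l : ℕ, ∃ P : PointedMetric, Countable P.M ∧
      (∀ x y : P.M, x ≠ y → 1 ≤ dist x y) ∧ (∃ D : ℝ, ∀ x y : P.M, dist x y ≤ D) ∧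
      FailsBAP P l) :
    ∃ P : PointedMetric, P.IsCountableSeparatedUnboundedNonproper ∧
      HasAP P.FreeSpace ∧ ¬ HasBAP P.FreeSpace :=
  W.reduction_fails h

/-- Version for weights (Tau.lean): for every `l` a countable type with a bounded weight such that
no functionals `tau` exist. -/
theorem reduction_weight (h : ∀ l : ℕ, ∃ (M : Type) (_ : Countable M) (w : M → M → ℝ) (D : ℝ)
      (_ : IsWeight w D) (base : M) (A : Finset M) (ε : ℝ), 0 < ε ∧
      ∀ tau : M → (M → ℝ) → ℝ, ¬ IsTau w base (A : Set M) l ε tau) :
    ∃ P : PointedMetric, P.IsCountableSeparatedUnboundedNonproper ∧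
      HasAP P.FreeSpace ∧ ¬ HasBAP P.FreeSpace := by
  refine reduction fun l => ?_
  obtain ⟨M, hM, w, D, hw, base, A, ε, hε, htau⟩ := h l
  exact ⟨Weight.pm w D hw base, hM, fun x y hxy => Weight.one_le_wdist hw hxy,
    ⟨D, fun x y => (Weight.wdist_le hw x y).trans (hw.le x y)⟩,
    failsBAP_of_weight w D hw base A l ε hε htau⟩

end Crest.Agent.R115
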