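import Crest.Agent.R115.Free

set_option autoImplicit false

open Crest.AnalysisR

namespace Crest.Agent.R115

noncomputable section

/-- `f` is `L`-Lipschitz for the weight `w`. -/
def WLip {M : Type} (w : M → M → ℝ) (L : ℝ) (f : M → ℝ) : Prop :=
  ∀ u v, |f u - f v| ≤ L * w u v

/-- A weight: symmetric, nonnegative, at least one off the diagonal, bounded. -/
structure IsWeight {M : Type} (w : M → M → ℝ) (D : ℝ) : Prop where
  symm : ∀ x y, w x y = w y x
  nonneg : ∀ x y, 0 ≤ w x y
  one_le : ∀ x y, x ≠ y → 1 ≤ w x y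
  le : ∀ x y, w x y ≤ D

namespace Weight

variable {M : Type} {w : M → M → ℝ} {D : ℝ}

/-- differences of `1`-Lipschitz functions -/
def diffSet (w : M → M → ℝ) (x y : M) : Set ℝ := {r | ∃ f, WLip w 1 f ∧ r = f x - f y}

lemma zero_wlip (hw : IsWeight w D) : WLip w 1 (fun _ : M => (0:ℝ)) := by
  intro u v
  simp [hw.nonneg u v]

lemma diffSet_nonempty (hw : IsWeight w D) (x y : M) : (diffSet w x y).Nonempty :=
  ⟨0, fun _ => 0, zero_wlip hw, by simp⟩

lemma diffSet_bdd (x y : M) : BddAbove (diffSet w x y) := by
  refine ⟨w x y, ?_⟩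
  rintro _ ⟨f, hf, rfl⟩
  have := hf x y
  rw [one_mul] at this
  exact (le_abs_self _).trans this

/-- the distance of the weight -/
def wdist (w : M → M → ℝ) (x y : M) : ℝ := sSup (diffSet w x y)

lemma le_wdist {f : M → ℝ} (hf : WLip w 1 f) (x y : M) : f x - f y ≤ wdist w x y :=
  le_csSup (diffSet_bdd x y) ⟨f, hf, rfl⟩

lemma wdist_le_of (hw : IsWeight w D) {x y : M} {c : ℝ}
    (h : ∀ f, WLip w 1 f → f x - f y ≤ c) : wdist w x y ≤ c := by
  refine csSup_le (diffSet_nonempty hw x y) ?_
  rintro _ ⟨f, hf, rfl⟩
  exact h f hf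

lemma wdist_le (hw : IsWeight w D) (x y : M) : wdist w x y ≤ w x y := by
  refine wdist_le_of hw fun f hf => ?_
  have := hf x y
  rw [one_mul] at this
  exact (le_abs_self _).trans this

lemma neg_wlip {f : M → ℝ} {L : ℝ} (hf : WLip w L f) : WLip w L (fun x => - f x) := by
  intro u v
  have := hf u v
  rw [abs_sub_comm] at this
  convert this using 2
  ring

lemma wdist_comm (hw : IsWeight w D) (x y : M) : wdist w x y = wdist w y x := by
  refine le_antisymm (wdist_le_of hw fun f hf => ?_) (wdist_le_of hw fun f hf => ?_)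
  · have := le_wdist (neg_wlip hf) y x
    linarith
  · have := le_wdist (neg_wlip hf) x y
    linarith

lemma wdist_self (hw : IsWeight w D) (x : M) : wdist w x x = 0 := by
  refine le_antisymm (wdist_le_of hw fun f hf => by simp) ?_
  simpa using le_wdist (zero_wlip hw) x x

lemma wdist_triangle (hw : IsWeight w D) (x y z : M) :
    wdist w x z ≤ wdist w x y + wdist w y z := by
  refine wdist_le_of hw fun f hf => ?_
  have h1 := le_wdist hf x y
  have h2 := le_wdist hf y z
  linarith

lemma one_le_wdist (hw : IsWeight w D) {x y : M} (hxy : x ≠ y) : 1 ≤ wdist w x y := by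
  classical
  have hf : WLip w 1 (fun u => if u = x then (1:ℝ) else 0) := by
    intro u v
    rcases eq_or_ne u v with rfl | huv
    · simp [hw.nonneg]
    · have := hw.one_le u v huv
      rw [one_mul]
      refine le_trans ?_ this
      dsimp only
      split_ifs <;> simp
  have := le_wdist hf x y
  simpa [hxy.symm] using this

lemma abs_le_wdist (hw : IsWeight w D) {f : M → ℝ} (hf : WLip w 1 f) (x y : M) :
    |f x - f y| ≤ wdist w x y := by
  rw [abs_le']
  refine ⟨le_wdist hf x y, ?_⟩
  rw [wdist_comm hw]
  have := le_wdist hf y x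
  linarith

/-- The pointed metric space of a weight. -/
def pm (w : M → M → ℝ) (D : ℝ) (hw : IsWeight w D) (base : M) : PointedMetric where
  M := M
  metric :=
    { dist := wdist w
      dist_self := wdist_self hw
      dist_comm := wdist_comm hw
      dist_triangle := wdist_triangle hw
      eq_of_dist_eq_zero := by
        intro x y h
        by_contra hxy
        have h1 := one_le_wdist hw hxy
        change wdist w x y = 0 at h
        linarith }
  base := base

variable (hw : IsWeight w D) (base : M)

lemma pm_dist (x y : M) : @dist (pm w D hw base).M _ x y = wdist w x y := rfl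

lemma lip_iff (L : ℝ) (hL : 0 ≤ L) (f : M → ℝ) :
    WLip w L f ↔ ∀ x y : (pm w D hw base).M, |f x - f y| ≤ L * dist x y := by
  constructor
  · intro hf x y
    change |f x - f y| ≤ L * wdist w x y
    rcases hL.eq_or_lt with h | hpos
    · subst h
      have := hf x y
      rw [zero_mul] at this ⊢
      exact this
    · have hf' : WLip w 1 (fun u => L⁻¹ * f u) := by
        intro u v
        rw [← mul_sub, abs_mul, abs_of_nonneg (inv_nonneg.mpr hL), one_mul]
        calc L⁻¹ * |f u - f v| ≤ L⁻¹ * (L * w u v) :=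
              mul_le_mul_of_nonneg_left (hf u v) (inv_nonneg.mpr hL)
          _ = w u v := by field_simp
      have h := abs_le_wdist hw hf' x y
      rw [← mul_sub, abs_mul, abs_of_nonneg (inv_nonneg.mpr hL)] at h
      calc |f x - f y| = L * (L⁻¹ * |f x - f y|) := by field_simp
        _ ≤ L * wdist w x y := mul_le_mul_of_nonneg_left h hL
  · intro hf u v
    refine (hf u v).trans ?_
    exact mul_le_mul_of_nonneg_left (wdist_le hw u v) hL

end Weight

/-- Failure of the bounded approximation property with constant `l`, tested on finitely many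
Dirac elements. -/
def FailsBAP (P : PointedMetric) (l : ℝ) : Prop :=
  ∃ F : Finset P.M, ∃ ε : ℝ, 0 < ε ∧ ∀ T : P.FreeSpace →L[ℝ] P.FreeSpace,
    FiniteDimensional ℝ (LinearMap.range T.toLinearMap) → ‖T‖ ≤ l →
      ∃ x ∈ F, ε < ‖T (delta P x) - delta P x‖

/-- The functionals `f ↦ ⟨f, T δ_x⟩` produced by a finite rank operator of norm at most `lam`
which is close to the identity on the Dirac elements of `A`. -/
structure IsTau {M : Type} (w : M → M → ℝ) (base : M) (A : Set M) (lam ε : ℝ)
    (tau : M → (M → ℝ) → ℝ) : Prop where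
  add : ∀ x f g L, 0 ≤ L → WLip w L f → WLip w L g → f base = 0 → g base = 0 →
    tau x (fun u => f u + g u) = tau x f + tau x g
  smul : ∀ x f L c, 0 ≤ L → WLip w L f → f base = 0 → tau x (fun u => c * f u) = c * tau x f
  lip : ∀ f L, 0 ≤ L → WLip w L f → f base = 0 → ∀ x y,
    |tau x f - tau y f| ≤ lam * L * w x y
  lip0 : ∀ f L, 0 ≤ L → WLip w L f → f base = 0 → ∀ x, |tau x f| ≤ lam * L * w x base
  anchor : ∀ f L, 0 ≤ L → WLip w L f → f base = 0 → ∀ a ∈ A, |tau a f - f a| ≤ ε * L
  tail : ∀ η : ℝ, 0 < η → ∃ S : Finset M, ∀ f L, 0 ≤ L → WLip w L f → f base = 0 →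
    (∀ s ∈ S, f s = 0) → ∀ x, |tau x f| ≤ η * L

section

variable (P : PointedMetric)

lemma clm_eq_on_delta {S T : P.FreeSpace →L[ℝ] ℝ} (h : ∀ x, S (delta P x) = T (delta P x)) :
    S = T := clm_ext P h

lemma ev_delta (f : P.M → ℝ) (L : ℝ) (hL : 0 ≤ L) (hf : ∀ x y, |f x - f y| ≤ L * dist x y)
    (h0 : f P.base = 0) (x : P.M) : ev P f (delta P x) = f x :=
  ext_delta P f L hL (fun x y => by rw [Real.norm_eq_abs]; exact hf x y) h0 x

lemma norm_ev_le (f : P.M → ℝ) (L : ℝ) (hL : 0 ≤ L) (hf : ∀ x y, |f x - f y| ≤ L * dist x y)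
    (h0 : f P.base = 0) : ‖ev P f‖ ≤ L :=
  norm_ext_le P f L hL (fun x y => by rw [Real.norm_eq_abs]; exact hf x y) h0

lemma ev_emb (f : P.M → ℝ) (L : ℝ) (hL : 0 ≤ L) (hf : ∀ x y, |f x - f y| ≤ L * dist x y)
    (h0 : f P.base = 0) (a : P.Mol) : ev P f (emb P a) = P.pairing a f := by
  unfold ev
  rw [ext_emb P f L hL (fun x y => by rw [Real.norm_eq_abs]; exact hf x y) h0 a]
  change Finsupp.linearCombination ℝ f (P.coeffs a) = _
  rw [Finsupp.linearCombination_apply]
  rfl

end

open Weight in
/-- Main interface: if no functionals `tau` exist, then the free space of the weight metric fails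
the bounded approximation property with constant `lam`. -/
theorem failsBAP_of_weight {M : Type} (w : M → M → ℝ) (D : ℝ) (hw : IsWeight w D) (base : M)
    (A : Finset M) (lam ε : ℝ) (hε : 0 < ε)
    (core : ∀ tau : M → (M → ℝ) → ℝ, ¬ IsTau w base (A : Set M) lam ε tau) :
    FailsBAP (pm w D hw base) lam := by
  classical
  set P := pm w D hw base with hP
  refine ⟨A, ε, hε, fun T hT hTn => ?_⟩
  by_contra hcon
  push Not at hcon
  have hlam : 0 ≤ lam := (norm_nonneg T).trans hTn
  have hLip : ∀ (L : ℝ) (f : M → ℝ), 0 ≤ L → WLip w L f →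
      ∀ x y : P.M, |f x - f y| ≤ L * dist x y :=
    fun L f hL hf => (lip_iff hw base L hL f).mp hf
  have hdist : ∀ x y : P.M, dist x y ≤ w x y := fun x y => wdist_le hw x y
  refine core (fun x f => ev P f (T (delta P x))) ⟨?_, ?_, ?_, ?_, ?_, ?_⟩
  · -- additivity
    intro x f g L hL hf hg f0 g0
    have hfg : ∀ x y : P.M, |(f x + g x) - (f y + g y)| ≤ (L + L) * dist x y := by
      intro x y
      have h1 := hLip L f hL hf x y
      have h2 := hLip L g hL hg x y
      have h3 : (f x + g x) - (f y + g y) = (f x - f y) + (g x - g y) := by ring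
      rw [h3, add_mul]
      exact (abs_add_le _ _).trans (add_le_add h1 h2)
    have h : ev P (fun u => f u + g u) = ev P f + ev P g := by
      refine clm_ext P fun x => ?_
      rw [_root_.add_apply, ev_delta P f L hL (hLip L f hL hf) f0,
        ev_delta P g L hL (hLip L g hL hg) g0]
      exact ev_delta P (fun u => f u + g u) (L + L) (by linarith) hfg
        (by change f base + g base = 0; rw [f0, g0, add_zero]) x
    change ev P (fun u => f u + g u) (T (delta P x)) = _
    rw [h]; rfl
  · intro x f L c hL hf f0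
    have hcf : ∀ x y : P.M, |c * f x - c * f y| ≤ (|c| * L) * dist x y := by
      intro x y
      rw [← mul_sub, abs_mul, mul_assoc]
      exact mul_le_mul_of_nonneg_left (hLip L f hL hf x y) (abs_nonneg c)
    have h : ev P (fun u => c * f u) = c • ev P f := by
      refine clm_ext P fun x => ?_
      rw [_root_.smul_apply, ev_delta P f L hL (hLip L f hL hf) f0, smul_eq_mul]
      exact ev_delta P (fun u => c * f u) (|c| * L) (by positivity) hcf
        (by change c * f base = 0; rw [f0, mul_zero]) x
    change ev P (fun u => c * f u) (T (delta P x)) = _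
    rw [h]; rfl
  · intro f L hL hf f0 x y
    have hn := norm_ev_le P f L hL (hLip L f hL hf) f0
    have h1 : ev P f (T (delta P x)) - ev P f (T (delta P y))
        = ev P f (T (delta P x - delta P y)) := by rw [map_sub, map_sub]
    change |ev P f (T (delta P x)) - ev P f (T (delta P y))| ≤ _
    rw [h1, ← Real.norm_eq_abs]
    calc ‖ev P f (T (delta P x - delta P y))‖ ≤ L * ‖T (delta P x - delta P y)‖ :=
          (ev P f).le_of_opNorm_le hn _
      _ ≤ L * (lam * ‖delta P x - delta P y‖) := by
          gcongr; exact T.le_of_opNorm_le hTn _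
      _ ≤ L * (lam * w x y) := by
          gcongr; exact (dist_delta_le P x y).trans (hdist x y)
      _ = lam * L * w x y := by ring
  · intro f L hL hf f0 x
    have hn := norm_ev_le P f L hL (hLip L f hL hf) f0
    change |ev P f (T (delta P x))| ≤ _
    rw [← Real.norm_eq_abs]
    calc ‖ev P f (T (delta P x))‖ ≤ L * ‖T (delta P x)‖ :=
          (ev P f).le_of_opNorm_le hn _
      _ ≤ L * (lam * ‖delta P x‖) := by
          gcongr; exact T.le_of_opNorm_le hTn _
      _ ≤ L * (lam * w x base) := by
          gcongr; exact (norm_delta_le P x).trans (hdist x base)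
      _ = lam * L * w x base := by ring
  · intro f L hL hf f0 a ha
    have hn := norm_ev_le P f L hL (hLip L f hL hf) f0
    have h1 : ev P f (T (delta P a)) - f a = ev P f (T (delta P a) - delta P a) := by
      have h2 : ev P f (delta P a) = f a := ev_delta P f L hL (hLip L f hL hf) f0 a
      rw [map_sub]
      exact congrArg (fun z => ev P f (T (delta P a)) - z) h2.symm
    change |ev P f (T (delta P a)) - f a| ≤ _
    rw [h1, ← Real.norm_eq_abs]
    calc ‖ev P f (T (delta P a) - delta P a)‖ ≤ L * ‖T (delta P a) - delta P a‖ :=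
          (ev P f).le_of_opNorm_le hn _
      _ ≤ L * ε := by gcongr; exact hcon a ha
      _ = ε * L := by ring
  · intro η hη
    -- compactness of the set of all `T δ_x`
    set V := LinearMap.range T.toLinearMap with hV
    have : FiniteDimensional ℝ V := hT
    have : ProperSpace V := FiniteDimensional.proper ℝ V
    set R : ℝ := lam * D with hR
    have hK : IsCompact ((fun v : V => (v : P.FreeSpace)) '' Metric.closedBall (0 : V) R) :=
      (isCompact_closedBall _ _).image continuous_subtype_val
    set K := ((fun v : V => (v : P.FreeSpace)) '' Metric.closedBall (0 : V) R) with hKdef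
    have hmem : ∀ x : P.M, T (delta P x) ∈ K := by
      intro x
      refine ⟨⟨T (delta P x), ⟨delta P x, rfl⟩⟩, ?_, rfl⟩
      rw [mem_closedBall_zero_iff]
      change ‖T (delta P x)‖ ≤ R
      calc ‖T (delta P x)‖ ≤ lam * ‖delta P x‖ := T.le_of_opNorm_le hTn _
        _ ≤ lam * D := by
            gcongr; exact ((norm_delta_le P x).trans (hdist x base)).trans (hw.le _ _)
    obtain ⟨t, ht⟩ := hK.elim_finite_subcover
      (fun a : P.Mol => Metric.ball (emb P a) η) (fun a => Metric.isOpen_ball) (by
        intro x _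
        obtain ⟨a, ha⟩ := Metric.denseRange_iff.mp (emb_dense P) x η hη
        exact Set.mem_iUnion.mpr ⟨a, by simpa [Metric.mem_ball] using ha⟩)
    refine ⟨t.biUnion fun a => (P.coeffs a).support, fun f L hL hf f0 hS x => ?_⟩
    obtain ⟨a, ha, hxa⟩ := Set.mem_iUnion₂.mp (ht (hmem x))
    rw [Metric.mem_ball, dist_eq_norm] at hxa
    have hn := norm_ev_le P f L hL (hLip L f hL hf) f0
    have hz : ev P f (emb P a) = 0 := by
      rw [ev_emb P f L hL (hLip L f hL hf) f0]
      unfold PointedMetric.pairing Finsupp.sum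
      refine Finset.sum_eq_zero fun u hu => ?_
      have h3 : f u = 0 := hS u (Finset.mem_biUnion.mpr ⟨a, ha, hu⟩)
      exact mul_eq_zero_of_right _ h3
    have h1 : ev P f (T (delta P x)) = ev P f (T (delta P x) - emb P a) := by
      rw [map_sub, hz, sub_zero]
    change |ev P f (T (delta P x))| ≤ _
    rw [h1, ← Real.norm_eq_abs]
    calc ‖ev P f (T (delta P x) - emb P a)‖ ≤ L * ‖T (delta P x) - emb P a‖ :=
          (ev P f).le_of_opNorm_le hn _
      _ ≤ L * η := by gcongr
      _ = η * L := by ring

end

end Crest.Agent.R115
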