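import Mathlib
import Crest.Prelude.Def_LipschitzFree

/-!
# Row 115: basics on Lipschitz-free spaces

`mol P a` is the molecule with coefficient vector `a`, `delta P x` the point evaluation in
`P.FreeSpace`.  `liftMol` extends linear maps from molecules to the free space; `evalL f` is the
functional of a Lipschitz function vanishing at the base point, `mapF` the functoriality.
-/

set_option autoImplicit false

open Crest.AnalysisR UniformSpace

noncomputable section

namespace Crest.Agent.R115.W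

attribute [local instance] PointedMetric.metric

variable {P Q : PointedMetric}

/-- the molecule with coefficient vector `a` -/
def mol (P : PointedMetric) (a : P.M →₀ ℝ) : P.Mol := a

/-- the linear equivalence between molecules and coefficient vectors -/
def molL (P : PointedMetric) : (P.M →₀ ℝ) →ₗ[ℝ] P.Mol where
  toFun := mol P
  map_add' _ _ := rfl
  map_smul' _ _ := rfl

/-- coefficient vector as linear map -/
def coeffsL (P : PointedMetric) : P.Mol →ₗ[ℝ] (P.M →₀ ℝ) where
  toFun := P.coeffs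
  map_add' _ _ := rfl
  map_smul' _ _ := rfl

@[simp] lemma coeffs_mol (a : P.M →₀ ℝ) : P.coeffs (mol P a) = a := rfl

@[simp] lemma mol_coeffs (a : P.Mol) : mol P (P.coeffs a) = a := rfl

@[simp] lemma molL_apply (a : P.M →₀ ℝ) : molL P a = mol P a := rfl

@[simp] lemma coeffsL_apply (a : P.Mol) : coeffsL P a = P.coeffs a := rfl

lemma norm_mol_def (a : P.Mol) : ‖a‖ = P.freeNorm a := rfl

lemma pairing_def (a : P.Mol) (f : P.M → ℝ) :
    P.pairing a f = (P.coeffs a).sum fun x r => r * f x := rfl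

@[simp] lemma pairing_single (x : P.M) (r : ℝ) (f : P.M → ℝ) :
    P.pairing (mol P (Finsupp.single x r)) f = r * f x := by
  rw [pairing_def, coeffs_mol, Finsupp.sum_single_index]; simp

/-- `f` is `K`-Lipschitz for the metric of `P` and vanishes at the base point -/
structure LipB (P : PointedMetric) (K : ℝ) (f : P.M → ℝ) : Prop where
  nonneg : 0 ≤ K
  base : f P.base = 0
  le : ∀ x y, |f x - f y| ≤ K * dist x y

lemma LipB.of_lip1 (f : P.Lip1) : LipB P 1 f.1 where
  nonneg := zero_le_one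
  base := f.2.2
  le x y := by
    have := f.2.1.dist_le_mul x y
    simpa [Real.dist_eq] using this

lemma lip1_of_lipB {f : P.M → ℝ} (h : LipB P 1 f) : LipschitzWith 1 f ∧ f P.base = 0 := by
  refine ⟨LipschitzWith.of_dist_le_mul fun x y => ?_, h.base⟩
  simpa [Real.dist_eq] using h.le x y

lemma pairing_smul_fun (a : P.Mol) (c : ℝ) (f : P.M → ℝ) :
    P.pairing a (fun x => c * f x) = c * P.pairing a f := by
  simp only [pairing_def, Finsupp.sum, Finset.mul_sum]
  exact Finset.sum_congr rfl fun _ _ => by ring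

lemma abs_pairing_le {K : ℝ} {f : P.M → ℝ} (h : LipB P K f) (a : P.Mol) :
    |P.pairing a f| ≤ K * ‖a‖ := by
  rcases h.nonneg.eq_or_lt with hK | hK
  · have h0 : f = fun _ => 0 := by
      funext x
      have := h.le x P.base
      rw [h.base, ← hK] at this
      simpa using this
    subst h0
    simp [pairing_def, ← hK]
  · have h1 : LipB P 1 (fun x => K⁻¹ * f x) :=
      ⟨zero_le_one, by simp [h.base], fun x y => by
        rw [← mul_sub, abs_mul, abs_of_pos (inv_pos.2 hK), one_mul,
          inv_mul_le_iff₀ hK]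
        exact h.le x y⟩
    have h2 := le_ciSup (P.freeNorm_bddAbove a) ⟨_, lip1_of_lipB h1⟩
    have h3 : |P.pairing a (fun x => K⁻¹ * f x)| ≤ ‖a‖ := h2
    rw [pairing_smul_fun, abs_mul, abs_of_pos (inv_pos.2 hK), inv_mul_le_iff₀ hK] at h3
    exact h3

lemma norm_mol_le {a : P.Mol} {C : ℝ} (h : ∀ f : P.M → ℝ, LipB P 1 f → |P.pairing a f| ≤ C) :
    ‖a‖ ≤ C :=
  ciSup_le fun f => h f.1 (LipB.of_lip1 f)

/-! ### extension of linear maps to the free space -/

section lift

variable {Y : Type*} [NormedAddCommGroup Y] [NormedSpace ℝ Y] [CompleteSpace Y]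

/-- Extension to the free space of a bounded linear map defined on molecules. -/
def liftMol (L : P.Mol →ₗ[ℝ] Y) (C : ℝ) (h : ∀ a, ‖L a‖ ≤ C * ‖a‖) : P.FreeSpace →L[ℝ] Y :=
  (L.mkContinuous C h).extend (Completion.toComplL (𝕜 := ℝ))

@[simp] lemma liftMol_coe (L : P.Mol →ₗ[ℝ] Y) (C : ℝ) (h : ∀ a, ‖L a‖ ≤ C * ‖a‖) (a : P.Mol) :
    liftMol L C h (a : P.FreeSpace) = L a := by
  have := ContinuousLinearMap.extend_eq (L.mkContinuous C h)
    (e := (Completion.toComplL (𝕜 := ℝ) : P.Mol →L[ℝ] P.FreeSpace))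
    (Completion.denseRange_coe) (Completion.isUniformInducing_coe _) a
  exact this

omit [CompleteSpace Y] in
/-- it is enough to bound the norm of an operator on molecules -/
lemma opNorm_le_of_mol (T : P.FreeSpace →L[ℝ] Y) {C : ℝ} (hC : 0 ≤ C)
    (h : ∀ a : P.Mol, ‖T (a : P.FreeSpace)‖ ≤ C * ‖a‖) : ‖T‖ ≤ C := by
  refine ContinuousLinearMap.opNorm_le_bound _ hC fun x => ?_
  refine Completion.induction_on x (isClosed_le (by fun_prop) (by fun_prop)) fun a => ?_
  rw [Completion.norm_coe]
  exact h a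

lemma norm_liftMol_le (L : P.Mol →ₗ[ℝ] Y) (C : ℝ) (hC : 0 ≤ C) (h : ∀ a, ‖L a‖ ≤ C * ‖a‖) :
    ‖liftMol L C h‖ ≤ C :=
  opNorm_le_of_mol _ hC fun a => by rw [liftMol_coe]; exact h a

omit [CompleteSpace Y] in
lemma ext_mol {T S : P.FreeSpace →L[ℝ] Y}
    (h : ∀ a : P.Mol, T (a : P.FreeSpace) = S (a : P.FreeSpace)) : T = S := by
  ext x
  refine Completion.induction_on x (isClosed_eq T.continuous S.continuous) h

end lift

/-- point evaluation -/
def delta (P : PointedMetric) (x : P.M) : P.FreeSpace := ((mol P (Finsupp.single x 1) : P.Mol) : _)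

lemma mol_eq_sum (a : P.Mol) :
    (a : P.FreeSpace) = (P.coeffs a).sum fun x r => r • delta P x := by
  have h1 : a = (P.coeffs a).sum fun x r => r • mol P (Finsupp.single x 1) := by
    conv_lhs => rw [← mol_coeffs a, ← molL_apply, ← Finsupp.sum_single (P.coeffs a)]
    rw [map_finsuppSum]
    refine Finsupp.sum_congr fun x _ => ?_
    rw [← molL_apply, ← map_smul, Finsupp.smul_single, smul_eq_mul, mul_one]
  conv_lhs => rw [h1]
  rw [← Completion.coe_toComplL (𝕜 := ℝ), map_finsuppSum]
  refine Finsupp.sum_congr fun x _ => ?_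
  rw [map_smul]
  rfl

/-- two operators agreeing at all `delta x` are equal -/
lemma ext_delta {Y : Type*} [NormedAddCommGroup Y] [NormedSpace ℝ Y] {T S : P.FreeSpace →L[ℝ] Y}
    (h : ∀ x : P.M, T (delta P x) = S (delta P x)) : T = S := by
  ext x
  refine Completion.induction_on x (isClosed_eq T.continuous S.continuous) fun a => ?_
  rw [mol_eq_sum, map_finsuppSum, map_finsuppSum]
  exact Finsupp.sum_congr fun x _ => by rw [map_smul, map_smul, h]

/-- pairing with `f` as a linear map -/
def pairingL (P : PointedMetric) (f : P.M → ℝ) : P.Mol →ₗ[ℝ] ℝ where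
  toFun a := P.pairing a f
  map_add' a b := P.pairing_add a b f
  map_smul' c a := P.pairing_smul c a f

@[simp] lemma pairingL_apply (f : P.M → ℝ) (a : P.Mol) : pairingL P f a = P.pairing a f := rfl

/-- The functional on the free space of a Lipschitz function vanishing at the base point. -/
def evalL {K : ℝ} {f : P.M → ℝ} (h : LipB P K f) : P.FreeSpace →L[ℝ] ℝ :=
  liftMol (pairingL P f) K fun a => by
    simpa using abs_pairing_le h a

@[simp] lemma evalL_coe {K : ℝ} {f : P.M → ℝ} (h : LipB P K f) (a : P.Mol) :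
    evalL h (a : P.FreeSpace) = P.pairing a f := by
  simp [evalL]

@[simp] lemma evalL_delta {K : ℝ} {f : P.M → ℝ} (h : LipB P K f) (x : P.M) :
    evalL h (delta P x) = f x := by
  simp [delta]

lemma norm_evalL_le {K : ℝ} {f : P.M → ℝ} (h : LipB P K f) : ‖evalL h‖ ≤ K :=
  norm_liftMol_le _ _ h.nonneg _

/-- norm of an element of the free space tested on Lipschitz functions (`≤` half) -/
lemma abs_evalL_le {K : ℝ} {f : P.M → ℝ} (h : LipB P K f) (x : P.FreeSpace) :
    |evalL h x| ≤ K * ‖x‖ := by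
  have := (evalL h).le_opNorm x
  rw [Real.norm_eq_abs] at this
  exact this.trans (mul_le_mul_of_nonneg_right (norm_evalL_le h) (norm_nonneg _))

/-! ### distances of point evaluations -/

lemma norm_delta_sub_le (x y : P.M) : ‖delta P x - delta P y‖ ≤ dist x y := by
  have h1 : delta P x - delta P y
      = ((mol P (Finsupp.single x 1) - mol P (Finsupp.single y 1) : P.Mol) : P.FreeSpace) := by
    rw [Completion.coe_sub]; rfl
  rw [h1, Completion.norm_coe]
  refine norm_mol_le fun f hf => ?_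
  have h2 : P.pairing (mol P (Finsupp.single x 1) - mol P (Finsupp.single y 1)) f
      = f x - f y := by
    rw [← pairingL_apply, map_sub]; simp
  rw [h2]
  simpa using hf.le x y

lemma delta_base : delta P P.base = 0 := by
  have h1 : ‖delta P P.base‖ ≤ 0 := by
    rw [delta, Completion.norm_coe]
    refine norm_mol_le fun f hf => ?_
    simp [hf.base]
  exact norm_le_zero_iff.1 h1

lemma norm_delta_le (x : P.M) : ‖delta P x‖ ≤ dist x P.base := by
  have := norm_delta_sub_le x P.base
  rwa [delta_base, sub_zero] at this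

/-- McShane-type: the distance function is `1`-Lipschitz, so `delta` is isometric. -/
lemma norm_delta_sub (x y : P.M) : ‖delta P x - delta P y‖ = dist x y := by
  refine le_antisymm (norm_delta_sub_le x y) ?_
  have hf : LipB P 1 (fun z => dist z y - dist P.base y) :=
    ⟨zero_le_one, by simp, fun u v => by
      rw [one_mul]
      have := abs_dist_sub_le u v y
      simpa using this⟩
  have h1 := abs_evalL_le hf (delta P x - delta P y)
  rw [map_sub, evalL_delta, evalL_delta, one_mul] at h1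
  simpa using h1

/-! ### functoriality -/

/-- Lipschitz base point preserving maps -/
structure LipMap (P Q : PointedMetric) (K : ℝ) (φ : P.M → Q.M) : Prop where
  nonneg : 0 ≤ K
  base : φ P.base = Q.base
  le : ∀ x y, dist (φ x) (φ y) ≤ K * dist x y

lemma LipMap.comp_lipB {K L : ℝ} {φ : P.M → Q.M} (h : LipMap P Q K φ) {f : Q.M → ℝ}
    (hf : LipB Q L f) : LipB P (L * K) (fun x => f (φ x)) :=
  ⟨mul_nonneg hf.nonneg h.nonneg, by simp [h.base, hf.base], fun x y =>
    (hf.le _ _).trans (by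
      rw [mul_assoc]
      exact mul_le_mul_of_nonneg_left (h.le x y) hf.nonneg)⟩

/-- the induced map on molecules -/
def mapMol (φ : P.M → Q.M) : P.Mol →ₗ[ℝ] Q.Mol :=
  (molL Q).comp ((Finsupp.lmapDomain ℝ ℝ φ).comp (coeffsL P))

lemma mapMol_apply (φ : P.M → Q.M) (a : P.Mol) :
    mapMol φ a = mol Q (Finsupp.mapDomain φ (P.coeffs a)) := rfl

lemma pairing_mapMol (φ : P.M → Q.M) (a : P.Mol) (f : Q.M → ℝ) :
    Q.pairing (mapMol φ a) f = P.pairing a (fun x => f (φ x)) := by
  rw [mapMol_apply, pairing_def, coeffs_mol, Finsupp.sum_mapDomain_index (by simp)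
    (by intros; ring), pairing_def]

lemma norm_mapMol_le {K : ℝ} {φ : P.M → Q.M} (h : LipMap P Q K φ) (a : P.Mol) :
    ‖mapMol (Q := Q) φ a‖ ≤ K * ‖a‖ := by
  refine norm_mol_le fun f hf => ?_
  rw [pairing_mapMol]
  have := abs_pairing_le (h.comp_lipB hf) a
  rwa [one_mul] at this

/-- the induced map on free spaces -/
def mapF {K : ℝ} {φ : P.M → Q.M} (h : LipMap P Q K φ) : P.FreeSpace →L[ℝ] Q.FreeSpace :=
  liftMol ((Completion.toComplₗᵢ (𝕜 := ℝ) (E := Q.Mol)).toLinearMap.comp (mapMol φ)) K fun a => by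
    simpa using norm_mapMol_le h a

@[simp] lemma mapF_coe {K : ℝ} {φ : P.M → Q.M} (h : LipMap P Q K φ) (a : P.Mol) :
    mapF h (a : P.FreeSpace) = ((mapMol φ a : Q.Mol) : Q.FreeSpace) := by
  simp [mapF]

@[simp] lemma mapF_delta {K : ℝ} {φ : P.M → Q.M} (h : LipMap P Q K φ) (x : P.M) :
    mapF h (delta P x) = delta Q (φ x) := by
  simp [delta, mapMol_apply, Finsupp.mapDomain_single]

lemma norm_mapF_le {K : ℝ} {φ : P.M → Q.M} (h : LipMap P Q K φ) : ‖mapF h‖ ≤ K :=
  norm_liftMol_le _ _ h.nonneg _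

/-! ### approximation on compact sets -/

/-- Uniformly bounded operators, eventually equal to `S` at each point of a dense set, approximate
`S` uniformly on compact sets. -/
lemma exists_approx_on_compact {X Y ι : Type*} [NormedAddCommGroup X] [NormedSpace ℝ X]
    [NormedAddCommGroup Y] [NormedSpace ℝ Y]
    [Nonempty ι] [Preorder ι] [IsDirected ι (· ≤ ·)] (T : ι → X →L[ℝ] Y) (S : X →L[ℝ] Y) {C : ℝ}
    (hT : ∀ i, ‖T i‖ ≤ C) (D : Set X) (hD : Dense D)
    (hTS : ∀ y ∈ D, ∃ i₀, ∀ i, i₀ ≤ i → T i y = S y)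
    {K : Set X} (hK : IsCompact K) {ε : ℝ} (hε : 0 < ε) :
    ∃ i₀, ∀ i, i₀ ≤ i → ∀ x ∈ K, ‖T i x - S x‖ ≤ ε := by
  classical
  have hC : 0 ≤ C := (norm_nonneg _).trans (hT (Classical.arbitrary ι))
  set δ : ℝ := ε / (C + ‖S‖ + 1) with hδ
  have hpos : 0 < C + ‖S‖ + 1 := by positivity
  have hδ0 : 0 < δ := div_pos hε hpos
  obtain ⟨t, htK, htf, htc⟩ := hK.finite_cover_balls (half_pos hδ0)
  have hex : ∀ c : X, ∃ y ∈ D, dist c y < δ / 2 := fun c => by
    obtain ⟨y, hy1, hy2⟩ := Metric.dense_iff.1 hD c (δ / 2) (half_pos hδ0)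
    exact ⟨y, hy2, by rw [dist_comm]; exact hy1⟩
  choose y hyD hy using hex
  choose i₀ hi₀ using hTS
  obtain ⟨I, hI⟩ := (htf.toFinset.image fun c => i₀ (y c) (hyD c)).exists_le
  refine ⟨I, fun i hi x hx => ?_⟩
  obtain ⟨c, hc, hxc⟩ := Set.mem_iUnion₂.1 (htc hx)
  have hTy : T i (y c) = S (y c) := by
    refine hi₀ (y c) (hyD c) i ((hI _ ?_).trans hi)
    exact Finset.mem_image_of_mem _ (htf.mem_toFinset.2 hc)
  have hxy : ‖x - y c‖ ≤ δ := by
    rw [← dist_eq_norm]
    have := dist_triangle x c (y c)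
    have h1 : dist x c < δ / 2 := hxc
    linarith [hy c]
  have h2 : T i x - S x = T i (x - y c) - S (x - y c) := by
    rw [map_sub, map_sub, hTy]; abel
  calc ‖T i x - S x‖ = ‖T i (x - y c) - S (x - y c)‖ := by rw [h2]
    _ ≤ ‖T i (x - y c)‖ + ‖S (x - y c)‖ := norm_sub_le _ _
    _ ≤ C * δ + ‖S‖ * δ := by
        refine add_le_add ?_ ?_
        · exact ((T i).le_opNorm _).trans (mul_le_mul (hT i) hxy (norm_nonneg _) hC)
        · exact (S.le_opNorm _).trans (mul_le_mul_of_nonneg_left hxy (norm_nonneg _))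
    _ = (C + ‖S‖) * δ := by ring
    _ ≤ (C + ‖S‖ + 1) * δ := by nlinarith
    _ = ε := by rw [hδ]; field_simp

end Crest.Agent.R115.W
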