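import Crest.Agent.R115.WFree

/-!
# Row 115: the wedge of a sequence of pointed metric spaces

`wedge P` is the pointed metric space obtained by gluing the `P l` at their base points.
-/

set_option autoImplicit false

open Crest.AnalysisR UniformSpace

noncomputable section

namespace Crest.Agent.R115.W

attribute [local instance] PointedMetric.metric

variable (P : ℕ → PointedMetric)

/-- the underlying type of the wedge -/
abbrev WedgeT : Type := Option (Σ l : ℕ, {x : (P l).M // x ≠ (P l).base})

variable {P}

/-- coordinate of a point of the wedge in the `l`-th piece -/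
def coord (p : WedgeT P) (l : ℕ) : (P l).M :=
  match p with
  | none => (P l).base
  | some ⟨k, x⟩ => Function.update (fun l => (P l).base) k x.1 l

/-- the piece where the point lives -/
def supp (p : WedgeT P) : Finset ℕ :=
  match p with
  | none => ∅
  | some ⟨k, _⟩ => {k}

@[simp] lemma coord_none (l : ℕ) : coord (none : WedgeT P) l = (P l).base := rfl

@[simp] lemma coord_some_self (l : ℕ) (x : {x : (P l).M // x ≠ (P l).base}) :
    coord (some ⟨l, x⟩ : WedgeT P) l = x.1 := by
  simp [coord]

lemma coord_some_ne {k l : ℕ} (h : l ≠ k) (x : {x : (P k).M // x ≠ (P k).base}) :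
    coord (some ⟨k, x⟩ : WedgeT P) l = (P l).base := by
  simp [coord, h]

lemma coord_eq_base {p : WedgeT P} {l : ℕ} (h : l ∉ supp p) : coord p l = (P l).base := by
  rcases p with _ | ⟨k, x⟩
  · rfl
  · exact coord_some_ne (by simpa [supp] using h) x

lemma ext_coord {p q : WedgeT P} (h : ∀ l, coord p l = coord q l) : p = q := by
  rcases p with _ | ⟨k, x⟩
  · rcases q with _ | ⟨k', y⟩
    · rfl
    · exact absurd ((coord_some_self k' y).symm.trans (h k').symm) y.2
  · have hx := h k
    rw [coord_some_self] at hx
    rcases q with _ | ⟨k', y⟩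
    · exact absurd hx x.2
    · by_cases hk : k = k'
      · subst hk
        rw [coord_some_self] at hx
        rw [Subtype.ext hx]
      · rw [coord_some_ne hk] at hx
        exact absurd hx x.2

/-- the distance in the wedge -/
def wdist (p q : WedgeT P) : ℝ := ∑ l ∈ supp p ∪ supp q, dist (coord p l) (coord q l)

lemma wdist_eq {p q : WedgeT P} {T : Finset ℕ} (hT : supp p ∪ supp q ⊆ T) :
    wdist p q = ∑ l ∈ T, dist (coord p l) (coord q l) := by
  refine Finset.sum_subset hT fun l _ hl => ?_
  rw [Finset.mem_union, not_or] at hl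
  rw [coord_eq_base hl.1, coord_eq_base hl.2, dist_self]

lemma dist_coord_le_wdist (p q : WedgeT P) (l : ℕ) : dist (coord p l) (coord q l) ≤ wdist p q := by
  rw [wdist_eq (T := insert l (supp p ∪ supp q)) (Finset.subset_insert _ _)]
  exact Finset.single_le_sum (f := fun l => dist (coord p l) (coord q l))
    (fun _ _ => dist_nonneg) (Finset.mem_insert_self _ _)

lemma wdist_self (p : WedgeT P) : wdist p p = 0 := by simp [wdist]

lemma wdist_comm (p q : WedgeT P) : wdist p q = wdist q p := by
  simp only [wdist, Finset.union_comm (supp p), dist_comm]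

lemma wdist_triangle (p q r : WedgeT P) : wdist p r ≤ wdist p q + wdist q r := by
  set T := supp p ∪ supp q ∪ supp r with hT
  have h1 : supp p ∪ supp r ⊆ T := by
    intro l hl; simp only [hT, Finset.mem_union] at *; tauto
  have h2 : supp p ∪ supp q ⊆ T := by
    intro l hl; simp only [hT, Finset.mem_union] at *; tauto
  have h3 : supp q ∪ supp r ⊆ T := by
    intro l hl; simp only [hT, Finset.mem_union] at *; tauto
  rw [wdist_eq h1, wdist_eq h2, wdist_eq h3, ← Finset.sum_add_distrib]
  exact Finset.sum_le_sum fun l _ => dist_triangle _ _ _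

lemma eq_of_wdist_eq_zero {p q : WedgeT P} (h : wdist p q = 0) : p = q :=
  ext_coord fun l => dist_le_zero.1 (h ▸ dist_coord_le_wdist p q l)

/-- inclusion of a piece -/
def incl (l : ℕ) (x : (P l).M) : WedgeT P :=
  open Classical in if h : x = (P l).base then none else some ⟨l, x, h⟩

lemma incl_of_eq {l : ℕ} {x : (P l).M} (h : x = (P l).base) : (incl l x : WedgeT P) = none :=
  dif_pos h

lemma incl_of_ne {l : ℕ} {x : (P l).M} (h : x ≠ (P l).base) :
    (incl l x : WedgeT P) = some ⟨l, x, h⟩ := dif_neg h

lemma supp_incl (l : ℕ) (x : (P l).M) : supp (incl l x : WedgeT P) ⊆ {l} := by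
  by_cases h : x = (P l).base
  · rw [incl_of_eq h]; simp [supp]
  · rw [incl_of_ne h]; simp [supp]

@[simp] lemma coord_incl_self (l : ℕ) (x : (P l).M) : coord (incl l x : WedgeT P) l = x := by
  by_cases h : x = (P l).base
  · rw [incl_of_eq h]; simp [h]
  · rw [incl_of_ne h]; simp

lemma incl_base (l : ℕ) : incl l (P l).base = (none : WedgeT P) := incl_of_eq rfl

lemma wdist_incl (l : ℕ) (x y : (P l).M) :
    wdist (incl l x : WedgeT P) (incl l y) = dist x y := by
  rw [wdist_eq (T := {l}) (Finset.union_subset (supp_incl l x) (supp_incl l y))]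
  simp

/-- retraction onto the first pieces -/
def trunc (L : ℕ) (p : WedgeT P) : WedgeT P :=
  match p with
  | none => none
  | some ⟨k, x⟩ => if k ≤ L then some ⟨k, x⟩ else none

lemma trunc_of_le {L k : ℕ} (h : k ≤ L) (x : {x : (P k).M // x ≠ (P k).base}) :
    trunc L (some ⟨k, x⟩ : WedgeT P) = some ⟨k, x⟩ := if_pos h

lemma trunc_of_not_le {L k : ℕ} (h : ¬ k ≤ L) (x : {x : (P k).M // x ≠ (P k).base}) :
    trunc L (some ⟨k, x⟩ : WedgeT P) = none := if_neg h

lemma trunc_eq_self {L : ℕ} {p : WedgeT P} (h : ∀ k ∈ supp p, k ≤ L) : trunc L p = p := by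
  rcases p with _ | ⟨k, x⟩
  · rfl
  · exact trunc_of_le (h k (by simp [supp])) x

lemma supp_trunc_subset (L : ℕ) (p : WedgeT P) : supp (trunc L p) ⊆ supp p := by
  rcases p with _ | ⟨k, x⟩
  · exact subset_rfl
  · by_cases hk : k ≤ L
    · rw [trunc_of_le hk]
    · rw [trunc_of_not_le hk]; simp [supp]

lemma le_of_mem_supp_trunc {L : ℕ} {p : WedgeT P} {k : ℕ}
    (h : k ∈ supp (trunc L p)) : k ≤ L := by
  rcases p with _ | ⟨k', x⟩
  · simp [trunc, supp] at h
  · by_cases hk : k' ≤ L
    · rw [trunc_of_le hk] at h
      simp [supp] at h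
      omega
    · rw [trunc_of_not_le hk] at h
      simp [supp] at h

lemma coord_trunc (L : ℕ) (p : WedgeT P) (l : ℕ) :
    coord (trunc L p) l = if l ≤ L then coord p l else (P l).base := by
  rcases p with _ | ⟨k, x⟩
  · simp [trunc]
  · by_cases hk : k ≤ L
    · rw [trunc_of_le hk]
      by_cases hl : l ≤ L
      · simp [hl]
      · rw [if_neg hl, coord_some_ne (by omega)]
    · rw [trunc_of_not_le hk, coord_none]
      split_ifs with hl
      · rw [coord_some_ne (by omega)]
      · rfl

lemma wdist_trunc_le (L : ℕ) (p q : WedgeT P) : wdist (trunc L p) (trunc L q) ≤ wdist p q := by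
  rw [wdist_eq (T := supp p ∪ supp q)
    (Finset.union_subset_union (supp_trunc_subset L p) (supp_trunc_subset L q))]
  refine Finset.sum_le_sum fun l _ => ?_
  rw [coord_trunc, coord_trunc]
  split_ifs
  · exact le_rfl
  · rw [dist_self]; exact dist_nonneg

/-- the metric of the wedge -/
@[instance_reducible]
def wedgeMetric (P : ℕ → PointedMetric) : MetricSpace (WedgeT P) where
  dist := wdist
  dist_self := wdist_self
  dist_comm := wdist_comm
  dist_triangle := wdist_triangle
  eq_of_dist_eq_zero := eq_of_wdist_eq_zero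

/-- The wedge of a sequence of pointed metric spaces. -/
def wedge (P : ℕ → PointedMetric) : PointedMetric where
  M := WedgeT P
  metric := wedgeMetric P
  base := none

lemma wedge_dist (p q : (wedge P).M) : dist p q = wdist (P := P) p q := rfl

/-- coordinate map from the wedge -/
def coordW (l : ℕ) (p : (wedge P).M) : (P l).M := coord (P := P) p l

/-- inclusion into the wedge -/
def inclW (l : ℕ) (x : (P l).M) : (wedge P).M := incl l x

/-- truncation on the wedge -/
def truncW (L : ℕ) (p : (wedge P).M) : (wedge P).M := trunc (P := P) L p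

@[simp] lemma coordW_inclW (l : ℕ) (x : (P l).M) : coordW (P := P) l (inclW l x) = x :=
  coord_incl_self l x

lemma dist_coord_le (p q : (wedge P).M) (l : ℕ) :
    dist (coordW (P := P) l p) (coordW (P := P) l q) ≤ dist p q := dist_coord_le_wdist p q l

lemma inclMap (l : ℕ) : LipMap (P l) (wedge P) 1 (inclW l) :=
  ⟨zero_le_one, incl_base l, fun x y => by
    rw [one_mul]; exact (wdist_incl l x y).le⟩

lemma coordMap (l : ℕ) : LipMap (wedge P) (P l) 1 (coordW l) :=
  ⟨zero_le_one, rfl, fun x y => by rw [one_mul]; exact dist_coord_le x y l⟩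

lemma truncMap (L : ℕ) : LipMap (wedge P) (wedge P) 1 (truncW L) :=
  ⟨zero_le_one, rfl, fun p q => by rw [one_mul]; exact wdist_trunc_le L p q⟩

lemma one_le_dist_wedge (h : ∀ l, ∀ x y : (P l).M, x ≠ y → 1 ≤ dist x y) (p q : (wedge P).M)
    (hpq : p ≠ q) : 1 ≤ dist p q := by
  by_contra hlt
  refine hpq (ext_coord fun l => ?_)
  by_contra hne
  exact hlt ((h l _ _ hne).trans (dist_coord_le p q l))

instance countable_wedge [∀ l, Countable (P l).M] : Countable (wedge P).M :=
  inferInstanceAs (Countable (WedgeT P))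

/-- points of the first pieces are at bounded distance from the base point -/
lemma exists_dist_trunc_le (h : ∀ l, ∃ D : ℝ, ∀ x y : (P l).M, dist x y ≤ D) (L : ℕ) :
    ∃ D : ℝ, ∀ p : (wedge P).M, (∀ k ∈ supp (P := P) p, k ≤ L) → dist p (wedge P).base ≤ D := by
  choose D hD using h
  refine ⟨∑ l ∈ Finset.range (L + 1), |D l|, fun p hp => ?_⟩
  have hsub : supp (P := P) p ∪ supp (none : WedgeT P) ⊆ Finset.range (L + 1) := by
    intro k hk
    have : supp (none : WedgeT P) = ∅ := rfl
    rw [this, Finset.union_empty] at hk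
    exact Finset.mem_range.2 (Nat.lt_succ_of_le (hp k hk))
  have h1 : dist p (wedge P).base = wdist (P := P) p none := rfl
  rw [h1, wdist_eq hsub]
  exact Finset.sum_le_sum fun l _ => (hD l _ _).trans (le_abs_self _)

end Crest.Agent.R115.W
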